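import Crest.Agent.R215.Defs

/-! Row 215, task CELL: information about one cell of a critical configuration. -/

set_option autoImplicit false

namespace Crest.Agent.R215

open MeasureTheory ProbabilityTheory Filter Topology Set
open scoped RealInnerProductSpace

noncomputable section

namespace CellAux

variable {ι : Type} [DecidableEq ι] {n : ℕ} {s : Finset ι} {v : ι → Eu n} {L : ℝ}

omit [DecidableEq ι] in
lemma L_pos (h : Crit s v L) : 0 < L := lam_pos.trans h.hL

lemma sum_erase (h : Crit s v L) {i : ι} (hi : i ∈ s) : ∑ j ∈ s.erase i, v j = -v i := by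
  have := h.zero
  rw [← Finset.sum_erase_add _ _ hi] at this
  exact eq_neg_of_add_eq_zero_left this

lemma exists_other (hc : 2 ≤ s.card) {i : ι} (hi : i ∈ s) : ∃ j, j ∈ s.erase i := by
  have : 0 < (s.erase i).card := by rw [Finset.card_erase_of_mem hi]; omega
  exact Finset.card_pos.1 this

lemma ne_zero (h : Crit s v L) (hc : 2 ≤ s.card) {i : ι} (hi : i ∈ s) : v i ≠ 0 := by
  obtain ⟨j, hj⟩ := exists_other hc hi
  intro e
  have := h.neg i hi j (Finset.mem_of_mem_erase hj) (Finset.ne_of_mem_erase hj).symm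
  rw [e, inner_zero_left] at this
  exact lt_irrefl _ this

/-- the vectors `v j`, `j ≠ i`, are linearly independent (dual form) -/
lemma exists_dual (h : Crit s v L) {i : ι} (hi : i ∈ s) (b : ι → ℝ) :
    ∃ u : Eu n, ∀ j ∈ s.erase i, ⟪v j, u⟫ = b j := by
  set A : Matrix (s.erase i) (s.erase i) ℝ := fun j k => ⟪v j, v k⟫ with hA
  have hdet : A.det ≠ 0 := by
    apply det_ne_zero_of_sum_row_lt_diag
    intro k
    have hk := Finset.mem_of_mem_erase k.2
    have hki := Finset.ne_of_mem_erase k.2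
    have e1 : ∑ j ∈ Finset.univ.erase k, ‖A k j‖ = -∑ j ∈ Finset.univ.erase k, A k j := by
      rw [← Finset.sum_neg_distrib]
      refine Finset.sum_congr rfl fun j hj => ?_
      have hjk : (k : ι) ≠ j := fun e => Finset.ne_of_mem_erase hj (Subtype.ext e.symm)
      exact abs_of_neg (h.neg k hk j (Finset.mem_of_mem_erase j.2) hjk)
    have e2 : ∑ j ∈ Finset.univ.erase k, A k j + A k k = -⟪v k, v i⟫ := by
      rw [Finset.sum_erase_add _ _ (Finset.mem_univ k)]
      simp only [hA]
      rw [Finset.sum_coe_sort (s.erase i) (fun j => ⟪v k, v j⟫), ← inner_sum, sum_erase h hi,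
        inner_neg_right]
    have e3 := h.neg k hk i hi hki
    have e4 : ‖A k k‖ = A k k := abs_of_nonneg real_inner_self_nonneg
    rw [e1, e4]; linarith
  have hu : IsUnit A := (Matrix.isUnit_iff_isUnit_det A).2 (isUnit_iff_ne_zero.2 hdet)
  obtain ⟨a, ha⟩ := (Matrix.mulVec_surjective_iff_isUnit.2 hu) fun j => b j
  refine ⟨∑ k : s.erase i, a k • v k, fun j hj => ?_⟩
  have := congrFun ha ⟨j, hj⟩
  simp only [Matrix.mulVec, dotProduct, hA] at this
  rw [inner_sum, ← this]
  exact Finset.sum_congr rfl fun k _ => by rw [real_inner_smul_right, mul_comm]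

omit [DecidableEq ι] in
lemma cell_pos (h : Crit s v L) {i : ι} (hi : i ∈ s) (h0 : v i ≠ 0) :
    0 < (gam n).real (cell s v i) := by
  rcases (measureReal_nonneg (μ := gam n) (s := cell s v i)).lt_or_eq with h1 | h1
  · exact h1
  · exfalso
    have h2 : gam n (cell s v i) = 0 := by
      rw [← measureReal_eq_zero_iff]; exact h1.symm
    have h3 := h.hz i hi (v i)
    rw [setIntegral_measure_zero _ h2, real_inner_self_eq_norm_sq] at h3
    have : 0 < L * ‖v i‖ ^ 2 := by have := L_pos h; positivity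
    linarith

lemma cell_lt_one (h : Crit s v L) (hc : 2 ≤ s.card) {i : ι} (hi : i ∈ s) :
    (gam n).real (cell s v i) < 1 := by
  obtain ⟨j, hj⟩ := exists_other hc hi
  have h1 := h.hp
  rw [← Finset.sum_erase_add _ _ hi] at h1
  have h2 : (gam n).real (cell s v j) ≤ ∑ k ∈ s.erase i, (gam n).real (cell s v k) :=
    Finset.single_le_sum (f := fun k => (gam n).real (cell s v k))
      (fun _ _ => measureReal_nonneg) hj
  have h3 := cell_pos h (Finset.mem_of_mem_erase hj) (ne_zero h hc (Finset.mem_of_mem_erase hj))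
  linarith

omit [DecidableEq ι] in
lemma unit_moment (h : Crit s v L) {i : ι} (hi : i ∈ s) (h0 : v i ≠ 0) :
    ‖(‖v i‖⁻¹ • v i : Eu n)‖ = 1 ∧
      ∫ g in cell s v i, ⟪(‖v i‖⁻¹ • v i : Eu n), g⟫ ∂gam n = L * ‖v i‖ := by
  have hn : 0 < ‖v i‖ := norm_pos_iff.2 h0
  refine ⟨by rw [norm_smul, norm_inv, norm_norm]; field_simp, ?_⟩
  rw [h.hz i hi, real_inner_smul_left, real_inner_self_eq_norm_sq]
  field_simp

lemma sqrt_bound {y : ℝ} (h0 : 0 ≤ y) (h1 : y ≤ 1) :
    √(1 - y) ≤ 1 - (y / 2 + y ^ 2 / 8 + y ^ 3 / 16) := by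
  have h2 : y ^ 2 ≤ 1 := by nlinarith
  have h3 : y ^ 3 ≤ 1 := pow_le_one₀ h0 h1
  rw [Real.sqrt_le_left (by linarith)]
  have h4 : 0 ≤ y ^ 4 := by positivity
  have h5 : 0 ≤ y ^ 5 := by positivity
  have h6 : 0 ≤ y ^ 6 := by positivity
  nlinarith

/-- the main estimate from `DelStmt` -/
lemma key (hD : DelStmt) (h : Crit s v L) (hc : 3 ≤ s.card) {i : ι} (hi : i ∈ s) {x : ℝ}
    (hx : Phi x = (gam n).real (cell s v i)) : lam ^ 2 * hl (‖v i‖ ^ 2) ≤ Psi x := by
  obtain ⟨j0, hj0⟩ := exists_other (by omega : 2 ≤ s.card) hi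
  have ht : (s.erase i).Nonempty := ⟨j0, hj0⟩
  set m : ℝ := ((s.erase i).card : ℝ) with hm
  have hm2 : 2 ≤ m := by
    have : 2 ≤ (s.erase i).card := by rw [Finset.card_erase_of_mem hi]; omega
    rw [hm]; exact_mod_cast this
  obtain ⟨u, hu⟩ := exists_dual h hi fun _ => -1 / (m + 1)
  have hui : ⟪v i, u⟫ = m / (m + 1) := by
    have e : ⟪∑ j ∈ s.erase i, v j, u⟫ = m * (-1 / (m + 1)) := by
      rw [sum_inner, Finset.sum_congr rfl hu, Finset.sum_const, nsmul_eq_mul]
    rw [sum_erase h hi, inner_neg_left] at e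
    have : m * (-1 / (m + 1)) = -(m / (m + 1)) := by ring
    linarith
  set G : Eu n → ℝ := fun g => ⟪v i, g⟫ - mx (s.erase i) v g with hG
  have hLip : Lip (‖v i‖ + ∑ j ∈ s.erase i, ‖v j‖) G := by
    intro a b
    have h1 := lip_mx (s.erase i) v a b
    have h2 := abs_real_inner_le_norm (v i) (a - b)
    rw [inner_sub_right] at h2
    have e : G a - G b = (⟪v i, a⟫ - ⟪v i, b⟫) - (mx (s.erase i) v a - mx (s.erase i) v b) := by
      simp only [hG]; ring
    rw [e, add_mul]
    exact (abs_sub _ _).trans (add_le_add h2 h1)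
  have hMid : Mid G G G := by
    intro a b
    have h1 : mx (s.erase i) v ((1 / 2 : ℝ) • (a + b)) ≤
        (mx (s.erase i) v a + mx (s.erase i) v b) / 2 := by
      refine mx_le ht fun j hj => ?_
      rw [real_inner_smul_right, inner_add_right]
      linarith [le_mx v a hj, le_mx v b hj]
    simp only [hG]
    rw [real_inner_smul_right, inner_add_right]
    linarith
  have hsh : ∀ g (t : ℝ), G (g + t • u) = G g + t := by
    intro g t
    have e : mx (s.erase i) v (g + t • u) = mx (s.erase i) v g + t * (-1 / (m + 1)) := by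
      apply le_antisymm
      · refine mx_le ht fun j hj => ?_
        rw [inner_add_right, real_inner_smul_right, hu j hj]
        linarith [le_mx v g hj]
      · obtain ⟨j, hj, e⟩ := exists_mx ht v g
        have := le_mx v (g + t • u) hj
        rw [inner_add_right, real_inner_smul_right, hu j hj] at this
        linarith
    simp only [hG]
    rw [e, inner_add_right, real_inner_smul_right, hui]
    field_simp
    ring
  have hcell : {g | 0 < G g} = cell s v i := by
    ext g
    simp only [hG, mem_ofPred_eq, cell, sub_pos]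
    constructor
    · intro hg j hj hji
      exact (le_mx v g (Finset.mem_erase.2 ⟨hji, hj⟩)).trans_lt hg
    · intro hg
      obtain ⟨j, hj, e⟩ := exists_mx ht v g
      rw [e]
      exact hg j (Finset.mem_of_mem_erase hj) (Finset.ne_of_mem_erase hj)
  have hd := hD n G u _ x hLip hMid hsh (by rw [hcell]; exact hx)
  rw [hcell, h.hz i hi u, real_inner_comm, hui] at hd
  have hint : ∫ g, max (G g) 0 ∂gam n = L - F (s.erase i) v := by
    rw [← h.hF, F, F, ← integral_sub (integrable_mx s v) (integrable_mx _ v)]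
    congr 1
    funext g
    have e : mx s v g = max ⟪v i, g⟫ (mx (s.erase i) v g) := by
      apply le_antisymm
      · refine mx_le ⟨i, hi⟩ fun j hj => ?_
        by_cases hji : j = i
        · rw [hji]; exact le_max_left _ _
        · exact (le_mx v g (Finset.mem_erase.2 ⟨hji, hj⟩)).trans (le_max_right _ _)
      · exact max_le (le_mx v g hi) (mx_le ht fun j hj => le_mx v g (Finset.mem_of_mem_erase hj))
    rw [e]
    simp only [hG]
    rw [← max_sub_sub_right, sub_self]
  set r := ‖v i‖ ^ 2 with hr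
  have hr0 : 0 ≤ r := sq_nonneg _
  have hsum : ∑ j ∈ s.erase i, ‖v j + m⁻¹ • v i‖ ^ 2 = 1 - (m + 1) / m * r := by
    have e1 : ∑ j ∈ s.erase i, ‖v j‖ ^ 2 = 1 - r := by
      rw [← h.norm1, ← Finset.sum_erase_add _ _ hi]; ring
    have e2 : ∑ j ∈ s.erase i, ⟪v j, m⁻¹ • v i⟫ = -(m⁻¹ * r) := by
      rw [← sum_inner, sum_erase h hi, inner_neg_left, real_inner_smul_right,
        real_inner_self_eq_norm_sq]
    simp only [norm_add_sq_real]
    rw [Finset.sum_add_distrib, Finset.sum_add_distrib, ← Finset.mul_sum, e1, e2,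
      Finset.sum_const, nsmul_eq_mul, ← hm, norm_smul, mul_pow, Real.norm_eq_abs, sq_abs, ← hr]
    field_simp
    ring
  have hb := h.ind (s.erase i) (Finset.erase_ssubset hi) ht fun j => v j + m⁻¹ • v i
  rw [F_add ht, hsum] at hb
  set κ := (m + 1) / m with hκ
  have hκ1 : 1 ≤ κ := by rw [hκ, le_div_iff₀ (by linarith)]; linarith
  have hy1 : κ * r ≤ 1 := by
    have : 0 ≤ ∑ j ∈ s.erase i, ‖v j + m⁻¹ • v i‖ ^ 2 := Finset.sum_nonneg fun _ _ => sq_nonneg _
    linarith
  have hy0 : 0 ≤ κ * r := by positivity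
  have hs := sqrt_bound hy0 hy1
  have hlam := lam_pos
  have hLl := h.hL
  have hA : lam * (κ * hl r) ≤ L - F (s.erase i) v := by
    have h1 : κ * hl r ≤ κ * r / 2 + (κ * r) ^ 2 / 8 + (κ * r) ^ 3 / 16 := by
      unfold hl
      have a1 : κ * r ^ 2 ≤ (κ * r) ^ 2 := by
        rw [mul_pow]; exact mul_le_mul_of_nonneg_right (by nlinarith) (sq_nonneg _)
      have a2 : κ * r ^ 3 ≤ (κ * r) ^ 3 := by
        rw [mul_pow]
        refine mul_le_mul_of_nonneg_right ?_ (by positivity)
        calc κ = κ ^ 1 := (pow_one κ).symm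
          _ ≤ κ ^ 3 := pow_le_pow_right₀ hκ1 (by norm_num)
      linarith
    have h2 := mul_le_mul_of_nonneg_left h1 hlam.le
    have h3 := mul_le_mul_of_nonneg_left hs hlam.le
    nlinarith
  have hhl : 0 ≤ hl r := by unfold hl; positivity
  have hm0 : 0 < m / (m + 1) := by positivity
  rw [hint] at hd
  refine le_trans ?_ hd
  calc lam ^ 2 * hl r = lam * (κ * hl r) * (lam * (m / (m + 1))) := by
        rw [hκ]; field_simp
    _ ≤ (L - F (s.erase i) v) * (L * (m / (m + 1))) := by
        refine mul_le_mul hA (mul_le_mul_of_nonneg_right hLl.le hm0.le) (by positivity) ?_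
        exact le_trans (by positivity) hA

end CellAux

open CellAux in
theorem cellS (hP : PhiB) (hD : DelStmt) : CellStmt := by
  intro ι _ n s v L h hc i hi
  have h0 := ne_zero h (by omega) hi
  have hp0 := cell_pos h hi h0
  have hp1 := cell_lt_one h (by omega) hi
  obtain ⟨x, hx⟩ := hP.surj _ hp0 hp1
  have hk := key hD h hc hi hx
  refine ⟨by positivity, hp0.le, ?_, fun x0 => ?_, fun a => ?_⟩
  · rw [← hx]; exact hk.trans (hP.lc x)
  · rw [← hx]; exact hk.trans (hP.q x x0)
  · obtain ⟨e1, e2⟩ := unit_moment h hi h0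
    set e : Eu n := ‖v i‖⁻¹ • v i with he
    rw [Real.sqrt_sq (norm_nonneg _), ← hP.pos1 a]
    have h1 := integral_inner_comp e (fun t => max (t - a) 0) (by fun_prop)
    simp only [e1, one_mul] at h1
    have hint : Integrable (fun g => max (⟪e, g⟫ - a) 0) (gam n) :=
      ((integrable_inner e).sub (integrable_const a)).pos_part
    have h2 : ∫ g in cell s v i, (⟪e, g⟫ - a) ∂gam n ≤ ∫ g, max (⟪e, g⟫ - a) 0 ∂gam n :=
      (setIntegral_mono ((integrable_inner e).sub (integrable_const a)).integrableOn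
        hint.integrableOn fun g => le_max_left _ _).trans
        (setIntegral_le_integral hint (ae_of_all _ fun g => le_max_right _ _))
    rw [integral_sub (integrable_inner e).integrableOn (integrable_const a), e2, h1,
      setIntegral_const, smul_eq_mul] at h2
    have h3 : lam * ‖v i‖ ≤ L * ‖v i‖ := mul_le_mul_of_nonneg_right h.hL.le (norm_nonneg _)
    linarith [mul_comm a ((gam n).real (cell s v i))]

open CellAux in
theorem cell4 (hI : I3Stmt) : Cell4Stmt := by
  intro ι _ n s v L h hc i hi hp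
  have h0 := ne_zero h (by omega) hi
  have hp0 := cell_pos h hi h0
  obtain ⟨he1, hmom⟩ := unit_moment h hi h0
  have hc3 : (s.erase i).card = 3 := by rw [Finset.card_erase_of_mem hi]; omega
  obtain ⟨a, b, c, hab, hac, hbc, e3⟩ := Finset.card_eq_three.1 hc3
  have ha : a ∈ s.erase i := by rw [e3]; simp
  have hb : b ∈ s.erase i := by rw [e3]; simp
  have hcm : c ∈ s.erase i := by rw [e3]; simp
  have hai := Finset.ne_of_mem_erase ha
  have hbi := Finset.ne_of_mem_erase hb
  have hci := Finset.ne_of_mem_erase hcm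
  have hcs := Finset.mem_of_mem_erase hcm
  have hi' : i ∈ s.erase c := Finset.mem_erase.2 ⟨hci.symm, hi⟩
  have ha' : a ∈ s.erase c := Finset.mem_erase.2 ⟨hac, Finset.mem_of_mem_erase ha⟩
  have hb' : b ∈ s.erase c := Finset.mem_erase.2 ⟨hbc, Finset.mem_of_mem_erase hb⟩
  obtain ⟨ua, hua⟩ := exists_dual h hcs fun j => if j = a then 1 else 0
  obtain ⟨ub, hub⟩ := exists_dual h hcs fun j => if j = b then 1 else 0
  have hua_i : ⟪v i, ua⟫ = 0 := by rw [hua i hi']; simp [hai.symm]
  have hua_a : ⟪v a, ua⟫ = 1 := by rw [hua a ha']; simp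
  have hub_i : ⟪v i, ub⟫ = 0 := by rw [hub i hi']; simp [hbi.symm]
  have hub_a : ⟪v a, ub⟫ = 0 := by rw [hub a ha']; simp [hab]
  have hub_b : ⟪v b, ub⟫ = 1 := by rw [hub b hb']; simp
  obtain ⟨e1, he1d⟩ : ∃ e1 : Eu n, e1 = ‖v i‖⁻¹ • v i := ⟨_, rfl⟩
  rw [← he1d] at he1 hmom
  have e11 : ⟪e1, e1⟫ = 1 := by rw [real_inner_self_eq_norm_sq, he1]; norm_num
  obtain ⟨w2, hw2⟩ : ∃ w2 : Eu n, w2 = v a - ⟪e1, v a⟫ • e1 := ⟨_, rfl⟩
  have hw20 : w2 ≠ 0 := by
    intro e
    have : ⟪w2, ua⟫ = 1 := by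
      rw [hw2, inner_sub_left, hua_a, real_inner_smul_left, he1d, real_inner_smul_left (v i) ua,
        hua_i]; simp
    rw [e, inner_zero_left] at this
    exact zero_ne_one this
  have hn2 : 0 < ‖w2‖ := norm_pos_iff.2 hw20
  obtain ⟨e2, he2d⟩ : ∃ e2 : Eu n, e2 = ‖w2‖⁻¹ • w2 := ⟨_, rfl⟩
  have he2 : ‖e2‖ = 1 := by rw [he2d, norm_smul, norm_inv, norm_norm]; field_simp
  have e22 : ⟪e2, e2⟫ = 1 := by rw [real_inner_self_eq_norm_sq, he2]; norm_num
  have e12 : ⟪e1, e2⟫ = 0 := by
    rw [he2d, real_inner_smul_right, hw2, inner_sub_right, real_inner_smul_right, e11]; simp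
  obtain ⟨w3, hw3⟩ : ∃ w3 : Eu n, w3 = v b - ⟪e1, v b⟫ • e1 - ⟪e2, v b⟫ • e2 := ⟨_, rfl⟩
  have he1b : ⟪e1, ub⟫ = 0 := by rw [he1d, real_inner_smul_left, hub_i, mul_zero]
  have he2b : ⟪e2, ub⟫ = 0 := by
    rw [he2d, real_inner_smul_left, hw2, inner_sub_left, hub_a, real_inner_smul_left, he1b]; simp
  have hw30 : w3 ≠ 0 := by
    intro e
    have : ⟪w3, ub⟫ = 1 := by
      rw [hw3, inner_sub_left, inner_sub_left, hub_b, real_inner_smul_left, real_inner_smul_left,
        he1b, he2b]; simp
    rw [e, inner_zero_left] at this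
    exact zero_ne_one this
  have hn3 : 0 < ‖w3‖ := norm_pos_iff.2 hw30
  obtain ⟨e3', he3d⟩ : ∃ e3' : Eu n, e3' = ‖w3‖⁻¹ • w3 := ⟨_, rfl⟩
  have he3 : ‖e3'‖ = 1 := by rw [he3d, norm_smul, norm_inv, norm_norm]; field_simp
  have e13 : ⟪e1, e3'⟫ = 0 := by
    rw [he3d, real_inner_smul_right, hw3, inner_sub_right, inner_sub_right, real_inner_smul_right,
      real_inner_smul_right, e11, e12]; simp
  have e23 : ⟪e2, e3'⟫ = 0 := by
    rw [he3d, real_inner_smul_right, hw3, inner_sub_right, inner_sub_right, real_inner_smul_right,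
      real_inner_smul_right, e22, real_inner_comm e1 e2, e12]; simp
  have hn1 : 0 < ‖v i‖ := norm_pos_iff.2 h0
  have hI3 := hI n e1 e2 e3' (cell s v i) he1 he2 he3 e12 e13 e23 (measurableSet_cell s v i)
    (fun g hg t ht j hj hji => by
      rw [real_inner_smul_right, real_inner_smul_right]
      exact mul_lt_mul_of_pos_left (hg j hj hji) ht)
    (fun g hg g' h1 h2 h3 => by
      have d1 : ⟪e1, g' - g⟫ = 0 := by rw [inner_sub_right, h1, sub_self]
      have d2 : ⟪e2, g' - g⟫ = 0 := by rw [inner_sub_right, h2, sub_self]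
      have d3 : ⟪e3', g' - g⟫ = 0 := by rw [inner_sub_right, h3, sub_self]
      have fi : ⟪v i, g' - g⟫ = 0 := by
        rw [he1d, real_inner_smul_left] at d1
        exact (mul_eq_zero.1 d1).resolve_left (inv_pos.2 hn1).ne'
      have fa : ⟪v a, g' - g⟫ = 0 := by
        rw [he2d, real_inner_smul_left] at d2
        have := (mul_eq_zero.1 d2).resolve_left (inv_pos.2 hn2).ne'
        rw [hw2, inner_sub_left, real_inner_smul_left, d1] at this
        simpa using this
      have fb : ⟪v b, g' - g⟫ = 0 := by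
        rw [he3d, real_inner_smul_left] at d3
        have := (mul_eq_zero.1 d3).resolve_left (inv_pos.2 hn3).ne'
        rw [hw3, inner_sub_left, inner_sub_left, real_inner_smul_left, real_inner_smul_left,
          d1, d2] at this
        simpa using this
      have fc : ⟪v c, g' - g⟫ = 0 := by
        have e := sum_erase h hi
        rw [e3, Finset.sum_insert (by simp [hab, hac]), Finset.sum_pair hbc] at e
        have e' := congrArg (fun w => ⟪w, g' - g⟫) e
        simp only [inner_add_left, inner_neg_left, fi, fa, fb] at e'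
        linarith
      have fall : ∀ j ∈ s, ⟪v j, g'⟫ = ⟪v j, g⟫ := by
        intro j hj
        rw [← sub_eq_zero, ← inner_sub_right]
        by_cases hji : j = i
        · rw [hji]; exact fi
        · have : j ∈ s.erase i := Finset.mem_erase.2 ⟨hji, hj⟩
          rw [e3] at this
          simp only [Finset.mem_insert, Finset.mem_singleton] at this
          rcases this with rfl | rfl | rfl
          exacts [fa, fb, fc]
      intro j hj hji
      rw [fall j hj, fall i hi]
      exact hg j hj hji) hp0 hp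
  rw [hmom] at hI3
  have h3 : lam * ‖v i‖ < L * ‖v i‖ := mul_lt_mul_of_pos_right h.hL hn1
  have hsq : 0 < √(2 * Real.pi) := Real.sqrt_pos.2 (by have := Real.pi_pos; positivity)
  have h4 := h3.trans_le hI3
  unfold lam at h4
  rw [div_mul_eq_mul_div, div_lt_div_iff₀ (by positivity) hsq] at h4
  have h5 := lt_of_mul_lt_mul_right (a := √(2 * Real.pi)) (b := 3 * ‖v i‖)
    (c := 8 * ((gam n).real (cell s v i) * (1 - (gam n).real (cell s v i)))) (by linarith) hsq.le
  linarith

end

end Crest.Agent.R215
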