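import Crest.Agent.R215.Defs

/-! Row 215, task CRIT: a minimal counterexample has a maximiser with the structure `Crit`. -/

set_option autoImplicit false

namespace Crest.Agent.R215

open MeasureTheory ProbabilityTheory Filter Topology Set
open scoped RealInnerProductSpace

noncomputable section

namespace CritAux

variable {ι : Type} {n : ℕ}

lemma mx_congr {s : Finset ι} {v w : ι → Eu n} (h : ∀ i ∈ s, v i = w i) : mx s v = mx s w := by
  funext g
  unfold mx
  congr 1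
  funext i
  rw [h i i.2]

lemma F_congr {s : Finset ι} {v w : ι → Eu n} (h : ∀ i ∈ s, v i = w i) : F s v = F s w := by
  unfold F; rw [mx_congr h]

lemma mx_smul {s : Finset ι} (hs : s.Nonempty) (v : ι → Eu n) {c : ℝ} (hc : 0 ≤ c) (g : Eu n) :
    mx s (fun i => c • v i) g = c * mx s v g := by
  apply le_antisymm
  · refine mx_le hs fun i hi => ?_
    rw [real_inner_smul_left]
    exact mul_le_mul_of_nonneg_left (le_mx v g hi) hc
  · obtain ⟨i, hi, e⟩ := exists_mx hs v g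
    have := le_mx (fun i => c • v i) g hi
    rw [real_inner_smul_left] at this
    rw [e]; exact this

lemma F_smul {s : Finset ι} (hs : s.Nonempty) (v : ι → Eu n) {c : ℝ} (hc : 0 ≤ c) :
    F s (fun i => c • v i) = c * F s v := by
  unfold F
  simp_rw [mx_smul hs v hc]
  rw [integral_const_mul]

lemma F_sub_le [Fintype ι] {s : Finset ι} (hs : s.Nonempty) (v w : ι → Eu n) :
    F s v - F s w ≤ (∫ g, ‖g‖ ∂gam n) * ‖v - w‖ := by
  unfold F
  rw [← integral_sub (integrable_mx s v) (integrable_mx s w), ← integral_mul_const]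
  refine integral_mono ((integrable_mx s v).sub (integrable_mx s w))
    (IsGaussian.integrable_id.norm.mul_const _) fun g => ?_
  obtain ⟨i, hi, e⟩ := exists_mx hs v g
  have h1 := le_mx w g hi
  have h2 := real_inner_le_norm (v i - w i) g
  rw [inner_sub_left] at h2
  have h3 : ‖v i - w i‖ ≤ ‖v - w‖ := norm_le_pi_norm (v - w) i
  have h4 := mul_le_mul_of_nonneg_right h3 (norm_nonneg g)
  show mx s v g - mx s w g ≤ ‖g‖ * ‖v - w‖
  linarith [mul_comm ‖g‖ ‖v - w‖]

lemma continuous_F [Fintype ι] {s : Finset ι} (hs : s.Nonempty) :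
    Continuous (F s : (ι → Eu n) → ℝ) := by
  apply Lip.continuous (L := ∫ g, ‖g‖ ∂gam n)
  intro v w
  have a := F_sub_le hs v w
  have b := F_sub_le hs w v
  rw [norm_sub_rev] at b
  exact abs_le.2 ⟨by linarith, a⟩

/-- existence of a maximiser -/
lemma exists_max [Fintype ι] [DecidableEq ι] {s : Finset ι} (hs : s.Nonempty) (hb : ¬ Bd n s) :
    ∃ (v : ι → Eu n) (L : ℝ), lam < L ∧ ∑ i ∈ s, ‖v i‖ ^ 2 = 1 ∧ F s v = L ∧
      ∀ w : ι → Eu n, F s w ≤ L * √(∑ i ∈ s, ‖w i‖ ^ 2) := by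
  -- normalisation
  set K : Set (ι → Eu n) := {w | ∑ i ∈ s, ‖w i‖ ^ 2 = 1} ∩ {w | ∀ i, i ∉ s → w i = 0} with hK
  have hnorm : ∀ w : ι → Eu n, 0 < ∑ i ∈ s, ‖w i‖ ^ 2 →
      ∃ w' ∈ K, F s w = √(∑ i ∈ s, ‖w i‖ ^ 2) * F s w' := by
    intro w hw
    set N := √(∑ i ∈ s, ‖w i‖ ^ 2) with hN
    have hN0 : 0 < N := Real.sqrt_pos.2 hw
    have hN2 : N ^ 2 = ∑ i ∈ s, ‖w i‖ ^ 2 := Real.sq_sqrt hw.le
    refine ⟨fun i => if i ∈ s then N⁻¹ • w i else 0, ⟨?_, ?_⟩, ?_⟩
    · show ∑ i ∈ s, ‖(if i ∈ s then N⁻¹ • w i else 0)‖ ^ 2 = 1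
      rw [Finset.sum_congr rfl (g := fun i => N⁻¹ ^ 2 * ‖w i‖ ^ 2)]
      · rw [← Finset.mul_sum, ← hN2]; field_simp
      · intro i hi
        rw [if_pos hi, norm_smul, mul_pow, Real.norm_eq_abs, sq_abs]
    · intro i hi
      simp [hi]
    · rw [F_congr (s := s) (v := fun i => if i ∈ s then N⁻¹ • w i else 0)
        (w := fun i => N⁻¹ • w i) (fun i hi => by simp [hi]), F_smul hs w (by positivity)]
      field_simp
  have hzero : ∀ w : ι → Eu n, ∑ i ∈ s, ‖w i‖ ^ 2 = 0 → F s w = 0 := by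
    intro w hw
    have h0 : ∀ i ∈ s, w i = (0 : ℝ) • w i := by
      intro i hi
      have := (Finset.sum_eq_zero_iff_of_nonneg (fun i _ => sq_nonneg ‖w i‖)).1 hw i hi
      have : w i = 0 := by simpa using this
      simp [this]
    rw [F_congr h0, F_smul hs w le_rfl, zero_mul]
  have hKc : IsCompact K := by
    apply Metric.isCompact_of_isClosed_isBounded
    · refine IsClosed.inter (isClosed_eq (by fun_prop) continuous_const) ?_
      have : {w : ι → Eu n | ∀ i, i ∉ s → w i = 0} = ⋂ i, ⋂ (_ : i ∉ s), {w | w i = 0} := by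
        ext; simp
      rw [this]
      exact isClosed_iInter fun i => isClosed_iInter fun _ =>
        isClosed_eq (by fun_prop) continuous_const
    · refine (Metric.isBounded_closedBall (x := (0 : ι → Eu n)) (r := 1)).subset ?_
      rintro w ⟨h1, h2⟩
      rw [mem_closedBall_zero_iff]
      refine (pi_norm_le_iff_of_nonneg zero_le_one).2 fun i => ?_
      by_cases hi : i ∈ s
      · have : ‖w i‖ ^ 2 ≤ ∑ i ∈ s, ‖w i‖ ^ 2 :=
          Finset.single_le_sum (f := fun i => ‖w i‖ ^ 2) (fun _ _ => sq_nonneg _) hi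
        have h1' : ∑ i ∈ s, ‖w i‖ ^ 2 = 1 := h1
        nlinarith [norm_nonneg (w i)]
      · rw [h2 i hi]; simp
  simp only [Bd, not_forall, not_le] at hb
  obtain ⟨w0, hw0⟩ := hb
  have hpos : 0 < ∑ i ∈ s, ‖w0 i‖ ^ 2 := by
    rcases (Finset.sum_nonneg (fun i (_ : i ∈ s) => sq_nonneg ‖w0 i‖)).lt_or_eq with h | h
    · exact h
    · rw [hzero w0 h.symm, ← h] at hw0; simp at hw0
  obtain ⟨w1, hw1, e1⟩ := hnorm w0 hpos
  obtain ⟨v, hv, hmax⟩ := hKc.exists_isMaxOn ⟨w1, hw1⟩ (continuous_F hs).continuousOn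
  have hL : lam < F s v := by
    have h1 : F s w1 ≤ F s v := hmax hw1
    have hN0 : 0 < √(∑ i ∈ s, ‖w0 i‖ ^ 2) := Real.sqrt_pos.2 hpos
    rw [e1, mul_comm] at hw0
    exact (lt_of_mul_lt_mul_left hw0 hN0.le).trans_le h1
  refine ⟨v, F s v, hL, hv.1, rfl, fun w => ?_⟩
  rcases (Finset.sum_nonneg (fun i (_ : i ∈ s) => sq_nonneg ‖w i‖)).lt_or_eq with h | h
  · obtain ⟨w', hw', e⟩ := hnorm w h
    rw [e, mul_comm]
    exact mul_le_mul_of_nonneg_right (hmax hw') (Real.sqrt_nonneg _)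
  · rw [hzero w h.symm, ← h]; simp

lemma null_hyper {u : Eu n} (hu : u ≠ 0) : ∀ᵐ g ∂gam n, ⟪u, g⟫ ≠ 0 := by
  have h1 : (gam n) ((fun g : Eu n => ⟪u, g⟫) ⁻¹' {0}) = 0 := by
    rw [← Measure.map_apply (by fun_prop) (measurableSet_singleton 0), map_inner]
    have : (‖u‖ ^ 2).toNNReal ≠ 0 := by
      simpa using hu
    have := nullSingletonClass_gaussianReal (μ := 0) this
    exact measure_singleton 0
  exact (measure_eq_zero_iff_ae_notMem.1 h1).mono fun g hg => by simpa using hg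

lemma cell_disj {s : Finset ι} (v : ι → Eu n) {i j : ι} (hi : i ∈ s) (hj : j ∈ s) {g : Eu n}
    (h1 : g ∈ cell s v i) (h2 : g ∈ cell s v j) : i = j := by
  by_contra h
  exact lt_asymm (h1 j hj (Ne.symm h)) (h2 i hi h)

lemma ae_cell {s : Finset ι} (hs : s.Nonempty) (v : ι → Eu n)
    (hd : ∀ i ∈ s, ∀ j ∈ s, i ≠ j → v i ≠ v j) : ∀ᵐ g ∂gam n, ∃ i ∈ s, g ∈ cell s v i := by
  have h : ∀ᵐ g ∂gam n, ∀ i ∈ s, ∀ j ∈ s, i ≠ j → ⟪v i - v j, g⟫ ≠ 0 := by
    refine (ae_ball_iff s.countable_toSet).2 fun i hi => ?_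
    refine (ae_ball_iff s.countable_toSet).2 fun j hj => ?_
    by_cases hij : i = j
    · simp [hij]
    · exact (null_hyper (sub_ne_zero.2 (hd i hi j hj hij))).mono fun g hg _ => hg
  refine h.mono fun g hg => ?_
  obtain ⟨i, hi, e⟩ := exists_mx hs v g
  refine ⟨i, hi, fun j hj hji => lt_of_le_of_ne (e ▸ le_mx v g hj) fun h' => ?_⟩
  apply hg j hj i hi hji
  rw [inner_sub_left, h', sub_self]

/-- splitting an integral along the cells -/
lemma sum_cell_le {s : Finset ι} {v : ι → Eu n} (hc : ∀ᵐ g ∂gam n, ∃ i ∈ s, g ∈ cell s v i)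
    (f : ι → Eu n → ℝ) (hf : ∀ i ∈ s, Integrable (f i) (gam n)) (φ : Eu n → ℝ)
    (hφ : Integrable φ (gam n)) (h : ∀ i ∈ s, ∀ g ∈ cell s v i, f i g ≤ φ g) :
    ∑ i ∈ s, ∫ g in cell s v i, f i g ∂gam n ≤ ∫ g, φ g ∂gam n := by
  classical
  have e : ∑ i ∈ s, ∫ g in cell s v i, f i g ∂gam n =
      ∫ g, ∑ i ∈ s, (cell s v i).indicator (f i) g ∂gam n := by
    rw [integral_finsetSum _ fun i hi => (hf i hi).indicator (measurableSet_cell s v i)]
    exact Finset.sum_congr rfl fun i _ => (integral_indicator (measurableSet_cell s v i)).symm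
  rw [e]
  refine integral_mono_ae (integrable_finsetSum _ fun i hi =>
    (hf i hi).indicator (measurableSet_cell s v i)) hφ (hc.mono fun g hg => ?_)
  obtain ⟨i, hi, hg⟩ := hg
  show ∑ i ∈ s, (cell s v i).indicator (f i) g ≤ φ g
  rw [Finset.sum_eq_single_of_mem i hi, indicator_of_mem hg]
  · exact h i hi g hg
  · intro j hj hji
    exact indicator_of_notMem (fun h' => hji (cell_disj v hj hi h' hg)) _

lemma sum_cell_eq {s : Finset ι} {v : ι → Eu n} (hc : ∀ᵐ g ∂gam n, ∃ i ∈ s, g ∈ cell s v i)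
    (f : ι → Eu n → ℝ) (hf : ∀ i ∈ s, Integrable (f i) (gam n)) (φ : Eu n → ℝ)
    (hφ : Integrable φ (gam n)) (h : ∀ i ∈ s, ∀ g ∈ cell s v i, f i g = φ g) :
    ∑ i ∈ s, ∫ g in cell s v i, f i g ∂gam n = ∫ g, φ g ∂gam n := by
  apply le_antisymm (sum_cell_le hc f hf φ hφ fun i hi g hg => (h i hi g hg).le)
  have := sum_cell_le hc (fun i g => -f i g) (fun i hi => (hf i hi).neg) (fun g => -φ g) hφ.neg
    fun i hi g hg => by rw [h i hi g hg]
  simp only [integral_neg, Finset.sum_neg_distrib] at this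
  linarith

lemma mx_of_cell {s : Finset ι} {v : ι → Eu n} {i : ι} (hi : i ∈ s) {g : Eu n}
    (hg : g ∈ cell s v i) : ⟪v i, g⟫ = mx s v g := by
  refine le_antisymm (le_mx v g hi) (mx_le ⟨i, hi⟩ fun j hj => ?_)
  by_cases h : j = i
  · rw [h]
  · exact (hg j hj h).le

end CritAux

open CritAux in
theorem crit : CritStmt := by
  intro ι _ _ n s hcard ind hb
  have hs : s.Nonempty := Finset.card_pos.1 (by omega)
  obtain ⟨v, L, hL, h1, hF, hmax⟩ := exists_max hs hb
  have hL0 : 0 < L := lam_pos.trans hL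
  -- distinct
  have hd : ∀ i ∈ s, ∀ j ∈ s, i ≠ j → v i ≠ v j := by
    intro i hi j hj hij e
    have hj' : j ∈ s.erase i := Finset.mem_erase.2 ⟨hij.symm, hj⟩
    have hb := ind (s.erase i) (Finset.erase_ssubset hi) ⟨j, hj'⟩ v
    have e2 : F s v = F (s.erase i) v := by
      unfold F
      congr 1
      funext g
      apply le_antisymm
      · refine mx_le hs fun k hk => ?_
        by_cases hki : k = i
        · rw [hki, e]; exact le_mx v g hj'
        · exact le_mx v g (Finset.mem_erase.2 ⟨hki, hk⟩)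
      · exact mx_le ⟨j, hj'⟩ fun k hk => le_mx v g (Finset.mem_of_mem_erase hk)
    have h2 : ∑ k ∈ s.erase i, ‖v k‖ ^ 2 ≤ 1 := by
      rw [← h1]
      exact Finset.sum_le_sum_of_subset_of_nonneg (Finset.erase_subset _ _)
        fun _ _ _ => sq_nonneg _
    have h3 : √(∑ k ∈ s.erase i, ‖v k‖ ^ 2) ≤ 1 := Real.sqrt_le_one.2 h2
    have := lam_pos
    nlinarith
  have hc := ae_cell hs v hd
  set z : ι → Eu n := fun i => ∫ g in cell s v i, g ∂gam n with hz
  have hzi : ∀ i (w : Eu n), ∫ g in cell s v i, ⟪w, g⟫ ∂gam n = ⟪w, z i⟫ := fun i w =>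
    integral_inner (IsGaussian.integrable_id.restrict) w
  have hA : ∑ i ∈ s, ⟪v i, z i⟫ = L := by
    rw [← hF, F, ← sum_cell_eq hc (fun i g => ⟪v i, g⟫) (fun i _ => integrable_inner _) _
      (integrable_mx s v) fun i hi g hg => mx_of_cell hi hg]
    exact Finset.sum_congr rfl fun i _ => (hzi i _).symm
  have hB : ∑ i ∈ s, ‖z i‖ ^ 2 ≤ L ^ 2 := by
    have h2 := sum_cell_le hc (fun i g => ⟪z i, g⟫) (fun i _ => integrable_inner _) _
      (integrable_mx s z) fun i hi g _ => le_mx z g hi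
    simp only [hzi, real_inner_self_eq_norm_sq] at h2
    have h3 := hmax z
    have h4 : ∑ i ∈ s, ‖z i‖ ^ 2 ≤ L * √(∑ i ∈ s, ‖z i‖ ^ 2) := h2.trans h3
    have h5 := Real.sq_sqrt (Finset.sum_nonneg (fun i (_ : i ∈ s) => sq_nonneg ‖z i‖))
    nlinarith [sq_nonneg (L - √(∑ i ∈ s, ‖z i‖ ^ 2))]
  have hzv : ∀ i ∈ s, z i = L • v i := by
    have h2 : ∑ i ∈ s, ‖z i - L • v i‖ ^ 2 =
        ∑ i ∈ s, ‖z i‖ ^ 2 - 2 * L * ∑ i ∈ s, ⟪v i, z i⟫ + L ^ 2 * ∑ i ∈ s, ‖v i‖ ^ 2 := by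
      rw [Finset.mul_sum, Finset.mul_sum, ← Finset.sum_sub_distrib, ← Finset.sum_add_distrib]
      refine Finset.sum_congr rfl fun i _ => ?_
      rw [norm_sub_sq_real, real_inner_smul_right, norm_smul, mul_pow, Real.norm_eq_abs, sq_abs,
        real_inner_comm]
      ring
    have h3 : ∑ i ∈ s, ‖z i - L • v i‖ ^ 2 = 0 := by
      apply le_antisymm _ (Finset.sum_nonneg fun _ _ => sq_nonneg _)
      rw [h2, hA, h1]; nlinarith
    intro i hi
    have := (Finset.sum_eq_zero_iff_of_nonneg (fun i _ => sq_nonneg ‖z i - L • v i‖)).1 h3 i hi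
    exact sub_eq_zero.1 (by simpa using this)
  have hz' : ∀ i ∈ s, ∀ w : Eu n, ∫ g in cell s v i, ⟪w, g⟫ ∂gam n = L * ⟪w, v i⟫ := by
    intro i hi w
    rw [hzi, hzv i hi, real_inner_smul_right]
  refine ⟨v, L, hL, h1, hF, hz', ?_, ?_, ind, ?_⟩
  · set w := ∑ i ∈ s, v i with hw
    have h2 := sum_cell_eq hc (fun _ g => ⟪w, g⟫) (fun i _ => integrable_inner _) _
      (integrable_inner w) fun i hi g _ => rfl
    rw [integral_inner0, Finset.sum_congr rfl fun i hi => hz' i hi w, ← Finset.mul_sum,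
      ← inner_sum, ← hw, real_inner_self_eq_norm_sq] at h2
    have : ‖w‖ ^ 2 = 0 := (mul_eq_zero.1 h2).resolve_left hL0.ne'
    simpa using this
  · intro i hi j hj hij
    by_contra hneg
    push Not at hneg
    have hi' : i ∈ s.erase j := Finset.mem_erase.2 ⟨hij, hi⟩
    set w : ι → Eu n := fun k => if k = i ∨ k = j then v i + v j else v k with hw
    have hb := ind (s.erase j) (Finset.erase_ssubset hj) ⟨i, hi'⟩ w
    have hrest : ∀ k ∈ (s.erase j).erase i, w k = v k := by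
      intro k hk
      have a := Finset.ne_of_mem_erase hk
      have b := Finset.ne_of_mem_erase (Finset.mem_of_mem_erase hk)
      simp [hw, a, b]
    have hwi : w i = v i + v j := by simp [hw]
    have hwj : w j = v i + v j := by simp [hw]
    set R := ∑ k ∈ (s.erase j).erase i, ‖v k‖ ^ 2 with hR
    have hR1 : R + ‖v i‖ ^ 2 + ‖v j‖ ^ 2 = 1 := by
      rw [← h1, ← Finset.sum_erase_add _ _ hj, ← Finset.sum_erase_add _ _ hi']
    have hN : ∑ k ∈ s.erase j, ‖w k‖ ^ 2 = 1 + 2 * ⟪v i, v j⟫ := by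
      rw [← Finset.sum_erase_add _ _ hi', Finset.sum_congr rfl fun k hk => by rw [hrest k hk],
        hwi, norm_add_sq_real, ← hR]
      linarith
    have h2 := sum_cell_le hc (fun k g => ⟪w k, g⟫) (fun i _ => integrable_inner _) _
      (integrable_mx (s.erase j) w) fun k hk g _ => by
        by_cases hkj : k = j
        · rw [hkj, hwj, ← hwi]; exact le_mx w g hi'
        · exact le_mx w g (Finset.mem_erase.2 ⟨hkj, hk⟩)
    have h3 : ∑ k ∈ s, ⟪w k, v k⟫ = 1 + 2 * ⟪v i, v j⟫ := by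
      rw [← Finset.sum_erase_add _ _ hj, ← Finset.sum_erase_add _ _ hi',
        Finset.sum_congr rfl fun k hk => by rw [hrest k hk, real_inner_self_eq_norm_sq],
        hwi, hwj, ← hR, inner_add_left, inner_add_left, real_inner_self_eq_norm_sq,
        real_inner_self_eq_norm_sq, real_inner_comm (v i) (v j)]
      linarith
    rw [Finset.sum_congr rfl fun k hk => hz' k hk (w k), ← Finset.mul_sum, h3] at h2
    rw [hN] at hb
    have h4 : L * (1 + 2 * ⟪v i, v j⟫) ≤ lam * √(1 + 2 * ⟪v i, v j⟫) := h2.trans hb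
    have h5 : √(1 + 2 * ⟪v i, v j⟫) ≤ 1 + 2 * ⟪v i, v j⟫ := by
      rw [Real.sqrt_le_left (by linarith)]; nlinarith
    have := lam_pos
    nlinarith
  · have h2 := sum_cell_eq hc (fun _ _ => (1 : ℝ)) (fun i _ => integrable_const _) _
      (integrable_const (1 : ℝ)) fun i hi g _ => rfl
    simpa using h2

end

end Crest.Agent.R215
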