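import Mathlib

/-! Row 215 (propeller conjecture in all dimensions): definitions, basic API, task statements.

Plan.  `F s v = E max_{i ∈ s} ⟪v i, g⟫`.  Claim: `F s v ≤ lam √(∑ ‖v i‖²)`, `lam² = 9/(8π)`.
Induction on `s.card`; a counterexample gives a maximiser with the structure `Crit`.
Deleting one vertex + Ehrhard's inequality gives `CellP`, deleting a tail gives `JTest`,
`I3Stmt` is cone isoperimetry in dimension three, the rest is real arithmetic. -/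

set_option autoImplicit false

namespace Crest.Agent.R215

open MeasureTheory ProbabilityTheory Filter Topology Set
open scoped RealInnerProductSpace

noncomputable section

def phi (x : ℝ) : ℝ := Real.exp (-x ^ 2 / 2) / √(2 * Real.pi)
def Phi (x : ℝ) : ℝ := ∫ t in Iic x, phi t
def Psi (x : ℝ) : ℝ := phi x * (phi x + x * Phi x)
def psi1 (x : ℝ) : ℝ := -x * phi x + (1 - x ^ 2) * Phi x
def lam : ℝ := 3 / (2 * √(2 * Real.pi))
abbrev g1 : Measure ℝ := gaussianReal 0 1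
abbrev Eu (n : ℕ) : Type := EuclideanSpace ℝ (Fin n)
abbrev gam (n : ℕ) : Measure (Eu n) := stdGaussian (Eu n)

/-- `|f x - f y| ≤ L ‖x - y‖`. -/
def Lip {X : Type} [NormedAddCommGroup X] (L : ℝ) (f : X → ℝ) : Prop :=
  ∀ x y, |f x - f y| ≤ L * ‖x - y‖

/-- midpoint inequality `(f0 x + f1 y)/2 ≤ f2 ((x+y)/2)`. -/
def Mid {X : Type} [AddCommGroup X] [Module ℝ X] (f0 f1 f2 : X → ℝ) : Prop :=
  ∀ x y, (f0 x + f1 y) / 2 ≤ f2 ((1 / 2 : ℝ) • (x + y))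

lemma Lip.continuous {X : Type} [NormedAddCommGroup X] {L : ℝ} {f : X → ℝ} (h : Lip L f) :
    Continuous f := by
  refine (LipschitzWith.of_dist_le_mul (K := ⟨|L|, abs_nonneg L⟩) fun x y => ?_).continuous
  rw [Real.dist_eq, dist_eq_norm]
  exact (h x y).trans (mul_le_mul_of_nonneg_right (le_abs_self L) (norm_nonneg _))

lemma phi_pos (x : ℝ) : 0 < phi x := by unfold phi; have := Real.pi_pos; positivity

lemma continuous_phi : Continuous phi := by unfold phi; fun_prop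

lemma phi_eq (x : ℝ) : phi x = gaussianPDFReal 0 1 x := by
  simp [phi, gaussianPDFReal, div_eq_inv_mul]

lemma integral_g1 (f : ℝ → ℝ) : ∫ s, f s ∂g1 = ∫ s, phi s * f s := by
  rw [integral_gaussianReal_eq_integral_smul one_ne_zero]; simp [phi_eq]

lemma lam_pos : 0 < lam := by unfold lam; have := Real.pi_pos; positivity

lemma lam_sq : lam ^ 2 = 9 / (8 * Real.pi) := by
  have := Real.pi_pos
  unfold lam; rw [div_pow, mul_pow, Real.sq_sqrt (by positivity)]; field_simp; norm_num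

/-- law of a linear functional -/
lemma map_inner {n : ℕ} (u : Eu n) :
    (gam n).map (fun x => ⟪u, x⟫) = gaussianReal 0 (‖u‖ ^ 2).toNNReal := by
  have := IsGaussian.map_eq_gaussianReal (μ := gam n) (innerSL ℝ u)
  rw [integral_strongDual_stdGaussian, variance_dual_stdGaussian, innerSL_apply_norm] at this
  exact this

/-- `⟪u, g⟫` has the law of `‖u‖ s`, `s` standard normal. -/
lemma map_inner' {n : ℕ} (u : Eu n) :
    (gam n).map (fun x => ⟪u, x⟫) = g1.map (fun s => ‖u‖ * s) := by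
  rw [map_inner, gaussianReal_map_const_mul]
  congr 1
  · simp
  · ext; simp [Real.toNNReal_of_nonneg]

lemma integral_inner_comp {n : ℕ} (u : Eu n) (f : ℝ → ℝ) (hf : Measurable f) :
    ∫ g, f ⟪u, g⟫ ∂gam n = ∫ s, f (‖u‖ * s) ∂g1 := by
  rw [← integral_map (φ := fun x : Eu n => ⟪u, x⟫) (by fun_prop) hf.aestronglyMeasurable,
    map_inner', integral_map (by fun_prop) hf.aestronglyMeasurable]

/-- SPLIT: resampling the coordinate along a unit vector `e`. -/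
lemma split {n : ℕ} (e : Eu n) (he : ‖e‖ = 1) :
    MeasurePreserving (fun p : ℝ × Eu n => p.1 • e + (p.2 - ⟪e, p.2⟫ • e)) (g1.prod (gam n))
      (gam n) := by
  refine ⟨by fun_prop, ?_⟩
  apply Measure.ext_of_charFun
  ext t
  rw [charFun_stdGaussian, charFun_apply, integral_map (by fun_prop) (by fun_prop)]
  have h1 : ∀ p : ℝ × Eu n, Complex.exp ((⟪p.1 • e + (p.2 - ⟪e, p.2⟫ • e), t⟫ : ℝ) * Complex.I) =
      Complex.exp ((⟪p.1, ⟪e, t⟫⟫ : ℝ) * Complex.I) *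
        Complex.exp ((⟪p.2, t - ⟪e, t⟫ • e⟫ : ℝ) * Complex.I) := by
    intro p
    rw [← Complex.exp_add, ← add_mul, ← Complex.ofReal_add]
    congr 3
    simp only [inner_add_left, inner_sub_left, inner_sub_right, real_inner_smul_left,
      real_inner_smul_right, real_inner_comm e p.2]
    simp [mul_comm]
  simp_rw [h1]
  rw [integral_prod_mul (f := fun s : ℝ => Complex.exp ((⟪s, ⟪e, t⟫⟫ : ℝ) * Complex.I))
    (g := fun y : Eu n => Complex.exp ((⟪y, t - ⟪e, t⟫ • e⟫ : ℝ) * Complex.I)),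
    ← charFun_apply, ← charFun_apply, charFun_stdGaussian, charFun_gaussianReal,
    ← Complex.exp_add]
  congr 1
  have h2 : ‖t - ⟪e, t⟫ • e‖ ^ 2 = ‖t‖ ^ 2 - ⟪e, t⟫ ^ 2 := by
    rw [norm_sub_sq_real, real_inner_smul_right, norm_smul, he, real_inner_comm e t]
    simp; ring
  have h3 : ((‖t - ⟪e, t⟫ • e‖ : ℝ) : ℂ) ^ 2 = (‖t‖ : ℂ) ^ 2 - (⟪e, t⟫ : ℝ) ^ 2 := by
    exact_mod_cast h2
  rw [h3]; simp; ring

variable {ι : Type} [DecidableEq ι] {n : ℕ}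

/-- `max_{i ∈ s} ⟪v i, g⟫` -/
def mx (s : Finset ι) (v : ι → Eu n) (g : Eu n) : ℝ := ⨆ i : s, ⟪v i, g⟫
def F (s : Finset ι) (v : ι → Eu n) : ℝ := ∫ g, mx s v g ∂gam n
def cell (s : Finset ι) (v : ι → Eu n) (i : ι) : Set (Eu n) :=
  {g | ∀ j ∈ s, j ≠ i → ⟪v j, g⟫ < ⟪v i, g⟫}

omit [DecidableEq ι] in
lemma le_mx {s : Finset ι} (v : ι → Eu n) (g : Eu n) {i : ι} (hi : i ∈ s) :
    ⟪v i, g⟫ ≤ mx s v g :=
  le_ciSup (f := fun i : s => ⟪v i, g⟫) (Set.finite_range _).bddAbove ⟨i, hi⟩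

omit [DecidableEq ι] in
lemma exists_mx {s : Finset ι} (hs : s.Nonempty) (v : ι → Eu n) (g : Eu n) :
    ∃ i ∈ s, mx s v g = ⟪v i, g⟫ := by
  have : Nonempty s := hs.to_subtype
  obtain ⟨i, hi⟩ := exists_eq_ciSup_of_finite (f := fun i : s => ⟪v i, g⟫)
  exact ⟨i, i.2, hi.symm⟩

omit [DecidableEq ι] in
lemma mx_le {s : Finset ι} (hs : s.Nonempty) {v : ι → Eu n} {g : Eu n} {c : ℝ}
    (h : ∀ i ∈ s, ⟪v i, g⟫ ≤ c) : mx s v g ≤ c := by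
  obtain ⟨i, hi, e⟩ := exists_mx hs v g
  exact e ▸ h i hi

omit [DecidableEq ι] in
lemma lip_mx (s : Finset ι) (v : ι → Eu n) : Lip (∑ i ∈ s, ‖v i‖) (mx s v) := by
  intro x y
  rcases s.eq_empty_or_nonempty with rfl | hs
  · simp [mx]
  have k : ∀ x y : Eu n, mx s v x - mx s v y ≤ (∑ i ∈ s, ‖v i‖) * ‖x - y‖ := by
    intro x y
    obtain ⟨i, hi, e⟩ := exists_mx hs v x
    have h1 := le_mx v y hi
    have h2 := real_inner_le_norm (v i) (x - y)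
    rw [inner_sub_right] at h2
    have h3 : ‖v i‖ ≤ ∑ i ∈ s, ‖v i‖ :=
      Finset.single_le_sum (f := fun i => ‖v i‖) (fun _ _ => norm_nonneg _) hi
    nlinarith [norm_nonneg (x - y)]
  have a := k x y
  have b := k y x
  rw [norm_sub_rev] at b
  exact abs_le.2 ⟨by linarith, a⟩

lemma Lip.integrable {L : ℝ} {f : Eu n → ℝ} (h : Lip L f) : Integrable f (gam n) := by
  have h0 : Integrable (fun g : Eu n => |f 0| + |L| * ‖g‖) (gam n) :=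
    (integrable_const _).add (IsGaussian.integrable_id.norm.const_mul _)
  refine h0.mono' h.continuous.aestronglyMeasurable (ae_of_all _ fun g => ?_)
  have := h g 0
  rw [sub_zero] at this
  have h2 : L * ‖g‖ ≤ |L| * ‖g‖ := mul_le_mul_of_nonneg_right (le_abs_self L) (norm_nonneg _)
  have h3 := abs_sub_abs_le_abs_sub (f g) (f 0)
  rw [Real.norm_eq_abs]; linarith

omit [DecidableEq ι] in
lemma integrable_mx (s : Finset ι) (v : ι → Eu n) : Integrable (mx s v) (gam n) :=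
  (lip_mx s v).integrable

lemma integrable_inner (u : Eu n) : Integrable (fun g => ⟪u, g⟫) (gam n) :=
  Lip.integrable (L := ‖u‖) fun x y => by
    rw [← inner_sub_right]; exact abs_real_inner_le_norm _ _

lemma integral_inner0 (u : Eu n) : ∫ g, ⟪u, g⟫ ∂gam n = 0 :=
  integral_strongDual_stdGaussian (innerSL ℝ u)

omit [DecidableEq ι] in
lemma measurableSet_cell (s : Finset ι) (v : ι → Eu n) (i : ι) : MeasurableSet (cell s v i) := by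
  have : cell s v i = ⋂ j ∈ s, {g | j ≠ i → ⟪v j, g⟫ < ⟪v i, g⟫} := by ext; simp [cell]
  rw [this]
  refine Finset.measurableSet_biInter _ fun j _ => ?_
  by_cases h : j = i
  · simp [h]
  · simp only [ne_eq, h, not_false_eq_true, forall_const]
    exact measurableSet_lt (by fun_prop) (by fun_prop)

omit [DecidableEq ι] in
/-- translating all vectors does not change `F` -/
lemma F_add {s : Finset ι} (hs : s.Nonempty) (v : ι → Eu n) (c : Eu n) :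
    F s (fun i => v i + c) = F s v := by
  have : ∀ g, mx s (fun i => v i + c) g = mx s v g + ⟪c, g⟫ := by
    intro g
    apply le_antisymm
    · exact mx_le hs fun i hi => by rw [inner_add_left]; linarith [le_mx v g hi]
    · obtain ⟨i, hi, e⟩ := exists_mx hs v g
      have := le_mx (fun i => v i + c) g hi
      rw [inner_add_left] at this; linarith
  unfold F
  simp_rw [this]
  rw [integral_add (integrable_mx s v) (integrable_inner c), integral_inner0, add_zero]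

/-- The bound to be proved. -/
def Bd (n : ℕ) (s : Finset ι) : Prop :=
  ∀ w : ι → Eu n, F s w ≤ lam * √(∑ i ∈ s, ‖w i‖ ^ 2)

/-- Structure of a minimal counterexample (a maximiser). -/
structure Crit (s : Finset ι) (v : ι → Eu n) (L : ℝ) : Prop where
  hL : lam < L
  norm1 : ∑ i ∈ s, ‖v i‖ ^ 2 = 1
  hF : F s v = L
  hz : ∀ i ∈ s, ∀ w : Eu n, ∫ g in cell s v i, ⟪w, g⟫ ∂gam n = L * ⟪w, v i⟫
  zero : ∑ i ∈ s, v i = 0
  neg : ∀ i ∈ s, ∀ j ∈ s, i ≠ j → ⟪v i, v j⟫ < 0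
  ind : ∀ t : Finset ι, t ⊂ s → t.Nonempty → Bd n t
  hp : ∑ i ∈ s, (gam n).real (cell s v i) = 1

def hl (r : ℝ) : ℝ := r / 2 + r ^ 2 / 8 + r ^ 3 / 16

/-- What is known about one cell: `r = ‖v i‖²`, `p` = its measure. -/
structure CellP (r p : ℝ) : Prop where
  rpos : 0 < r
  ppos : 0 ≤ p
  lc : lam ^ 2 * hl r ≤ p ^ 2
  q : ∀ x, lam ^ 2 * hl r ≤ Psi x + psi1 x * (p - Phi x) + (p - Phi x) ^ 2
  t1 : ∀ a, lam * √r ≤ phi a - a * (1 - Phi a) + a * p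

/-- The tail test.  `c i j = -⟪v i, v j⟫`, `r i = ‖v i‖²`. -/
def JTest (s : Finset ι) (r : ι → ℝ) (c : ι → ι → ℝ) : Prop :=
  ∀ J : Finset ι, J ⊂ s → 3 ≤ J.card → ∀ a ∈ J, ∀ b ∈ J, a ≠ b → ∀ ρ : ℝ, 0 ≤ ρ →
    (∀ i ∈ s \ J, r i ≤ ρ ^ 2) →
    9 * Real.pi / 2 * √((∑ j ∈ J.erase a, c a j) * (∑ j ∈ J.erase b, c b j) - c a b ^ 2) ≤
      (J.card + 1) * (J.card * ρ + √(∑ i ∈ s \ J, r i))

/-! ### Task statements -/

/-- TASK PHI.  One-dimensional calculus.  `deriv`: `integral_Iic` FTC.  `mills`: from `pos1` at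
`a = -x`.  `intPhi`: antiderivative `-(phi y + y Phi y)/c`, `y = x - c t`, tends to `0`
(`0 ≤ phi y + y Phi y ≤ phi y` for `y ≤ 0`).  `shift`: the difference has derivative
`phi y (e^{-c y - c²/2} - e^{-c y0 - c²/2})`, sign change at `y0`.
`q`: `Psi' = phi * psi1`, `psi1' = -2 x Phi x ≤ 2 phi x` (mills), so `2 Phi - psi1` is monotone and
`Psi x0 + psi1 x0 (Phi x - Phi x0) + (Phi x - Phi x0)² - Psi x` has derivative
`phi x ((2 Phi x - psi1 x) - (2 Phi x0 - psi1 x0))`.  `lc`: let `x0 → -∞` in `q`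
(`x² Phi x ≤ |x| phi x → 0`). -/
structure PhiB : Prop where
  deriv : ∀ x, HasDerivAt Phi (phi x) x
  dphi : ∀ x, HasDerivAt phi (-x * phi x) x
  pos : ∀ x, 0 < Phi x
  lt_one : ∀ x, Phi x < 1
  mono : StrictMono Phi
  bot : Tendsto Phi atBot (𝓝 0)
  top : Tendsto Phi atTop (𝓝 1)
  surj : ∀ p, 0 < p → p < 1 → ∃ x, Phi x = p
  neg : ∀ x, Phi (-x) = 1 - Phi x
  iic : ∀ x, g1.real (Iic x) = Phi x
  ioi : ∀ x, g1.real (Ioi x) = 1 - Phi x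
  mom : ∀ a, ∫ s in Ioi a, s ∂g1 = phi a
  pos1 : ∀ a, ∫ s, max (s - a) 0 ∂g1 = phi a - a * (1 - Phi a)
  abs1 : ∫ s, |s| ∂g1 = 2 / √(2 * Real.pi)
  pos3 : ∫ s, (max s 0) ^ 3 ∂g1 = 2 / √(2 * Real.pi)
  mills : ∀ x, 0 ≤ phi x + x * Phi x
  intPhi : ∀ x c, 0 < c → IntegrableOn (fun t => Phi (x - c * t)) (Ioi 0) ∧
    ∫ t in Ioi 0, Phi (x - c * t) = (phi x + x * Phi x) / c
  shift : ∀ y y0 c, 0 ≤ c →
    Phi (y + c) ≤ Phi (y0 + c) + Real.exp (-c * y0 - c ^ 2 / 2) * (Phi y - Phi y0)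
  q : ∀ x x0, Psi x ≤ Psi x0 + psi1 x0 * (Phi x - Phi x0) + (Phi x - Phi x0) ^ 2
  lc : ∀ x, Psi x ≤ Phi x ^ 2

/-- heat semigroup -/
def heat (f : ℝ → ℝ) (t x : ℝ) : ℝ := ∫ s, f (x + √t * s) ∂g1

/-- TASK HEAT.  For `t > 0`, `heat f t x = (2πt)^(-1/2) e^(-x²/2t) M 0 (x/t) (1/(2t))` with
`M m a b = ∫ y^m f y e^(a y - b y²)`; ONE dominated-derivative lemma
`d/ds M m (a s) (b s) = a' M (m+1) - b' M (m+2)` gives all three derivatives. -/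
def HeatStmt : Prop :=
  ∀ f : ℝ → ℝ, Measurable f → (∀ y, |f y| ≤ 1) → ∃ w1 w2 : ℝ → ℝ → ℝ, ∀ t x, 0 < t →
    HasDerivAt (heat f t) (w1 t x) x ∧ HasDerivAt (w1 t) (w2 t x) x ∧
      HasDerivAt (fun τ => heat f τ x) (w2 t x / 2) t

/-- `u` solves `u_t = u_xx/2 - u u_x²/2` on `(0,1] × ℝ`, is continuous, `L`-Lipschitz in `x`. -/
structure Sol (L : ℝ) (u : ℝ → ℝ → ℝ) : Prop where
  cont : Continuous fun p : ℝ × ℝ => u p.1 p.2
  lip : ∀ t, Lip L (u t)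
  pde : ∃ u1 u2 : ℝ → ℝ → ℝ, ∀ t x, 0 < t →
    HasDerivAt (u t) (u1 t x) x ∧ HasDerivAt (u1 t) (u2 t x) x ∧
      HasDerivAt (fun τ => u τ x) (u2 t x / 2 - u t x * u1 t x ^ 2 / 2) t

/-- TASK MAXP (Borell's maximum principle).  `C t x y = u2 t ((x+y)/2) - (u0 t x + u1 t y)/2`,
`C̃ = C + ε e^{Kt} (1 + x² + y²)`.  `|u_i t x| ≤ A + L|x|` on `t ∈ [0,1]`, `|∂x u_i| ≤ L`.  If
`C̃ ≤ 0` somewhere on `[0,1] × ℝ²`, the set of such points is compact; take minimal `t0` (`> 0`);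
there `C̃ = 0` is a spatial minimum, so `∂x C̃ = ∂y C̃ = 0`, `(d/ds)² C̃(x+s,y+s) ≥ 0`, `∂t C̃ ≤ 0`.
But `∂t C = ½ (∂x+∂y)² C - ½ u2'² C - ½ u0 C_x (u2'+u0') - ½ u1 C_y (u2'+u1')`
(`C_x = (u2'-u0')/2 = -2εe^{Kt}x`), `C < 0`, so `∂t C̃ > 0` for `K` large.  Let `ε → 0`. -/
def MaxpStmt : Prop :=
  ∀ (L : ℝ) (u0 u1 u2 : ℝ → ℝ → ℝ), Sol L u0 → Sol L u1 → Sol L u2 →
    Mid (u0 0) (u1 0) (u2 0) → Mid (u0 1) (u1 1) (u2 1)

/-- Ehrhard–Borell inequality for a measure `μ`, Lipschitz functional form. -/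
def Ehr {X : Type} [NormedAddCommGroup X] [NormedSpace ℝ X] [MeasurableSpace X] (μ : Measure X) :
    Prop :=
  ∀ (L : ℝ) (f0 f1 f2 : X → ℝ), Lip L f0 → Lip L f1 → Lip L f2 → Mid f0 f1 f2 →
    ∀ a0 a1, Phi a0 ≤ ∫ x, Phi (f0 x) ∂μ → Phi a1 ≤ ∫ x, Phi (f1 x) ∂μ →
      Phi ((a0 + a1) / 2) ≤ ∫ x, Phi (f2 x) ∂μ

/-- TASK EH1: `PhiB → HeatStmt → MaxpStmt → Ehr g1`.  `u t x = Phi⁻¹ (heat (Phi ∘ f) t x)` is a
`Sol` (inverse of `Phi`: `HasDerivAt.of_local_left_inverse`; Lipschitz from `PhiB.shift`: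
`f ≤ g + c` pointwise gives `Phi⁻¹ ∫ Phi f ≤ Phi⁻¹ ∫ Phi g + c`; continuity:
`continuous_of_dominated`); evaluate `Mid` at `t = 1`, `x = y = 0`. -/
def Eh1Stmt : Prop := Ehr g1

/-- TASK EHN: `PhiB → Ehr g1 → ∀ n, Ehr (gam n)`.  First for `Measure.pi` on `Fin n → ℝ`
(sup norm, `map_pi_eq_stdGaussian`; change `L`), induction on `n` with
`measurePreserving_piFinSuccAbove`: `V y = Phi⁻¹ ∫ Phi (f (cons s y)) ds` is `L`-Lipschitz
(`PhiB.shift`) and inherits `Mid` from `Ehr g1`. -/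
def EhnStmt : Prop := ∀ n, Ehr (gam n)

/-- TASK DEL: `PhiB → EhnStmt → DelStmt`.  `H t = γ{G > t}`.  (1) `Ehr` with `f_i = K (G - t_i)`,
`K → ∞` (level sets of `G` are null: `split` with `e = u/‖u‖`): `Phi a0 < H t0`, `Phi a1 < H t1`
imply `Phi ((a0+a1)/2) ≤ H ((t0+t1)/2)`; iterate: `Phi b ≤ H t → Phi (x + (b-x)/2^m) ≤ H (t/2^m)`.
(2) `split`: `G (s e + y') = G y' + s/‖u‖`, so `H t = ∫ (1 - Phi (‖u‖ (t - G y')))`,
`f := ∫_{G>0} ⟪u,g⟫ = ‖u‖ ∫ phi (‖u‖ G y') > 0`, `H' 0 = -f`.  (3) hence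
`H t ≤ Phi (x - t f / phi x)` for `t > 0`; layer cake + `intPhi`. -/
def DelStmt : Prop :=
  ∀ (n : ℕ) (G : Eu n → ℝ) (u : Eu n) (K x : ℝ), Lip K G → Mid G G G →
    (∀ g (s : ℝ), G (g + s • u) = G g + s) → Phi x = (gam n).real {g | 0 < G g} →
    (∫ g, max (G g) 0 ∂gam n) * (∫ g in {g | 0 < G g}, ⟪u, g⟫ ∂gam n) ≤ Psi x

/-- TASK SB (small ball): `split` twice (`e2`, then `e1`), Gaussian density `≤ 1/√(2π)`, and the
planar integral `∬ (μ - max(x, y, (ν-x-y)/m))₊ dx dy = ((m+2) μ - ν)₊³ / (6 (m+2))`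
(layer cake over right triangles of leg `(m+2)(μ-τ) - ν`). -/
def SBStmt : Prop :=
  ∀ (n : ℕ) (e1 e2 x y : Eu n) (α β m : ℝ) (μ ν : Eu n → ℝ), ‖e1‖ = 1 → ‖e2‖ = 1 →
    ⟪e1, e2⟫ = 0 → 0 < α → 0 < β → 0 < m → ⟪x, e1⟫ = α → ⟪x, e2⟫ = 0 → ⟪y, e2⟫ = β →
    Measurable μ → Measurable ν →
    (∀ g (s : ℝ), μ (g + s • e1) = μ g ∧ μ (g + s • e2) = μ g ∧
      ν (g + s • e1) = ν g ∧ ν (g + s • e2) = ν g) →
    ∫⁻ g, ENNReal.ofReal (μ g - max ⟪x, g⟫ (max ⟪y, g⟫ ((ν g - ⟪x, g⟫ - ⟪y, g⟫) / m))) ∂gam n ≤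
      ∫⁻ g, ENNReal.ofReal ((max ((m + 2) * μ g - ν g) 0) ^ 3 /
        (12 * (m + 2) * Real.pi * α * β)) ∂gam n

/-- TASK JT: `PhiB → SBStmt → JtStmt`.  `T = s \ J`, `j = J.card`, `S = ∑_T v`, `t = ∑_T r`,
`β0 = ‖S‖² ≤ t`.  Lower bound: `∫ (mx T - mx J)₊ = L - F J v > lam (1 - √(1 - t - β0/j)) ≥
lam (j t + β0)/(2j)` (`F_add` with `c = S/j`, `Crit.ind`).  Upper bound: `mx J ≥ max (X_a, X_b,
(-⟪S,g⟫ - X_a - X_b)/(j-2))`; `e1` = normalised component of `v a` orthogonal to `span v_T`, `e2` =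
normalised component of `v b` orthogonal to `span (v_T, v a)`; `‖∑ γ_i v i‖² =
∑_{i<j} c i j (γ_i-γ_j)²` gives `α² ≥ La`, `β² ≥ D/La`; `SB` with `μ = mx T`, `ν = -⟪S,·⟫`;
`(j x + y)³ ≤ (j+1)² (j x³ + y³)`, `(mx T)₊³ ≤ ∑ (X_i)₊³`, `pos3`:
upper `≤ (j+1)² (2/√(2π)) (j ρ t + β0 √t) / (12 j π √D)`.  Compare (if `√t ≤ thr` then
replace `ρ` by `min ρ √t`: contradiction; else use `β0 ≤ t`). -/
def JtStmt : Prop :=
  ∀ (ι : Type) [DecidableEq ι] (n : ℕ) (s : Finset ι) (v : ι → Eu n) (L : ℝ), Crit s v L →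
    JTest s (fun i => ‖v i‖ ^ 2) (fun i j => -⟪v i, v j⟫)

/-- TASK I3 (cone isoperimetry in dimension three): `PhiB → I3Stmt`.  Push forward to
`Measure.pi` on `Fin 3` / `gam 3` (law of the three coordinates: charFun).  `a = 1 - 2p`,
`C = {a ‖g‖ ≤ g 0}`, `γ C = (1-a)/2`, `∫_C g 0 = (1-a²)/√(2π)` (Rayleigh law
`P(g1²+g2² ≤ s²) = 1 - e^{-s²/2}`, polar coordinates), `∫_B ‖g‖ = c γ(B)` for every cone `B`
(`measurePreserving_homeomorphUnitSphereProd`), and `(g 0 - a‖g‖)(1_C - 1_A) ≥ 0`. -/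
def I3Stmt : Prop :=
  ∀ (n : ℕ) (e1 e2 e3 : Eu n) (A : Set (Eu n)), ‖e1‖ = 1 → ‖e2‖ = 1 → ‖e3‖ = 1 →
    ⟪e1, e2⟫ = 0 → ⟪e1, e3⟫ = 0 → ⟪e2, e3⟫ = 0 → MeasurableSet A →
    (∀ g ∈ A, ∀ c : ℝ, 0 < c → c • g ∈ A) →
    (∀ g ∈ A, ∀ g', ⟪e1, g'⟫ = ⟪e1, g⟫ → ⟪e2, g'⟫ = ⟪e2, g⟫ → ⟪e3, g'⟫ = ⟪e3, g⟫ → g' ∈ A) →
    0 < (gam n).real A → (gam n).real A < 1 / 2 →
    ∫ g in A, ⟪e1, g⟫ ∂gam n ≤ 4 * (gam n).real A * (1 - (gam n).real A) / √(2 * Real.pi)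

/-- TASK CELL: `PhiB → DelStmt → CellStmt` and `I3Stmt → Cell4Stmt`.  `k = s.card`.
`{v j}_{j ≠ i}` is linearly independent (`‖∑ γ_j v j‖² = ∑_{a<b} c a b (γ_a-γ_b)²`), so there is `u`
with `⟪u, v j⟫ = -1/k` (`j ≠ i`), `⟪u, v i⟫ = (k-1)/k`.  `G g = ⟪v i,g⟫ - mx (s.erase i) v g`;
`∫ G₊ = L - F (s.erase i) v > lam (1 - √(1 - r k/(k-1)))` (`F_add`, `c = v i/(k-1)`),
`∫_{G>0} ⟪u,g⟫ = L (k-1)/k`, `(1 - √(1 - c r))/c ≥ hl r` for `c ≥ 1`.  `t1`: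
`L ‖v i‖ = ∫_cell ⟪e,g⟫ ≤ ∫ (⟪e,g⟫ - a)₊ + a p`. -/
def CellStmt : Prop :=
  ∀ (ι : Type) [DecidableEq ι] (n : ℕ) (s : Finset ι) (v : ι → Eu n) (L : ℝ), Crit s v L →
    3 ≤ s.card → ∀ i ∈ s, CellP (‖v i‖ ^ 2) ((gam n).real (cell s v i))

def Cell4Stmt : Prop :=
  ∀ (ι : Type) [DecidableEq ι] (n : ℕ) (s : Finset ι) (v : ι → Eu n) (L : ℝ), Crit s v L →
    s.card = 4 → ∀ i ∈ s, (gam n).real (cell s v i) < 1 / 2 →
      3 / 8 * ‖v i‖ < (gam n).real (cell s v i) * (1 - (gam n).real (cell s v i))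

/-- TASK CRIT: a minimal counterexample has a maximiser with the structure `Crit`.
Maximise `F s` on the compact set `{∑_s ‖v i‖² = 1, v = 0 off s}` (`F` is 1-homogeneous and
continuous); `v i` are distinct on `s` (else erase one), ties are null; `z i = ∫_cell g`,
`∑ ⟪z i, w i⟫ ≤ F s w ≤ L ‖w‖`, equality at `v` gives `z = L v`; merging cells `i, j` gives
`L² + 2⟪z i, z j⟫ ≤ lam²`. -/
def CritStmt : Prop :=
  ∀ (ι : Type) [Fintype ι] [DecidableEq ι] (n : ℕ) (s : Finset ι), 2 ≤ s.card →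
    (∀ t : Finset ι, t ⊂ s → t.Nonempty → Bd n t) → ¬ Bd n s → ∃ (v : ι → Eu n) (L : ℝ), Crit s v L

/-- TASK BASE: `PhiB → BaseStmt`.  `max - min = (|a-b|+|a-c|+|b-c|)/2`, symmetry `g ↦ -g`. -/
def BaseStmt : Prop :=
  ∀ (ι : Type) [DecidableEq ι] (n : ℕ) (s : Finset ι), s.Nonempty → s.card ≤ 3 → Bd n s

/-- TASK FIN (real arithmetic; helper4). -/
def FinStmt : Prop :=
  ∀ (ι : Type) [DecidableEq ι] (s : Finset ι) (r p : ι → ℝ) (c : ι → ι → ℝ), 4 ≤ s.card →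
    ∑ i ∈ s, r i = 1 → ∑ i ∈ s, p i = 1 → (∀ i j, c i j = c j i) →
    (∀ i ∈ s, ∀ j ∈ s, i ≠ j → 0 ≤ c i j) → (∀ i ∈ s, r i = ∑ j ∈ s.erase i, c i j) →
    (∀ i ∈ s, CellP (r i) (p i)) → JTest s r c →
    (s.card = 4 → ∀ i ∈ s, p i < 1 / 2 → 3 / 8 * √(r i) < p i * (1 - p i)) → False

end

end Crest.Agent.R215
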