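import Crest.Agent.R215.Defs

/-! Row 215, task DEL: the deletion inequality from Ehrhard's inequality. -/

set_option autoImplicit false

namespace Crest.Agent.R215

open MeasureTheory ProbabilityTheory Filter Topology Set
open scoped RealInnerProductSpace

noncomputable section

namespace DelL

lemma int_split {n : ℕ} (e : Eu n) (he : ‖e‖ = 1) {F : Eu n → ℝ} (hF : Integrable F (gam n)) :
    ∫ g, F g ∂gam n = ∫ g, ∫ s, F (s • e + (g - ⟪e, g⟫ • e)) ∂g1 ∂gam n := by
  have hm := split e he
  have h1 : ∫ g, F g ∂gam n =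
      ∫ p : ℝ × Eu n, F (p.1 • e + (p.2 - ⟪e, p.2⟫ • e)) ∂g1.prod (gam n) := by
    conv_lhs => rw [← hm.map_eq]
    exact integral_map hm.aemeasurable (by rw [hm.map_eq]; exact hF.aestronglyMeasurable)
  exact h1.trans (integral_prod_symm _ (hm.integrable_comp_of_integrable hF))

lemma phi_le (y : ℝ) : ‖phi y‖ ≤ phi 0 := by
  rw [Real.norm_eq_abs, abs_of_pos (phi_pos y)]
  exact div_le_div_of_nonneg_right (Real.exp_le_exp.2 (by nlinarith [sq_nonneg y]))
    (Real.sqrt_nonneg _)

lemma deriv_nonneg {D : ℝ → ℝ} {d : ℝ} (hD : HasDerivAt D d 0) (h0 : D 0 = 0)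
    (h : ∀ m : ℕ, 0 ≤ D ((1 / 2) ^ m)) : 0 ≤ d := by
  have h1 : Tendsto (fun m : ℕ => (1 / 2 : ℝ) ^ m) atTop (𝓝[≠] 0) :=
    tendsto_nhdsWithin_iff.2 ⟨tendsto_pow_atTop_nhds_zero_of_lt_one (by norm_num) (by norm_num),
      Eventually.of_forall fun m => (pow_pos (by norm_num) m).ne'⟩
  refine ge_of_tendsto' ((hasDerivAt_iff_tendsto_slope.1 hD).comp h1) fun m => ?_
  simp only [Function.comp_apply, slope_def_field, h0, sub_zero]
  exact div_nonneg (h m) (by positivity)

end DelL

open DelL in
theorem del (hP : PhiB) (hE : EhnStmt) : DelStmt := by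
  intro n G u K x hG hmid hu hx
  have hu0 : u ≠ 0 := by
    rintro rfl
    have := hu 0 1
    simp at this
  set r := ‖u‖ with hr
  have hr0 : 0 < r := norm_pos_iff.2 hu0
  set e : Eu n := r⁻¹ • u with he
  have he1 : ‖e‖ = 1 := by
    rw [he, norm_smul, norm_inv, Real.norm_eq_abs, abs_of_pos hr0, inv_mul_cancel₀ hr0.ne']
  have hue : u = r • e := by rw [he, smul_smul, mul_inv_cancel₀ hr0.ne', one_smul]
  have hGc := hG.continuous
  have hPc : Continuous Phi := continuous_iff_continuousAt.2 fun x => (hP.deriv x).continuousAt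
  set W : Eu n → ℝ := fun g => r * G g - ⟪e, g⟫ with hW
  have hWc : Continuous W := by rw [hW]; fun_prop
  have hset : ∀ (g : Eu n) (t s : ℝ),
      s • e + (g - ⟪e, g⟫ • e) ∈ {g | t < G g} ↔ s ∈ Ioi (-(W g - r * t)) := by
    intro g t s
    have h1 : s • e + (g - ⟪e, g⟫ • e) = g + ((s - ⟪e, g⟫) / r) • u := by
      have h2 : ((s - ⟪e, g⟫) / r) • u = (s - ⟪e, g⟫) • e := by
        rw [div_eq_mul_inv, mul_smul]
      rw [h2, sub_smul]; abel
    rw [mem_ofPred_eq, h1, hu, mem_Ioi, ← sub_lt_iff_lt_add', lt_div_iff₀ hr0]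
    simp only [hW]
    constructor <;> intro h <;> linarith
  have hms : ∀ t, MeasurableSet {g | t < G g} := fun t =>
    measurableSet_lt measurable_const hGc.measurable
  set H : ℝ → ℝ := fun t => ∫ g, Phi (W g - r * t) ∂gam n with hH
  have hHeq : ∀ t, (gam n).real {g | t < G g} = H t := by
    intro t
    rw [← integral_indicator_one (hms t)]
    refine (int_split e he1 ((integrable_const (1 : ℝ)).indicator (hms t))).trans ?_
    refine integral_congr_ae (ae_of_all _ fun g => ?_)
    have : (fun s : ℝ => {g | t < G g}.indicator (fun _ => (1 : ℝ)) (s • e + (g - ⟪e, g⟫ • e))) =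
        (Ioi (-(W g - r * t))).indicator 1 := by
      funext s
      by_cases h : s ∈ Ioi (-(W g - r * t))
      · rw [indicator_of_mem h, indicator_of_mem ((hset g t s).2 h)]; rfl
      · rw [indicator_of_notMem h, indicator_of_notMem (mt (hset g t s).1 h)]
    simp only
    rw [this, integral_indicator_one measurableSet_Ioi, hP.ioi, hP.neg, sub_sub_cancel]
  set f : ℝ := ∫ g, r * phi (W g) ∂gam n with hf
  have hfeq : ∫ g in {g | 0 < G g}, ⟪u, g⟫ ∂gam n = f := by
    rw [← integral_indicator (hms 0), int_split e he1 ((integrable_inner u).indicator (hms 0))]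
    refine integral_congr_ae (ae_of_all _ fun g => ?_)
    have : (fun s : ℝ => {g | 0 < G g}.indicator (fun g => ⟪u, g⟫) (s • e + (g - ⟪e, g⟫ • e))) =
        (Ioi (-(W g - r * 0))).indicator fun s => r * s := by
      funext s
      by_cases h : s ∈ Ioi (-(W g - r * 0))
      · rw [indicator_of_mem h, indicator_of_mem ((hset g 0 s).2 h), hue]
        simp only [real_inner_smul_left, inner_add_right, inner_sub_right, real_inner_smul_right,
          real_inner_self_eq_norm_sq, he1]
        ring
      · rw [indicator_of_notMem h, indicator_of_notMem (mt (hset g 0 s).1 h)]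
    simp only
    rw [this, integral_indicator measurableSet_Ioi, integral_const_mul, hP.mom]
    simp [phi]
  have hPi : ∀ t, Integrable (fun g => Phi (W g - r * t)) (gam n) := fun t =>
    (integrable_const (1 : ℝ)).mono' (Continuous.aestronglyMeasurable (by fun_prop))
      (ae_of_all _ fun g => by
        rw [Real.norm_eq_abs, abs_of_pos (hP.pos _)]; exact (hP.lt_one _).le)
  have hpc := continuous_phi
  have hfi : Integrable (fun g => r * phi (W g)) (gam n) :=
    ((integrable_const (phi 0)).mono' (Continuous.aestronglyMeasurable (by fun_prop))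
      (ae_of_all _ fun g => phi_le _)).const_mul r
  have hf0 : 0 < f := by
    rw [hf, integral_pos_iff_support_of_nonneg (fun g => (mul_pos hr0 (phi_pos _)).le) hfi]
    have : Function.support (fun g => r * phi (W g)) = univ :=
      eq_univ_of_forall fun g => (mul_pos hr0 (phi_pos _)).ne'
    rw [this]; simp
  have hHd : HasDerivAt H (-f) 0 := by
    have := (hasDerivAt_integral_of_dominated_loc_of_deriv_le (μ := gam n)
      (F := fun t g => Phi (W g - r * t)) (F' := fun t g => -(r * phi (W g - r * t)))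
      (x₀ := (0 : ℝ)) (bound := fun _ => r * phi 0) univ_mem
      (Eventually.of_forall fun t => (hPi t).aestronglyMeasurable) (hPi 0)
      (Continuous.aestronglyMeasurable (by fun_prop))
      (ae_of_all _ fun g t _ => by
        rw [norm_neg, norm_mul, Real.norm_eq_abs, abs_of_pos hr0]
        exact mul_le_mul_of_nonneg_left (phi_le _) hr0.le)
      (integrable_const _)
      (ae_of_all _ fun g t _ => by
        have h1 : HasDerivAt (fun t => W g - r * t) (-r) t := by
          simpa using ((hasDerivAt_id' t).const_mul r).const_sub (W g)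
        exact ((hP.deriv _).comp t h1).congr_deriv (by ring))).2
    simpa [integral_neg] using this
  have hlip : ∀ t, Lip (r * K + 1) fun g => W g - r * t := by
    intro t a b
    have h1 := hG a b
    have h2 := abs_real_inner_le_norm e (a - b)
    rw [he1, one_mul, inner_sub_right] at h2
    have h3 : W a - r * t - (W b - r * t) = r * (G a - G b) - (⟪e, a⟫ - ⟪e, b⟫) := by
      simp only [hW]; ring
    rw [h3]
    refine (abs_sub _ _).trans ?_
    rw [abs_mul, abs_of_pos hr0]
    nlinarith
  have hmidH : ∀ t0 t1 a0 a1, Phi a0 ≤ H t0 → Phi a1 ≤ H t1 →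
      Phi ((a0 + a1) / 2) ≤ H ((t0 + t1) / 2) := by
    intro t0 t1 a0 a1 h0 h1
    refine hE n _ _ _ _ (hlip t0) (hlip t1) (hlip _) (fun a b => ?_) a0 a1 h0 h1
    have := mul_le_mul_of_nonneg_left (hmid a b) hr0.le
    simp only [hW, real_inner_smul_right, inner_add_right]
    linarith
  have hx0 : Phi x = H 0 := hx.trans (hHeq 0)
  have hkey : ∀ t b, Phi b ≤ H t → b ≤ x - f / phi x * t := by
    intro t b hb
    have h1 : ∀ m : ℕ, Phi (x + (1 / 2) ^ m * (b - x)) ≤ H ((1 / 2) ^ m * t) := by
      intro m
      induction m with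
      | zero => simpa using hb
      | succ m ih =>
        have := hmidH _ _ _ _ hx0.le ih
        convert this using 2 <;> ring
    have h2 : HasDerivAt (fun τ => H (τ * t)) (-f * t) 0 := by
      have h3 : HasDerivAt H (-f) ((fun τ : ℝ => τ * t) 0) := by simpa using hHd
      exact h3.comp 0 (hasDerivAt_mul_const t)
    have h4 : HasDerivAt (fun τ => Phi (x + τ * (b - x))) (phi x * (b - x)) 0 := by
      have h3 : HasDerivAt Phi (phi x) ((fun τ : ℝ => x + τ * (b - x)) 0) := by
        simpa using hP.deriv x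
      exact h3.comp 0 ((hasDerivAt_mul_const (b - x)).const_add x)
    have h5 := deriv_nonneg (h2.sub h4) (by simp [hx0]) fun m => sub_nonneg.2 (h1 m)
    have h6 := phi_pos x
    rw [div_mul_eq_mul_div, le_sub_comm, div_le_iff₀ h6]
    linarith
  have hle : ∀ t, H t ≤ Phi (x - f / phi x * t) := by
    intro t
    by_contra hc
    rw [not_le] at hc
    have h1 : ∀ᶠ b in 𝓝[>] (x - f / phi x * t), Phi b < H t :=
      nhdsWithin_le_nhds (hPc.continuousAt.eventually (gt_mem_nhds hc))
    obtain ⟨b, hb1, hb2⟩ := (h1.and self_mem_nhdsWithin).exists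
    exact absurd (hkey t b hb1.le) (not_le.2 hb2)
  have hc0 : 0 < f / phi x := div_pos hf0 (phi_pos x)
  obtain ⟨i1, i2⟩ := hP.intPhi x _ hc0
  have hlay : ∫ g, max (G g) 0 ∂gam n ≤ (phi x + x * Phi x) / (f / phi x) := by
    have hi : Integrable (fun g => max (G g) 0) (gam n) := hG.integrable.sup (integrable_const 0)
    rw [hi.integral_eq_integral_meas_lt (ae_of_all _ fun g => le_max_right _ _), ← i2]
    refine integral_mono_of_nonneg (ae_of_all _ fun t => measureReal_nonneg) i1 ?_
    filter_upwards [ae_restrict_mem measurableSet_Ioi] with t ht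
    refine le_trans (le_of_eq ?_) (hle t)
    rw [← hHeq]
    congr 1
    ext g
    simp [not_lt.2 (mem_Ioi.1 ht).le]
  rw [hfeq]
  refine (mul_le_mul_of_nonneg_right hlay hf0.le).trans (le_of_eq ?_)
  unfold Psi
  have := (phi_pos x).ne'
  field_simp

end

end Crest.Agent.R215
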