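import Crest.Agent.R215.Defs

/-! Row 215, task EH1: the one-dimensional Ehrhard–Borell inequality. -/

set_option autoImplicit false

namespace Crest.Agent.R215

open MeasureTheory ProbabilityTheory Filter Topology Set

noncomputable section

namespace E1

/-- the inverse of `Phi` -/
def Pinv : ℝ → ℝ := Function.invFun Phi

lemma Pinv_Phi (hP : PhiB) (x : ℝ) : Pinv (Phi x) = x :=
  Function.leftInverse_invFun hP.mono.injective x

lemma Phi_Pinv (hP : PhiB) {p : ℝ} (hp : p ∈ Ioo (0 : ℝ) 1) : Phi (Pinv p) = p :=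
  Function.invFun_eq (hP.surj p hp.1 hp.2)

lemma cont_Phi (hP : PhiB) : Continuous Phi :=
  continuous_iff_continuousAt.2 fun x => (hP.deriv x).continuousAt

lemma contAt_Pinv (hP : PhiB) {p : ℝ} (hp : p ∈ Ioo (0 : ℝ) 1) : ContinuousAt Pinv p := by
  have hm : StrictMonoOn Pinv (Ioo 0 1) := by
    intro a ha b hb hab
    rw [← hP.mono.lt_iff_lt, Phi_Pinv hP ha, Phi_Pinv hP hb]; exact hab
  refine hm.continuousAt_of_image_mem_nhds (Ioo_mem_nhds hp.1 hp.2) ?_
  have : Pinv '' Ioo 0 1 = univ :=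
    eq_univ_of_forall fun x => ⟨Phi x, ⟨hP.pos x, hP.lt_one x⟩, Pinv_Phi hP x⟩
  rw [this]; exact univ_mem

lemma deriv_Pinv (hP : PhiB) {p : ℝ} (hp : p ∈ Ioo (0 : ℝ) 1) :
    HasDerivAt Pinv (phi (Pinv p))⁻¹ p :=
  HasDerivAt.of_local_left_inverse (contAt_Pinv hP hp) (hP.deriv _) (phi_pos _).ne'
    (by filter_upwards [Ioo_mem_nhds hp.1 hp.2] with q hq using Phi_Pinv hP hq)

lemma abs_Phi (hP : PhiB) (x : ℝ) : |Phi x| ≤ 1 := by
  rw [abs_of_pos (hP.pos x)]; exact (hP.lt_one x).le

lemma int_Phi (hP : PhiB) {g : ℝ → ℝ} (hg : Continuous g) : Integrable (fun s => Phi (g s)) g1 :=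
  (integrable_const (1 : ℝ)).mono' ((cont_Phi hP).comp hg).aestronglyMeasurable
    (ae_of_all _ fun _ => abs_Phi hP _)

lemma int_mem (hP : PhiB) {g : ℝ → ℝ} (hg : Continuous g) :
    ∫ s, Phi (g s) ∂g1 ∈ Ioo (0 : ℝ) 1 := by
  have hi := int_Phi hP hg
  constructor
  · rw [integral_pos_iff_support_of_nonneg (fun s => (hP.pos _).le) hi]
    have : Function.support (fun s => Phi (g s)) = univ :=
      eq_univ_of_forall fun s => (hP.pos _).ne'
    rw [this]; simp
  · have h1 : 0 < ∫ s, (1 - Phi (g s)) ∂g1 := by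
      rw [integral_pos_iff_support_of_nonneg (fun s => sub_nonneg.2 (hP.lt_one _).le)
        ((integrable_const _).sub hi)]
      have : Function.support (fun s => 1 - Phi (g s)) = univ :=
        eq_univ_of_forall fun s => (sub_pos.2 (hP.lt_one _)).ne'
      rw [this]; simp
    rw [integral_sub (integrable_const _) hi] at h1
    simp only [integral_const, probReal_univ, smul_eq_mul, mul_one] at h1
    linarith

lemma shift_le (hP : PhiB) {g g' : ℝ → ℝ} (hg : Continuous g) (hg' : Continuous g') {c : ℝ}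
    (hc : 0 ≤ c) (h : ∀ s, g s ≤ g' s + c) :
    Pinv (∫ s, Phi (g s) ∂g1) ≤ Pinv (∫ s, Phi (g' s) ∂g1) + c := by
  set y0 := Pinv (∫ s, Phi (g' s) ∂g1) with hy0
  have h0 : Phi y0 = ∫ s, Phi (g' s) ∂g1 := Phi_Pinv hP (int_mem hP hg')
  rw [← hP.mono.le_iff_le, Phi_Pinv hP (int_mem hP hg)]
  have hi' := int_Phi hP hg'
  have hi2 : Integrable (fun s => Real.exp (-c * y0 - c ^ 2 / 2) * (Phi (g' s) - Phi y0)) g1 :=
    (hi'.sub (integrable_const _)).const_mul _
  calc ∫ s, Phi (g s) ∂g1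
      ≤ ∫ s, (Phi (y0 + c) + Real.exp (-c * y0 - c ^ 2 / 2) * (Phi (g' s) - Phi y0)) ∂g1 :=
        integral_mono (int_Phi hP hg) ((integrable_const _).add hi2)
          fun s => (hP.mono.monotone (h s)).trans (hP.shift _ _ _ hc)
    _ = Phi (y0 + c) := by
        rw [integral_add (integrable_const _) hi2, integral_const_mul,
          integral_sub hi' (integrable_const _), ← h0]
        simp

def uu (f : ℝ → ℝ) (t x : ℝ) : ℝ := Pinv (heat (fun y => Phi (f y)) t x)

lemma sol (hP : PhiB) (hH : HeatStmt) {L : ℝ} {f : ℝ → ℝ} (hf : Lip L f) : Sol L (uu f) := by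
  have hfc := hf.continuous
  have hL : 0 ≤ L := by
    have := hf 1 0
    simp only [sub_zero, norm_one, mul_one] at this
    exact (abs_nonneg _).trans this
  have hmem : ∀ t x, heat (fun y => Phi (f y)) t x ∈ Ioo (0 : ℝ) 1 := fun t x =>
    int_mem hP (g := fun s => f (x + √t * s)) (by fun_prop)
  refine ⟨?_, ?_, ?_⟩
  · have hc : Continuous fun p : ℝ × ℝ => heat (fun y => Phi (f y)) p.1 p.2 := by
      have := cont_Phi hP
      refine continuous_of_dominated (bound := fun _ => (1 : ℝ))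
        (fun p => Continuous.aestronglyMeasurable (by fun_prop))
        (fun p => ae_of_all _ fun s => abs_Phi hP _) (integrable_const _)
        (ae_of_all _ fun s => by fun_prop)
    exact continuous_iff_continuousAt.2 fun p =>
      ContinuousAt.comp (f := fun p : ℝ × ℝ => heat (fun y => Phi (f y)) p.1 p.2)
        (contAt_Pinv hP (hmem p.1 p.2)) hc.continuousAt
  · intro t
    have k : ∀ x y, uu f t x ≤ uu f t y + L * ‖x - y‖ := by
      intro x y
      refine shift_le hP (g := fun s => f (x + √t * s)) (g' := fun s => f (y + √t * s))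
        (by fun_prop) (by fun_prop) (by positivity) fun s => ?_
      have := hf (x + √t * s) (y + √t * s)
      rw [add_sub_add_right_eq_sub] at this
      linarith [(abs_le.1 this).2]
    intro x y
    have a := k x y
    have b := k y x
    rw [norm_sub_rev] at b
    exact abs_le.2 ⟨by linarith, by linarith⟩
  · obtain ⟨w1, w2, hw⟩ := hH (fun y => Phi (f y)) ((cont_Phi hP).comp hfc).measurable
      (fun y => abs_Phi hP _)
    refine ⟨fun t x => (phi (uu f t x))⁻¹ * w1 t x,
      fun t x => (phi (uu f t x))⁻¹ * w2 t x + uu f t x * ((phi (uu f t x))⁻¹ * w1 t x) ^ 2,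
      fun t x ht => ?_⟩
    obtain ⟨h1, h2, h3⟩ := hw t x ht
    have hu : HasDerivAt (uu f t) ((phi (uu f t x))⁻¹ * w1 t x) x :=
      (deriv_Pinv hP (hmem t x)).comp x h1
    refine ⟨hu, ?_, ?_⟩
    · have h4 := ((hP.dphi (uu f t x)).comp x hu).inv (phi_pos _).ne'
      refine (h4.mul h2).congr_deriv ?_
      have := (phi_pos (uu f t x)).ne'
      simp only [Function.comp_apply, Pi.inv_apply]
      field_simp
      ring
    · refine ((deriv_Pinv hP (hmem t x)).comp t h3).congr_deriv ?_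
      change (phi (uu f t x))⁻¹ * (w2 t x / 2) = _
      ring

lemma uu_zero (hP : PhiB) (f : ℝ → ℝ) : uu f 0 = f := by
  funext x
  simp [uu, heat, Pinv_Phi hP]

lemma uu_one (f : ℝ → ℝ) : uu f 1 0 = Pinv (∫ s, Phi (f s) ∂g1) := by
  simp [uu, heat]

end E1

open E1 in
theorem eh1 (hP : PhiB) (hH : HeatStmt) (hM : MaxpStmt) : Eh1Stmt := by
  intro L f0 f1 f2 h0 h1 h2 hmid a0 a1 ha0 ha1
  have := hM L _ _ _ (sol hP hH h0) (sol hP hH h1) (sol hP hH h2)
    (by rw [uu_zero hP, uu_zero hP, uu_zero hP]; exact hmid) 0 0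
  rw [add_zero, smul_zero, uu_one, uu_one, uu_one] at this
  rw [← Phi_Pinv hP (int_mem hP h0.continuous), hP.mono.le_iff_le] at ha0
  rw [← Phi_Pinv hP (int_mem hP h1.continuous), hP.mono.le_iff_le] at ha1
  rw [← Phi_Pinv hP (int_mem hP h2.continuous), hP.mono.le_iff_le]
  linarith

end

end Crest.Agent.R215
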