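import Crest.Agent.R215.Eh1

/-! Row 215, task EHN: tensorisation of the Ehrhard–Borell inequality. -/

set_option autoImplicit false

namespace Crest.Agent.R215

open MeasureTheory ProbabilityTheory Filter Topology Set
open scoped RealInnerProductSpace

noncomputable section

namespace EN

variable {n : ℕ}

/-- resampling the direction `e` -/
def rs (e : Eu n) (s : ℝ) (y : Eu n) : Eu n := s • e + (y - ⟪e, y⟫ • e)

/-- integrating out the direction `e` -/
def V (e : Eu n) (f : Eu n → ℝ) (y : Eu n) : ℝ := E1.Pinv (∫ s, Phi (f (rs e s y)) ∂g1)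

lemma cont_rs {f : Eu n → ℝ} (hf : Continuous f) (e y : Eu n) :
    Continuous fun s => f (rs e s y) := by
  unfold rs; fun_prop

lemma Phi_V (hP : PhiB) {f : Eu n → ℝ} (hf : Continuous f) (e y : Eu n) :
    Phi (V e f y) = ∫ s, Phi (f (rs e s y)) ∂g1 :=
  E1.Phi_Pinv hP (E1.int_mem hP (cont_rs hf e y))

lemma norm_proj_le {e : Eu n} (he : ‖e‖ = 1) (d : Eu n) : ‖d - ⟪e, d⟫ • e‖ ≤ ‖d‖ := by
  have h2 : ‖d - ⟪e, d⟫ • e‖ ^ 2 = ‖d‖ ^ 2 - ⟪e, d⟫ ^ 2 := by
    rw [norm_sub_sq_real, real_inner_smul_right, norm_smul, he, real_inner_comm e d]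
    simp; ring
  exact (abs_le_of_sq_le_sq' (by rw [h2]; nlinarith [sq_nonneg ⟪e, d⟫]) (norm_nonneg d)).2

lemma lip_V (hP : PhiB) {L : ℝ} {f : Eu n → ℝ} (hf : Lip L f) {e : Eu n} (he : ‖e‖ = 1) :
    Lip |L| (V e f) := by
  have k : ∀ x y, V e f x - V e f y ≤ |L| * ‖x - y‖ := by
    intro x y
    have := E1.shift_le hP (cont_rs hf.continuous e x) (cont_rs hf.continuous e y)
      (c := |L| * ‖x - y‖) (by positivity) fun s => by
        have h1 := (abs_le.1 (hf (rs e s x) (rs e s y))).2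
        have e1 : rs e s x - rs e s y = (x - y) - ⟪e, x - y⟫ • e := by
          unfold rs; rw [inner_sub_right, sub_smul]; abel
        rw [e1] at h1
        have h2 := norm_proj_le he (x - y)
        have h3 : L * ‖x - y - ⟪e, x - y⟫ • e‖ ≤ |L| * ‖x - y‖ :=
          mul_le_mul (le_abs_self L) h2 (norm_nonneg _) (abs_nonneg L)
        linarith
    unfold V; linarith
  intro x y
  have a := k x y
  have b := k y x
  rw [norm_sub_rev] at b
  exact abs_le.2 ⟨by linarith, a⟩

lemma lip_rs {L : ℝ} {f : Eu n → ℝ} (hf : Lip L f) {e : Eu n} (he : ‖e‖ = 1) (y : Eu n) :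
    Lip L fun s : ℝ => f (rs e s y) := by
  intro s t
  have h1 := hf (rs e s y) (rs e t y)
  have e1 : rs e s y - rs e t y = (s - t) • e := by unfold rs; rw [sub_smul]; abel
  rwa [e1, norm_smul, he, mul_one] at h1

lemma mid_V (hP : PhiB) (h1 : Eh1Stmt) {L : ℝ} {f0 f1 f2 : Eu n → ℝ} (l0 : Lip L f0)
    (l1 : Lip L f1) (l2 : Lip L f2) (hm : Mid f0 f1 f2) {e : Eu n} (he : ‖e‖ = 1) :
    Mid (V e f0) (V e f1) (V e f2) := by
  intro x y
  rw [← hP.mono.le_iff_le, Phi_V hP l2.continuous]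
  refine h1 L _ _ _ (lip_rs l0 he x) (lip_rs l1 he y) (lip_rs l2 he _) (fun s t => ?_) _ _
    (Phi_V hP l0.continuous e x).le (Phi_V hP l1.continuous e y).le
  have := hm (rs e s x) (rs e t y)
  have e1 : (1 / 2 : ℝ) • (rs e s x + rs e t y) =
      rs e ((1 / 2 : ℝ) • (s + t)) ((1 / 2 : ℝ) • (x + y)) := by
    unfold rs
    rw [real_inner_smul_right, inner_add_right, smul_eq_mul]
    module
  rwa [e1] at this

lemma integral_V (hP : PhiB) {f : Eu n → ℝ} (hf : Continuous f) {e : Eu n} (he : ‖e‖ = 1) :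
    ∫ y, Phi (V e f y) ∂gam n = ∫ x, Phi (f x) ∂gam n := by
  have hc : Continuous fun x => Phi (f x) := (E1.cont_Phi hP).comp hf
  have hi : Integrable (fun x => Phi (f x)) (gam n) :=
    (integrable_const (1 : ℝ)).mono' hc.aestronglyMeasurable
      (ae_of_all _ fun _ => E1.abs_Phi hP _)
  have hs := split e he
  have hi2 := hs.integrable_comp_of_integrable hi
  simp_rw [Phi_V hP hf]
  rw [← hs.map_eq, integral_map hs.measurable.aemeasurable hc.aestronglyMeasurable, hs.map_eq]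
  exact (integral_prod_symm _ hi2).symm

/-- basis vector -/
def b (j : Fin n) : Eu n := EuclideanSpace.single j 1

lemma norm_b (j : Fin n) : ‖b j‖ = 1 := by simp [b]

lemma inner_b {j k : Fin n} (h : j ≠ k) : ⟪b k, b j⟫ = 0 := by
  simp [b, EuclideanSpace.inner_single_left, h.symm]

lemma const_of_inv {f : Eu n → ℝ} (h : ∀ j g (s : ℝ), f (g + s • b j) = f g) (g : Eu n) :
    f g = f 0 := by
  have k : ∀ T : Finset (Fin n), f (∑ j ∈ T, g j • b j) = f 0 := by
    intro T
    induction T using Finset.induction_on with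
    | empty => simp
    | insert j T hj ih => rw [Finset.sum_insert hj, add_comm, h, ih]
  have e : g = ∑ j, g j • b j := by
    ext i
    simp [b, Pi.single_apply]
  rw [e]; exact k _

lemma inv_V {f : Eu n → ℝ} {T : Finset (Fin n)} {k : Fin n}
    (h : ∀ j, j ∉ insert k T → ∀ g (s : ℝ), f (g + s • b j) = f g) :
    ∀ j, j ∉ T → ∀ g (s : ℝ), V (b k) f (g + s • b j) = V (b k) f g := by
  intro j hj g s
  unfold V
  congr 2
  funext t
  congr 1
  by_cases hjk : j = k
  · subst hjk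
    congr 1
    unfold rs
    rw [inner_add_right, real_inner_smul_right, real_inner_self_eq_norm_sq, norm_b]
    module
  · have e : rs (b k) t (g + s • b j) = rs (b k) t g + s • b j := by
      unfold rs
      rw [inner_add_right, real_inner_smul_right, inner_b hjk]
      module
    rw [e, h j (by simp [hjk, hj])]

lemma main (hP : PhiB) (h1 : Eh1Stmt) (T : Finset (Fin n)) :
    ∀ (L : ℝ) (f0 f1 f2 : Eu n → ℝ), Lip L f0 → Lip L f1 → Lip L f2 → Mid f0 f1 f2 →
      (∀ j, j ∉ T → ∀ g (s : ℝ), f0 (g + s • b j) = f0 g) →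
      (∀ j, j ∉ T → ∀ g (s : ℝ), f1 (g + s • b j) = f1 g) →
      (∀ j, j ∉ T → ∀ g (s : ℝ), f2 (g + s • b j) = f2 g) →
      ∀ a0 a1, Phi a0 ≤ ∫ x, Phi (f0 x) ∂gam n → Phi a1 ≤ ∫ x, Phi (f1 x) ∂gam n →
        Phi ((a0 + a1) / 2) ≤ ∫ x, Phi (f2 x) ∂gam n := by
  induction T using Finset.induction_on with
  | empty =>
    intro L f0 f1 f2 _ _ _ hm i0 i1 i2 a0 a1 h0 h1
    simp_rw [const_of_inv (fun j => i0 j (by simp))] at h0
    simp_rw [const_of_inv (fun j => i1 j (by simp))] at h1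
    simp_rw [const_of_inv (fun j => i2 j (by simp))]
    simp only [integral_const, probReal_univ, smul_eq_mul, one_mul] at h0 h1 ⊢
    have := hm 0 0
    rw [add_zero, smul_zero] at this
    rw [hP.mono.le_iff_le] at h0 h1 ⊢
    linarith
  | insert k T _ ih =>
    intro L f0 f1 f2 l0 l1 l2 hm i0 i1 i2 a0 a1 h0 h1'
    have he := norm_b k
    rw [← integral_V hP l0.continuous he] at h0
    rw [← integral_V hP l1.continuous he] at h1'
    rw [← integral_V hP l2.continuous he]
    exact ih |L| _ _ _ (lip_V hP l0 he) (lip_V hP l1 he) (lip_V hP l2 he)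
      (mid_V hP h1 l0 l1 l2 hm he) (inv_V i0) (inv_V i1) (inv_V i2) a0 a1 h0 h1'

end EN

theorem ehn (hP : PhiB) (h1 : Eh1Stmt) : EhnStmt := fun _ L f0 f1 f2 l0 l1 l2 hm =>
  EN.main hP h1 Finset.univ L f0 f1 f2 l0 l1 l2 hm (by simp) (by simp) (by simp)

end

end Crest.Agent.R215
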