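import Crest.Agent.R215.Nodes

/-! Row 215: at least five cells (generated case analysis). -/

set_option autoImplicit false
set_option linter.unusedVariables false

namespace Crest.Agent.R215.Num

open Finset

lemma pa0 (hP : PhiB) {r p : ℝ} (h : CellP r p) (h1 : 0 ≤ r) (h2 : r ≤ (1 / 200)) :
    0 + (299 / 50) * r ≤ p :=
  by have := oline (c := (299 / 50)) h h2 (by norm_num [l2]); linarith

lemma pa1 (hP : PhiB) {r p : ℝ} (h : CellP r p) (h1 : (1 / 200) ≤ r) (h2 : r ≤ (1 / 100)) :
    (237 / 12500) + (319 / 125) * r ≤ p :=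
  qline ((n20 hP).q h) h.ppos h1 h2 (by norm_num) (by norm_num [l2]) (by norm_num [l2])
    (by norm_num [l2, hl]) (by norm_num [l2])

lemma pa2 (hP : PhiB) {r p : ℝ} (h : CellP r p) (h1 : (1 / 100) ≤ r) (h2 : r ≤ (3 / 200)) :
    (2067 / 100000) + (117 / 50) * r ≤ p :=
  qline ((n15 hP).q h) h.ppos h1 h2 (by norm_num) (by norm_num [l2]) (by norm_num [l2])
    (by norm_num [l2, hl]) (by norm_num [l2])

lemma pa3 (hP : PhiB) {r p : ℝ} (h : CellP r p) (h1 : (3 / 200) ≤ r) (h2 : r ≤ (1 / 50)) :
    (2811 / 100000) + (461 / 250) * r ≤ p :=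
  qline ((n15 hP).q h) h.ppos h1 h2 (by norm_num) (by norm_num [l2]) (by norm_num [l2])
    (by norm_num [l2, hl]) (by norm_num [l2])

lemma pa4 (hP : PhiB) {r p : ℝ} (h : CellP r p) (h1 : (1 / 50) ≤ r) (h2 : r ≤ (1 / 40)) :
    (3351 / 100000) + (787 / 500) * r ≤ p :=
  qline ((n15 hP).q h) h.ppos h1 h2 (by norm_num) (by norm_num [l2]) (by norm_num [l2])
    (by norm_num [l2, hl]) (by norm_num [l2])

lemma pa5 (hP : PhiB) {r p : ℝ} (h : CellP r p) (h1 : (1 / 40) ≤ r) (h2 : r ≤ (3 / 100)) :
    (3791 / 100000) + (699 / 500) * r ≤ p :=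
  qline ((n15 hP).q h) h.ppos h1 h2 (by norm_num) (by norm_num [l2]) (by norm_num [l2])
    (by norm_num [l2, hl]) (by norm_num [l2])

lemma pa6 (hP : PhiB) {r p : ℝ} (h : CellP r p) (h1 : (3 / 100) ≤ r) (h2 : r ≤ (1 / 25)) :
    (4319 / 100000) + (611 / 500) * r ≤ p :=
  qline ((n15 hP).q h) h.ppos h1 h2 (by norm_num) (by norm_num [l2]) (by norm_num [l2])
    (by norm_num [l2, hl]) (by norm_num [l2])

lemma pa7 (hP : PhiB) {r p : ℝ} (h : CellP r p) (h1 : (1 / 25) ≤ r) (h2 : r ≤ (1 / 20)) :
    (2143 / 50000) + (1231 / 1000) * r ≤ p :=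
  qline ((n12 hP).q h) h.ppos h1 h2 (by norm_num) (by norm_num [l2]) (by norm_num [l2])
    (by norm_num [l2, hl]) (by norm_num [l2])

lemma pa8 (hP : PhiB) {r p : ℝ} (h : CellP r p) (h1 : (1 / 20) ≤ r) (h2 : r ≤ (3 / 50)) :
    (5081 / 100000) + (134 / 125) * r ≤ p :=
  qline ((n12 hP).q h) h.ppos h1 h2 (by norm_num) (by norm_num [l2]) (by norm_num [l2])
    (by norm_num [l2, hl]) (by norm_num [l2])

lemma pa9 (hP : PhiB) {r p : ℝ} (h : CellP r p) (h1 : (3 / 50) ≤ r) (h2 : r ≤ (2 / 25)) :
    (1493 / 25000) + (1847 / 2000) * r ≤ p :=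
  qline ((n12 hP).q h) h.ppos h1 h2 (by norm_num) (by norm_num [l2]) (by norm_num [l2])
    (by norm_num [l2, hl]) (by norm_num [l2])

lemma pa10 (hP : PhiB) {r p : ℝ} (h : CellP r p) (h1 : (2 / 25) ≤ r) (h2 : r ≤ (1 / 10)) :
    (1529 / 25000) + (1797 / 2000) * r ≤ p :=
  qline ((n10 hP).q h) h.ppos h1 h2 (by norm_num) (by norm_num [l2]) (by norm_num [l2])
    (by norm_num [l2, hl]) (by norm_num [l2])

lemma pa11 (hP : PhiB) {r p : ℝ} (h : CellP r p) (h1 : (1 / 10) ≤ r) (h2 : r ≤ (3 / 25)) :
    (3641 / 50000) + (391 / 500) * r ≤ p :=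
  qline ((n10 hP).q h) h.ppos h1 h2 (by norm_num) (by norm_num [l2]) (by norm_num [l2])
    (by norm_num [l2, hl]) (by norm_num [l2])

lemma pa12 (hP : PhiB) {r p : ℝ} (h : CellP r p) (h1 : (3 / 25) ≤ r) (h2 : r ≤ (7 / 50)) :
    (411 / 5000) + (88 / 125) * r ≤ p :=
  qline ((n10 hP).q h) h.ppos h1 h2 (by norm_num) (by norm_num [l2]) (by norm_num [l2])
    (by norm_num [l2, hl]) (by norm_num [l2])

lemma pa13 (hP : PhiB) {r p : ℝ} (h : CellP r p) (h1 : (7 / 50) ≤ r) (h2 : r ≤ (17 / 100)) :
    (777 / 10000) + (73 / 100) * r ≤ p :=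
  qline ((n08 hP).q h) h.ppos h1 h2 (by norm_num) (by norm_num [l2]) (by norm_num [l2])
    (by norm_num [l2, hl]) (by norm_num [l2])

lemma pa14 (hP : PhiB) {r p : ℝ} (h : CellP r p) (h1 : (17 / 100) ≤ r) (h2 : r ≤ (1 / 5)) :
    (868 / 9375) + (241 / 375) * r ≤ p :=
  qline ((n08 hP).q h) h.ppos h1 h2 (by norm_num) (by norm_num [l2]) (by norm_num [l2])
    (by norm_num [l2, hl]) (by norm_num [l2])

lemma pa15 (hP : PhiB) {r p : ℝ} (h : CellP r p) (h1 : (1 / 5) ≤ r) (h2 : r ≤ (9 / 40)) :
    (2589 / 25000) + (147 / 250) * r ≤ p :=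
  qline ((n08 hP).q h) h.ppos h1 h2 (by norm_num) (by norm_num [l2]) (by norm_num [l2])
    (by norm_num [l2, hl]) (by norm_num [l2])

lemma pa16 (hP : PhiB) {r p : ℝ} (h : CellP r p) (h1 : (9 / 40) ≤ r) (h2 : r ≤ (1 / 4)) :
    (2239 / 20000) + (1377 / 2500) * r ≤ p :=
  qline ((n08 hP).q h) h.ppos h1 h2 (by norm_num) (by norm_num [l2]) (by norm_num [l2])
    (by norm_num [l2, hl]) (by norm_num [l2])

lemma pa17 (hP : PhiB) {r p : ℝ} (h : CellP r p) (h1 : (1 / 4) ≤ r) (h2 : r ≤ (11 / 40)) :
    (2001 / 20000) + (753 / 1250) * r ≤ p :=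
  qline ((n06 hP).q h) h.ppos h1 h2 (by norm_num) (by norm_num [l2]) (by norm_num [l2])
    (by norm_num [l2, hl]) (by norm_num [l2])

lemma pa18 (hP : PhiB) {r p : ℝ} (h : CellP r p) (h1 : (11 / 40) ≤ r) (h2 : r ≤ (3 / 10)) :
    (5543 / 50000) + (352 / 625) * r ≤ p :=
  qline ((n06 hP).q h) h.ppos h1 h2 (by norm_num) (by norm_num [l2]) (by norm_num [l2])
    (by norm_num [l2, hl]) (by norm_num [l2])

lemma pa19 (hP : PhiB) {r p : ℝ} (h : CellP r p) (h1 : (3 / 10) ≤ r) (h2 : r ≤ (8 / 25)) :
    (2381 / 20000) + (67 / 125) * r ≤ p :=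
  qline ((n06 hP).q h) h.ppos h1 h2 (by norm_num) (by norm_num [l2]) (by norm_num [l2])
    (by norm_num [l2, hl]) (by norm_num [l2])

lemma pa20 (hP : PhiB) {r p : ℝ} (h : CellP r p) (h1 : (8 / 25) ≤ r) (h2 : r ≤ (17 / 50)) :
    (1379 / 12500) + (563 / 1000) * r ≤ p :=
  qline ((n05 hP).q h) h.ppos h1 h2 (by norm_num) (by norm_num [l2]) (by norm_num [l2])
    (by norm_num [l2, hl]) (by norm_num [l2])

lemma pa21 (hP : PhiB) {r p : ℝ} (h : CellP r p) (h1 : (17 / 50) ≤ r) (h2 : r ≤ (9 / 25)) :
    (-2083 / 50000) + (2023 / 2000) * r ≤ p :=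
  tline (su := (58309 / 100000)) (sw := (59999 / 100000)) ((n05 hP).t h) (by norm_num) h1 h2 (by norm_num)
    (by norm_num) (by norm_num) (by norm_num) (by norm_num)

lemma pa22 (hP : PhiB) {r p : ℝ} (h : CellP r p) (h1 : (9 / 25) ≤ r) (h2 : r ≤ (19 / 50)) :
    (-3037 / 25000) + (2461 / 2000) * r ≤ p :=
  tline (su := (59999 / 100000)) (sw := (15411 / 25000)) ((n04 hP).t h) (by norm_num) h1 h2 (by norm_num)
    (by norm_num) (by norm_num) (by norm_num) (by norm_num)

lemma pa23 (hP : PhiB) {r p : ℝ} (h : CellP r p) (h1 : (19 / 50) ≤ r) (h2 : r ≤ (2 / 5)) :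
    (-5447 / 50000) + (479 / 400) * r ≤ p :=
  tline (su := (15411 / 25000)) (sw := (12649 / 20000)) ((n04 hP).t h) (by norm_num) h1 h2 (by norm_num)
    (by norm_num) (by norm_num) (by norm_num) (by norm_num)

lemma pa24 (hP : PhiB) {r p : ℝ} (h : CellP r p) (h1 : (2 / 5) ≤ r) (h2 : r ≤ (21 / 50)) :
    (-25089 / 100000) + (779 / 500) * r ≤ p :=
  tline (su := (12649 / 20000)) (sw := (64807 / 100000)) ((n03 hP).t h) (by norm_num) h1 h2 (by norm_num)
    (by norm_num) (by norm_num) (by norm_num) (by norm_num)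

lemma pa25 (hP : PhiB) {r p : ℝ} (h : CellP r p) (h1 : (21 / 50) ≤ r) (h2 : r ≤ (4 / 9)) :
    (-51399 / 220000) + (8343 / 5500) * r ≤ p :=
  tline (su := (64807 / 100000)) (sw := (33333 / 50000)) ((n03 hP).t h) (by norm_num) h1 h2 (by norm_num)
    (by norm_num) (by norm_num) (by norm_num) (by norm_num)

lemma la0 (hP : PhiB) {r p : ℝ} (h : CellP r p) (h1 : 0 ≤ r) (h2 : r ≤ (4 / 9)) :
    (-661 / 2500) + (793 / 500) * r ≤ p := by
  rcases le_total r (1 / 200) with c0 | c0
  · linarith [pa0 hP h h1 c0]
  rcases le_total r (1 / 100) with c1 | c1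
  · linarith [pa1 hP h c0 c1]
  rcases le_total r (3 / 200) with c2 | c2
  · linarith [pa2 hP h c1 c2]
  rcases le_total r (1 / 50) with c3 | c3
  · linarith [pa3 hP h c2 c3]
  rcases le_total r (1 / 40) with c4 | c4
  · linarith [pa4 hP h c3 c4]
  rcases le_total r (3 / 100) with c5 | c5
  · linarith [pa5 hP h c4 c5]
  rcases le_total r (1 / 25) with c6 | c6
  · linarith [pa6 hP h c5 c6]
  rcases le_total r (1 / 20) with c7 | c7
  · linarith [pa7 hP h c6 c7]
  rcases le_total r (3 / 50) with c8 | c8
  · linarith [pa8 hP h c7 c8]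
  rcases le_total r (2 / 25) with c9 | c9
  · linarith [pa9 hP h c8 c9]
  rcases le_total r (1 / 10) with c10 | c10
  · linarith [pa10 hP h c9 c10]
  rcases le_total r (3 / 25) with c11 | c11
  · linarith [pa11 hP h c10 c11]
  rcases le_total r (7 / 50) with c12 | c12
  · linarith [pa12 hP h c11 c12]
  rcases le_total r (17 / 100) with c13 | c13
  · linarith [pa13 hP h c12 c13]
  rcases le_total r (1 / 5) with c14 | c14
  · linarith [pa14 hP h c13 c14]
  rcases le_total r (9 / 40) with c15 | c15
  · linarith [pa15 hP h c14 c15]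
  rcases le_total r (1 / 4) with c16 | c16
  · linarith [pa16 hP h c15 c16]
  rcases le_total r (11 / 40) with c17 | c17
  · linarith [pa17 hP h c16 c17]
  rcases le_total r (3 / 10) with c18 | c18
  · linarith [pa18 hP h c17 c18]
  rcases le_total r (8 / 25) with c19 | c19
  · linarith [pa19 hP h c18 c19]
  rcases le_total r (17 / 50) with c20 | c20
  · linarith [pa20 hP h c19 c20]
  rcases le_total r (9 / 25) with c21 | c21
  · linarith [pa21 hP h c20 c21]
  rcases le_total r (19 / 50) with c22 | c22
  · linarith [pa22 hP h c21 c22]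
  rcases le_total r (2 / 5) with c23 | c23
  · linarith [pa23 hP h c22 c23]
  rcases le_total r (21 / 50) with c24 | c24
  · linarith [pa24 hP h c23 c24]
  linarith [pa25 hP h c24 h2]

lemma la1 (hP : PhiB) {r p : ℝ} (h : CellP r p) (h1 : 0 ≤ r) (h2 : r ≤ (4 / 9)) :
    (-171 / 5000) + (247 / 250) * r ≤ p := by
  rcases le_total r (1 / 200) with c0 | c0
  · linarith [pa0 hP h h1 c0]
  rcases le_total r (1 / 100) with c1 | c1
  · linarith [pa1 hP h c0 c1]
  rcases le_total r (3 / 200) with c2 | c2
  · linarith [pa2 hP h c1 c2]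
  rcases le_total r (1 / 50) with c3 | c3
  · linarith [pa3 hP h c2 c3]
  rcases le_total r (1 / 40) with c4 | c4
  · linarith [pa4 hP h c3 c4]
  rcases le_total r (3 / 100) with c5 | c5
  · linarith [pa5 hP h c4 c5]
  rcases le_total r (1 / 25) with c6 | c6
  · linarith [pa6 hP h c5 c6]
  rcases le_total r (1 / 20) with c7 | c7
  · linarith [pa7 hP h c6 c7]
  rcases le_total r (3 / 50) with c8 | c8
  · linarith [pa8 hP h c7 c8]
  rcases le_total r (2 / 25) with c9 | c9
  · linarith [pa9 hP h c8 c9]
  rcases le_total r (1 / 10) with c10 | c10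
  · linarith [pa10 hP h c9 c10]
  rcases le_total r (3 / 25) with c11 | c11
  · linarith [pa11 hP h c10 c11]
  rcases le_total r (7 / 50) with c12 | c12
  · linarith [pa12 hP h c11 c12]
  rcases le_total r (17 / 100) with c13 | c13
  · linarith [pa13 hP h c12 c13]
  rcases le_total r (1 / 5) with c14 | c14
  · linarith [pa14 hP h c13 c14]
  rcases le_total r (9 / 40) with c15 | c15
  · linarith [pa15 hP h c14 c15]
  rcases le_total r (1 / 4) with c16 | c16
  · linarith [pa16 hP h c15 c16]
  rcases le_total r (11 / 40) with c17 | c17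
  · linarith [pa17 hP h c16 c17]
  rcases le_total r (3 / 10) with c18 | c18
  · linarith [pa18 hP h c17 c18]
  rcases le_total r (8 / 25) with c19 | c19
  · linarith [pa19 hP h c18 c19]
  rcases le_total r (17 / 50) with c20 | c20
  · linarith [pa20 hP h c19 c20]
  rcases le_total r (9 / 25) with c21 | c21
  · linarith [pa21 hP h c20 c21]
  rcases le_total r (19 / 50) with c22 | c22
  · linarith [pa22 hP h c21 c22]
  rcases le_total r (2 / 5) with c23 | c23
  · linarith [pa23 hP h c22 c23]
  rcases le_total r (21 / 50) with c24 | c24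
  · linarith [pa24 hP h c23 c24]
  linarith [pa25 hP h c24 h2]

lemma la2 (hP : PhiB) {r p : ℝ} (h : CellP r p) (h1 : 0 ≤ r) (h2 : r ≤ (17 / 50)) :
    0 + (887 / 1000) * r ≤ p := by
  rcases le_total r (1 / 200) with c0 | c0
  · linarith [pa0 hP h h1 c0]
  rcases le_total r (1 / 100) with c1 | c1
  · linarith [pa1 hP h c0 c1]
  rcases le_total r (3 / 200) with c2 | c2
  · linarith [pa2 hP h c1 c2]
  rcases le_total r (1 / 50) with c3 | c3
  · linarith [pa3 hP h c2 c3]
  rcases le_total r (1 / 40) with c4 | c4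
  · linarith [pa4 hP h c3 c4]
  rcases le_total r (3 / 100) with c5 | c5
  · linarith [pa5 hP h c4 c5]
  rcases le_total r (1 / 25) with c6 | c6
  · linarith [pa6 hP h c5 c6]
  rcases le_total r (1 / 20) with c7 | c7
  · linarith [pa7 hP h c6 c7]
  rcases le_total r (3 / 50) with c8 | c8
  · linarith [pa8 hP h c7 c8]
  rcases le_total r (2 / 25) with c9 | c9
  · linarith [pa9 hP h c8 c9]
  rcases le_total r (1 / 10) with c10 | c10
  · linarith [pa10 hP h c9 c10]
  rcases le_total r (3 / 25) with c11 | c11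
  · linarith [pa11 hP h c10 c11]
  rcases le_total r (7 / 50) with c12 | c12
  · linarith [pa12 hP h c11 c12]
  rcases le_total r (17 / 100) with c13 | c13
  · linarith [pa13 hP h c12 c13]
  rcases le_total r (1 / 5) with c14 | c14
  · linarith [pa14 hP h c13 c14]
  rcases le_total r (9 / 40) with c15 | c15
  · linarith [pa15 hP h c14 c15]
  rcases le_total r (1 / 4) with c16 | c16
  · linarith [pa16 hP h c15 c16]
  rcases le_total r (11 / 40) with c17 | c17
  · linarith [pa17 hP h c16 c17]
  rcases le_total r (3 / 10) with c18 | c18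
  · linarith [pa18 hP h c17 c18]
  rcases le_total r (8 / 25) with c19 | c19
  · linarith [pa19 hP h c18 c19]
  linarith [pa20 hP h c19 h2]

lemma la3 (hP : PhiB) {r p : ℝ} (h : CellP r p) (h1 : 0 ≤ r) (h2 : r ≤ (1 / 200)) :
    0 + (299 / 50) * r ≤ p := by
  linarith [pa0 hP h h1 h2]

lemma la4 (hP : PhiB) {r p : ℝ} (h : CellP r p) (h1 : (1 / 200) ≤ r) (h2 : r ≤ (4 / 9)) :
    (-289 / 2500) + (607 / 500) * r ≤ p := by
  rcases le_total r (1 / 100) with c1 | c1
  · linarith [pa1 hP h h1 c1]
  rcases le_total r (3 / 200) with c2 | c2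
  · linarith [pa2 hP h c1 c2]
  rcases le_total r (1 / 50) with c3 | c3
  · linarith [pa3 hP h c2 c3]
  rcases le_total r (1 / 40) with c4 | c4
  · linarith [pa4 hP h c3 c4]
  rcases le_total r (3 / 100) with c5 | c5
  · linarith [pa5 hP h c4 c5]
  rcases le_total r (1 / 25) with c6 | c6
  · linarith [pa6 hP h c5 c6]
  rcases le_total r (1 / 20) with c7 | c7
  · linarith [pa7 hP h c6 c7]
  rcases le_total r (3 / 50) with c8 | c8
  · linarith [pa8 hP h c7 c8]
  rcases le_total r (2 / 25) with c9 | c9
  · linarith [pa9 hP h c8 c9]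
  rcases le_total r (1 / 10) with c10 | c10
  · linarith [pa10 hP h c9 c10]
  rcases le_total r (3 / 25) with c11 | c11
  · linarith [pa11 hP h c10 c11]
  rcases le_total r (7 / 50) with c12 | c12
  · linarith [pa12 hP h c11 c12]
  rcases le_total r (17 / 100) with c13 | c13
  · linarith [pa13 hP h c12 c13]
  rcases le_total r (1 / 5) with c14 | c14
  · linarith [pa14 hP h c13 c14]
  rcases le_total r (9 / 40) with c15 | c15
  · linarith [pa15 hP h c14 c15]
  rcases le_total r (1 / 4) with c16 | c16
  · linarith [pa16 hP h c15 c16]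
  rcases le_total r (11 / 40) with c17 | c17
  · linarith [pa17 hP h c16 c17]
  rcases le_total r (3 / 10) with c18 | c18
  · linarith [pa18 hP h c17 c18]
  rcases le_total r (8 / 25) with c19 | c19
  · linarith [pa19 hP h c18 c19]
  rcases le_total r (17 / 50) with c20 | c20
  · linarith [pa20 hP h c19 c20]
  rcases le_total r (9 / 25) with c21 | c21
  · linarith [pa21 hP h c20 c21]
  rcases le_total r (19 / 50) with c22 | c22
  · linarith [pa22 hP h c21 c22]
  rcases le_total r (2 / 5) with c23 | c23
  · linarith [pa23 hP h c22 c23]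
  rcases le_total r (21 / 50) with c24 | c24
  · linarith [pa24 hP h c23 c24]
  linarith [pa25 hP h c24 h2]

lemma la5 (hP : PhiB) {r p : ℝ} (h : CellP r p) (h1 : (1 / 200) ≤ r) (h2 : r ≤ (7 / 50)) :
    (243 / 10000) + (1111 / 1000) * r ≤ p := by
  rcases le_total r (1 / 100) with c1 | c1
  · linarith [pa1 hP h h1 c1]
  rcases le_total r (3 / 200) with c2 | c2
  · linarith [pa2 hP h c1 c2]
  rcases le_total r (1 / 50) with c3 | c3
  · linarith [pa3 hP h c2 c3]
  rcases le_total r (1 / 40) with c4 | c4
  · linarith [pa4 hP h c3 c4]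
  rcases le_total r (3 / 100) with c5 | c5
  · linarith [pa5 hP h c4 c5]
  rcases le_total r (1 / 25) with c6 | c6
  · linarith [pa6 hP h c5 c6]
  rcases le_total r (1 / 20) with c7 | c7
  · linarith [pa7 hP h c6 c7]
  rcases le_total r (3 / 50) with c8 | c8
  · linarith [pa8 hP h c7 c8]
  rcases le_total r (2 / 25) with c9 | c9
  · linarith [pa9 hP h c8 c9]
  rcases le_total r (1 / 10) with c10 | c10
  · linarith [pa10 hP h c9 c10]
  rcases le_total r (3 / 25) with c11 | c11
  · linarith [pa11 hP h c10 c11]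
  linarith [pa12 hP h c11 h2]

lemma la6 (hP : PhiB) {r p : ℝ} (h : CellP r p) (h1 : 0 ≤ r) (h2 : r ≤ (7 / 50)) :
    0 + (257 / 200) * r ≤ p := by
  rcases le_total r (1 / 200) with c0 | c0
  · linarith [pa0 hP h h1 c0]
  rcases le_total r (1 / 100) with c1 | c1
  · linarith [pa1 hP h c0 c1]
  rcases le_total r (3 / 200) with c2 | c2
  · linarith [pa2 hP h c1 c2]
  rcases le_total r (1 / 50) with c3 | c3
  · linarith [pa3 hP h c2 c3]
  rcases le_total r (1 / 40) with c4 | c4
  · linarith [pa4 hP h c3 c4]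
  rcases le_total r (3 / 100) with c5 | c5
  · linarith [pa5 hP h c4 c5]
  rcases le_total r (1 / 25) with c6 | c6
  · linarith [pa6 hP h c5 c6]
  rcases le_total r (1 / 20) with c7 | c7
  · linarith [pa7 hP h c6 c7]
  rcases le_total r (3 / 50) with c8 | c8
  · linarith [pa8 hP h c7 c8]
  rcases le_total r (2 / 25) with c9 | c9
  · linarith [pa9 hP h c8 c9]
  rcases le_total r (1 / 10) with c10 | c10
  · linarith [pa10 hP h c9 c10]
  rcases le_total r (3 / 25) with c11 | c11
  · linarith [pa11 hP h c10 c11]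
  linarith [pa12 hP h c11 h2]

lemma la7 (hP : PhiB) {r p : ℝ} (h : CellP r p) (h1 : (7 / 50) ≤ r) (h2 : r ≤ (9 / 25)) :
    (-171 / 5000) + (247 / 250) * r ≤ p := by
  rcases le_total r (17 / 100) with c13 | c13
  · linarith [pa13 hP h h1 c13]
  rcases le_total r (1 / 5) with c14 | c14
  · linarith [pa14 hP h c13 c14]
  rcases le_total r (9 / 40) with c15 | c15
  · linarith [pa15 hP h c14 c15]
  rcases le_total r (1 / 4) with c16 | c16
  · linarith [pa16 hP h c15 c16]
  rcases le_total r (11 / 40) with c17 | c17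
  · linarith [pa17 hP h c16 c17]
  rcases le_total r (3 / 10) with c18 | c18
  · linarith [pa18 hP h c17 c18]
  rcases le_total r (8 / 25) with c19 | c19
  · linarith [pa19 hP h c18 c19]
  rcases le_total r (17 / 50) with c20 | c20
  · linarith [pa20 hP h c19 c20]
  linarith [pa21 hP h c20 h2]

lemma la8 (hP : PhiB) {r p : ℝ} (h : CellP r p) (h1 : (7 / 50) ≤ r) (h2 : r ≤ (8 / 25)) :
    (939 / 10000) + (307 / 500) * r ≤ p := by
  rcases le_total r (17 / 100) with c13 | c13
  · linarith [pa13 hP h h1 c13]
  rcases le_total r (1 / 5) with c14 | c14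
  · linarith [pa14 hP h c13 c14]
  rcases le_total r (9 / 40) with c15 | c15
  · linarith [pa15 hP h c14 c15]
  rcases le_total r (1 / 4) with c16 | c16
  · linarith [pa16 hP h c15 c16]
  rcases le_total r (11 / 40) with c17 | c17
  · linarith [pa17 hP h c16 c17]
  rcases le_total r (3 / 10) with c18 | c18
  · linarith [pa18 hP h c17 c18]
  linarith [pa19 hP h c18 h2]

lemma la9 (hP : PhiB) {r p : ℝ} (h : CellP r p) (h1 : 0 ≤ r) (h2 : r ≤ (3 / 200)) :
    0 + (1859 / 500) * r ≤ p := by
  rcases le_total r (1 / 200) with c0 | c0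
  · linarith [pa0 hP h h1 c0]
  rcases le_total r (1 / 100) with c1 | c1
  · linarith [pa1 hP h c0 c1]
  linarith [pa2 hP h c1 h2]

lemma la10 (hP : PhiB) {r p : ℝ} (h : CellP r p) (h1 : (9 / 25) ≤ r) (h2 : r ≤ (4 / 9)) :
    (-289 / 2500) + (607 / 500) * r ≤ p := by
  rcases le_total r (19 / 50) with c22 | c22
  · linarith [pa22 hP h h1 c22]
  rcases le_total r (2 / 5) with c23 | c23
  · linarith [pa23 hP h c22 c23]
  rcases le_total r (21 / 50) with c24 | c24
  · linarith [pa24 hP h c23 c24]
  linarith [pa25 hP h c24 h2]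

lemma la11 (hP : PhiB) {r p : ℝ} (h : CellP r p) (h1 : (7 / 50) ≤ r) (h2 : r ≤ (21 / 50)) :
    (473 / 5000) + (609 / 1000) * r ≤ p := by
  rcases le_total r (17 / 100) with c13 | c13
  · linarith [pa13 hP h h1 c13]
  rcases le_total r (1 / 5) with c14 | c14
  · linarith [pa14 hP h c13 c14]
  rcases le_total r (9 / 40) with c15 | c15
  · linarith [pa15 hP h c14 c15]
  rcases le_total r (1 / 4) with c16 | c16
  · linarith [pa16 hP h c15 c16]
  rcases le_total r (11 / 40) with c17 | c17
  · linarith [pa17 hP h c16 c17]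
  rcases le_total r (3 / 10) with c18 | c18
  · linarith [pa18 hP h c17 c18]
  rcases le_total r (8 / 25) with c19 | c19
  · linarith [pa19 hP h c18 c19]
  rcases le_total r (17 / 50) with c20 | c20
  · linarith [pa20 hP h c19 c20]
  rcases le_total r (9 / 25) with c21 | c21
  · linarith [pa21 hP h c20 c21]
  rcases le_total r (19 / 50) with c22 | c22
  · linarith [pa22 hP h c21 c22]
  rcases le_total r (2 / 5) with c23 | c23
  · linarith [pa23 hP h c22 c23]
  linarith [pa24 hP h c23 h2]

lemma la12 (hP : PhiB) {r p : ℝ} (h : CellP r p) (h1 : (1 / 200) ≤ r) (h2 : r ≤ (3 / 200)) :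
    (169 / 10000) + (2587 / 1000) * r ≤ p := by
  rcases le_total r (1 / 100) with c1 | c1
  · linarith [pa1 hP h h1 c1]
  linarith [pa2 hP h c1 h2]

lemma la13 (hP : PhiB) {r p : ℝ} (h : CellP r p) (h1 : (7 / 50) ≤ r) (h2 : r ≤ (4 / 9)) :
    (473 / 5000) + (609 / 1000) * r ≤ p := by
  rcases le_total r (17 / 100) with c13 | c13
  · linarith [pa13 hP h h1 c13]
  rcases le_total r (1 / 5) with c14 | c14
  · linarith [pa14 hP h c13 c14]
  rcases le_total r (9 / 40) with c15 | c15
  · linarith [pa15 hP h c14 c15]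
  rcases le_total r (1 / 4) with c16 | c16
  · linarith [pa16 hP h c15 c16]
  rcases le_total r (11 / 40) with c17 | c17
  · linarith [pa17 hP h c16 c17]
  rcases le_total r (3 / 10) with c18 | c18
  · linarith [pa18 hP h c17 c18]
  rcases le_total r (8 / 25) with c19 | c19
  · linarith [pa19 hP h c18 c19]
  rcases le_total r (17 / 50) with c20 | c20
  · linarith [pa20 hP h c19 c20]
  rcases le_total r (9 / 25) with c21 | c21
  · linarith [pa21 hP h c20 c21]
  rcases le_total r (19 / 50) with c22 | c22
  · linarith [pa22 hP h c21 c22]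
  rcases le_total r (2 / 5) with c23 | c23
  · linarith [pa23 hP h c22 c23]
  rcases le_total r (21 / 50) with c24 | c24
  · linarith [pa24 hP h c23 c24]
  linarith [pa25 hP h c24 h2]

lemma la14 (hP : PhiB) {r p : ℝ} (h : CellP r p) (h1 : (3 / 200) ≤ r) (h2 : r ≤ (1 / 4)) :
    (433 / 10000) + (33 / 40) * r ≤ p := by
  rcases le_total r (1 / 50) with c3 | c3
  · linarith [pa3 hP h h1 c3]
  rcases le_total r (1 / 40) with c4 | c4
  · linarith [pa4 hP h c3 c4]
  rcases le_total r (3 / 100) with c5 | c5
  · linarith [pa5 hP h c4 c5]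
  rcases le_total r (1 / 25) with c6 | c6
  · linarith [pa6 hP h c5 c6]
  rcases le_total r (1 / 20) with c7 | c7
  · linarith [pa7 hP h c6 c7]
  rcases le_total r (3 / 50) with c8 | c8
  · linarith [pa8 hP h c7 c8]
  rcases le_total r (2 / 25) with c9 | c9
  · linarith [pa9 hP h c8 c9]
  rcases le_total r (1 / 10) with c10 | c10
  · linarith [pa10 hP h c9 c10]
  rcases le_total r (3 / 25) with c11 | c11
  · linarith [pa11 hP h c10 c11]
  rcases le_total r (7 / 50) with c12 | c12
  · linarith [pa12 hP h c11 c12]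
  rcases le_total r (17 / 100) with c13 | c13
  · linarith [pa13 hP h c12 c13]
  rcases le_total r (1 / 5) with c14 | c14
  · linarith [pa14 hP h c13 c14]
  rcases le_total r (9 / 40) with c15 | c15
  · linarith [pa15 hP h c14 c15]
  linarith [pa16 hP h c15 h2]

lemma la15 (hP : PhiB) {r p : ℝ} (h : CellP r p) (h1 : (7 / 50) ≤ r) (h2 : r ≤ (4 / 9)) :
    (-171 / 5000) + (247 / 250) * r ≤ p := by
  rcases le_total r (17 / 100) with c13 | c13
  · linarith [pa13 hP h h1 c13]
  rcases le_total r (1 / 5) with c14 | c14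
  · linarith [pa14 hP h c13 c14]
  rcases le_total r (9 / 40) with c15 | c15
  · linarith [pa15 hP h c14 c15]
  rcases le_total r (1 / 4) with c16 | c16
  · linarith [pa16 hP h c15 c16]
  rcases le_total r (11 / 40) with c17 | c17
  · linarith [pa17 hP h c16 c17]
  rcases le_total r (3 / 10) with c18 | c18
  · linarith [pa18 hP h c17 c18]
  rcases le_total r (8 / 25) with c19 | c19
  · linarith [pa19 hP h c18 c19]
  rcases le_total r (17 / 50) with c20 | c20
  · linarith [pa20 hP h c19 c20]
  rcases le_total r (9 / 25) with c21 | c21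
  · linarith [pa21 hP h c20 c21]
  rcases le_total r (19 / 50) with c22 | c22
  · linarith [pa22 hP h c21 c22]
  rcases le_total r (2 / 5) with c23 | c23
  · linarith [pa23 hP h c22 c23]
  rcases le_total r (21 / 50) with c24 | c24
  · linarith [pa24 hP h c23 c24]
  linarith [pa25 hP h c24 h2]

lemma la16 (hP : PhiB) {r p : ℝ} (h : CellP r p) (h1 : (7 / 50) ≤ r) (h2 : r ≤ (3 / 10)) :
    (37 / 400) + (78 / 125) * r ≤ p := by
  rcases le_total r (17 / 100) with c13 | c13
  · linarith [pa13 hP h h1 c13]
  rcases le_total r (1 / 5) with c14 | c14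
  · linarith [pa14 hP h c13 c14]
  rcases le_total r (9 / 40) with c15 | c15
  · linarith [pa15 hP h c14 c15]
  rcases le_total r (1 / 4) with c16 | c16
  · linarith [pa16 hP h c15 c16]
  rcases le_total r (11 / 40) with c17 | c17
  · linarith [pa17 hP h c16 c17]
  linarith [pa18 hP h c17 h2]

lemma la17 (hP : PhiB) {r p : ℝ} (h : CellP r p) (h1 : (7 / 50) ≤ r) (h2 : r ≤ (1 / 5)) :
    (837 / 10000) + (687 / 1000) * r ≤ p := by
  rcases le_total r (17 / 100) with c13 | c13
  · linarith [pa13 hP h h1 c13]
  linarith [pa14 hP h c13 h2]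

lemma la18 (hP : PhiB) {r p : ℝ} (h : CellP r p) (h1 : (3 / 200) ≤ r) (h2 : r ≤ (1 / 5)) :
    (423 / 10000) + (447 / 500) * r ≤ p := by
  rcases le_total r (1 / 50) with c3 | c3
  · linarith [pa3 hP h h1 c3]
  rcases le_total r (1 / 40) with c4 | c4
  · linarith [pa4 hP h c3 c4]
  rcases le_total r (3 / 100) with c5 | c5
  · linarith [pa5 hP h c4 c5]
  rcases le_total r (1 / 25) with c6 | c6
  · linarith [pa6 hP h c5 c6]
  rcases le_total r (1 / 20) with c7 | c7
  · linarith [pa7 hP h c6 c7]
  rcases le_total r (3 / 50) with c8 | c8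
  · linarith [pa8 hP h c7 c8]
  rcases le_total r (2 / 25) with c9 | c9
  · linarith [pa9 hP h c8 c9]
  rcases le_total r (1 / 10) with c10 | c10
  · linarith [pa10 hP h c9 c10]
  rcases le_total r (3 / 25) with c11 | c11
  · linarith [pa11 hP h c10 c11]
  rcases le_total r (7 / 50) with c12 | c12
  · linarith [pa12 hP h c11 c12]
  rcases le_total r (17 / 100) with c13 | c13
  · linarith [pa13 hP h c12 c13]
  linarith [pa14 hP h c13 h2]

lemma la19 (hP : PhiB) {r p : ℝ} (h : CellP r p) (h1 : (1 / 200) ≤ r) (h2 : r ≤ (1 / 5)) :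
    (249 / 10000) + (981 / 1000) * r ≤ p := by
  rcases le_total r (1 / 100) with c1 | c1
  · linarith [pa1 hP h h1 c1]
  rcases le_total r (3 / 200) with c2 | c2
  · linarith [pa2 hP h c1 c2]
  rcases le_total r (1 / 50) with c3 | c3
  · linarith [pa3 hP h c2 c3]
  rcases le_total r (1 / 40) with c4 | c4
  · linarith [pa4 hP h c3 c4]
  rcases le_total r (3 / 100) with c5 | c5
  · linarith [pa5 hP h c4 c5]
  rcases le_total r (1 / 25) with c6 | c6
  · linarith [pa6 hP h c5 c6]
  rcases le_total r (1 / 20) with c7 | c7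
  · linarith [pa7 hP h c6 c7]
  rcases le_total r (3 / 50) with c8 | c8
  · linarith [pa8 hP h c7 c8]
  rcases le_total r (2 / 25) with c9 | c9
  · linarith [pa9 hP h c8 c9]
  rcases le_total r (1 / 10) with c10 | c10
  · linarith [pa10 hP h c9 c10]
  rcases le_total r (3 / 25) with c11 | c11
  · linarith [pa11 hP h c10 c11]
  rcases le_total r (7 / 50) with c12 | c12
  · linarith [pa12 hP h c11 c12]
  rcases le_total r (17 / 100) with c13 | c13
  · linarith [pa13 hP h c12 c13]
  linarith [pa14 hP h c13 h2]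

lemma la20 (hP : PhiB) {r p : ℝ} (h : CellP r p) (h1 : 0 ≤ r) (h2 : r ≤ (1 / 5)) :
    0 + (221 / 200) * r ≤ p := by
  rcases le_total r (1 / 200) with c0 | c0
  · linarith [pa0 hP h h1 c0]
  rcases le_total r (1 / 100) with c1 | c1
  · linarith [pa1 hP h c0 c1]
  rcases le_total r (3 / 200) with c2 | c2
  · linarith [pa2 hP h c1 c2]
  rcases le_total r (1 / 50) with c3 | c3
  · linarith [pa3 hP h c2 c3]
  rcases le_total r (1 / 40) with c4 | c4
  · linarith [pa4 hP h c3 c4]
  rcases le_total r (3 / 100) with c5 | c5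
  · linarith [pa5 hP h c4 c5]
  rcases le_total r (1 / 25) with c6 | c6
  · linarith [pa6 hP h c5 c6]
  rcases le_total r (1 / 20) with c7 | c7
  · linarith [pa7 hP h c6 c7]
  rcases le_total r (3 / 50) with c8 | c8
  · linarith [pa8 hP h c7 c8]
  rcases le_total r (2 / 25) with c9 | c9
  · linarith [pa9 hP h c8 c9]
  rcases le_total r (1 / 10) with c10 | c10
  · linarith [pa10 hP h c9 c10]
  rcases le_total r (3 / 25) with c11 | c11
  · linarith [pa11 hP h c10 c11]
  rcases le_total r (7 / 50) with c12 | c12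
  · linarith [pa12 hP h c11 c12]
  rcases le_total r (17 / 100) with c13 | c13
  · linarith [pa13 hP h c12 c13]
  linarith [pa14 hP h c13 h2]

lemma la21 (hP : PhiB) {r p : ℝ} (h : CellP r p) (h1 : (3 / 10) ≤ r) (h2 : r ≤ (4 / 9)) :
    (-171 / 5000) + (247 / 250) * r ≤ p := by
  rcases le_total r (8 / 25) with c19 | c19
  · linarith [pa19 hP h h1 c19]
  rcases le_total r (17 / 50) with c20 | c20
  · linarith [pa20 hP h c19 c20]
  rcases le_total r (9 / 25) with c21 | c21
  · linarith [pa21 hP h c20 c21]
  rcases le_total r (19 / 50) with c22 | c22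
  · linarith [pa22 hP h c21 c22]
  rcases le_total r (2 / 5) with c23 | c23
  · linarith [pa23 hP h c22 c23]
  rcases le_total r (21 / 50) with c24 | c24
  · linarith [pa24 hP h c23 c24]
  linarith [pa25 hP h c24 h2]

lemma la22 (hP : PhiB) {r p : ℝ} (h : CellP r p) (h1 : (3 / 10) ≤ r) (h2 : r ≤ (21 / 50)) :
    (1103 / 10000) + (563 / 1000) * r ≤ p := by
  rcases le_total r (8 / 25) with c19 | c19
  · linarith [pa19 hP h h1 c19]
  rcases le_total r (17 / 50) with c20 | c20
  · linarith [pa20 hP h c19 c20]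
  rcases le_total r (9 / 25) with c21 | c21
  · linarith [pa21 hP h c20 c21]
  rcases le_total r (19 / 50) with c22 | c22
  · linarith [pa22 hP h c21 c22]
  rcases le_total r (2 / 5) with c23 | c23
  · linarith [pa23 hP h c22 c23]
  linarith [pa24 hP h c23 h2]

lemma la23 (hP : PhiB) {r p : ℝ} (h : CellP r p) (h1 : (3 / 10) ≤ r) (h2 : r ≤ (21 / 50)) :
    (-171 / 5000) + (247 / 250) * r ≤ p := by
  rcases le_total r (8 / 25) with c19 | c19
  · linarith [pa19 hP h h1 c19]
  rcases le_total r (17 / 50) with c20 | c20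
  · linarith [pa20 hP h c19 c20]
  rcases le_total r (9 / 25) with c21 | c21
  · linarith [pa21 hP h c20 c21]
  rcases le_total r (19 / 50) with c22 | c22
  · linarith [pa22 hP h c21 c22]
  rcases le_total r (2 / 5) with c23 | c23
  · linarith [pa23 hP h c22 c23]
  linarith [pa24 hP h c23 h2]

lemma la24 (hP : PhiB) {r p : ℝ} (h : CellP r p) (h1 : (1 / 5) ≤ r) (h2 : r ≤ (4 / 9)) :
    (131 / 1250) + (579 / 1000) * r ≤ p := by
  rcases le_total r (9 / 40) with c15 | c15
  · linarith [pa15 hP h h1 c15]
  rcases le_total r (1 / 4) with c16 | c16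
  · linarith [pa16 hP h c15 c16]
  rcases le_total r (11 / 40) with c17 | c17
  · linarith [pa17 hP h c16 c17]
  rcases le_total r (3 / 10) with c18 | c18
  · linarith [pa18 hP h c17 c18]
  rcases le_total r (8 / 25) with c19 | c19
  · linarith [pa19 hP h c18 c19]
  rcases le_total r (17 / 50) with c20 | c20
  · linarith [pa20 hP h c19 c20]
  rcases le_total r (9 / 25) with c21 | c21
  · linarith [pa21 hP h c20 c21]
  rcases le_total r (19 / 50) with c22 | c22
  · linarith [pa22 hP h c21 c22]
  rcases le_total r (2 / 5) with c23 | c23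
  · linarith [pa23 hP h c22 c23]
  rcases le_total r (21 / 50) with c24 | c24
  · linarith [pa24 hP h c23 c24]
  linarith [pa25 hP h c24 h2]

lemma la25 (hP : PhiB) {r p : ℝ} (h : CellP r p) (h1 : (1 / 5) ≤ r) (h2 : r ≤ (2 / 5)) :
    (131 / 1250) + (579 / 1000) * r ≤ p := by
  rcases le_total r (9 / 40) with c15 | c15
  · linarith [pa15 hP h h1 c15]
  rcases le_total r (1 / 4) with c16 | c16
  · linarith [pa16 hP h c15 c16]
  rcases le_total r (11 / 40) with c17 | c17
  · linarith [pa17 hP h c16 c17]
  rcases le_total r (3 / 10) with c18 | c18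
  · linarith [pa18 hP h c17 c18]
  rcases le_total r (8 / 25) with c19 | c19
  · linarith [pa19 hP h c18 c19]
  rcases le_total r (17 / 50) with c20 | c20
  · linarith [pa20 hP h c19 c20]
  rcases le_total r (9 / 25) with c21 | c21
  · linarith [pa21 hP h c20 c21]
  rcases le_total r (19 / 50) with c22 | c22
  · linarith [pa22 hP h c21 c22]
  linarith [pa23 hP h c22 h2]

lemma la26 (hP : PhiB) {r p : ℝ} (h : CellP r p) (h1 : (1 / 5) ≤ r) (h2 : r ≤ (17 / 50)) :
    (131 / 1250) + (579 / 1000) * r ≤ p := by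
  rcases le_total r (9 / 40) with c15 | c15
  · linarith [pa15 hP h h1 c15]
  rcases le_total r (1 / 4) with c16 | c16
  · linarith [pa16 hP h c15 c16]
  rcases le_total r (11 / 40) with c17 | c17
  · linarith [pa17 hP h c16 c17]
  rcases le_total r (3 / 10) with c18 | c18
  · linarith [pa18 hP h c17 c18]
  rcases le_total r (8 / 25) with c19 | c19
  · linarith [pa19 hP h c18 c19]
  linarith [pa20 hP h c19 h2]

lemma la27 (hP : PhiB) {r p : ℝ} (h : CellP r p) (h1 : (3 / 200) ≤ r) (h2 : r ≤ (3 / 50)) :
    (359 / 10000) + (1319 / 1000) * r ≤ p := by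
  rcases le_total r (1 / 50) with c3 | c3
  · linarith [pa3 hP h h1 c3]
  rcases le_total r (1 / 40) with c4 | c4
  · linarith [pa4 hP h c3 c4]
  rcases le_total r (3 / 100) with c5 | c5
  · linarith [pa5 hP h c4 c5]
  rcases le_total r (1 / 25) with c6 | c6
  · linarith [pa6 hP h c5 c6]
  rcases le_total r (1 / 20) with c7 | c7
  · linarith [pa7 hP h c6 c7]
  linarith [pa8 hP h c7 h2]

lemma la28 (hP : PhiB) {r p : ℝ} (h : CellP r p) (h1 : (1 / 200) ≤ r) (h2 : r ≤ (1 / 100)) :
    (157 / 10000) + (1417 / 500) * r ≤ p := by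
  linarith [pa1 hP h h1 h2]

lemma la29 (hP : PhiB) {r p : ℝ} (h : CellP r p) (h1 : 0 ≤ r) (h2 : r ≤ (1 / 100)) :
    0 + (4407 / 1000) * r ≤ p := by
  rcases le_total r (1 / 200) with c0 | c0
  · linarith [pa0 hP h h1 c0]
  linarith [pa1 hP h c0 h2]

lemma la30 (hP : PhiB) {r p : ℝ} (h : CellP r p) (h1 : (1 / 5) ≤ r) (h2 : r ≤ (19 / 50)) :
    (-1213 / 10000) + (123 / 100) * r ≤ p := by
  rcases le_total r (9 / 40) with c15 | c15
  · linarith [pa15 hP h h1 c15]
  rcases le_total r (1 / 4) with c16 | c16
  · linarith [pa16 hP h c15 c16]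
  rcases le_total r (11 / 40) with c17 | c17
  · linarith [pa17 hP h c16 c17]
  rcases le_total r (3 / 10) with c18 | c18
  · linarith [pa18 hP h c17 c18]
  rcases le_total r (8 / 25) with c19 | c19
  · linarith [pa19 hP h c18 c19]
  rcases le_total r (17 / 50) with c20 | c20
  · linarith [pa20 hP h c19 c20]
  rcases le_total r (9 / 25) with c21 | c21
  · linarith [pa21 hP h c20 c21]
  linarith [pa22 hP h c21 h2]

lemma la31 (hP : PhiB) {r p : ℝ} (h : CellP r p) (h1 : (1 / 5) ≤ r) (h2 : r ≤ (3 / 10)) :
    (989 / 10000) + (603 / 1000) * r ≤ p := by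
  rcases le_total r (9 / 40) with c15 | c15
  · linarith [pa15 hP h h1 c15]
  rcases le_total r (1 / 4) with c16 | c16
  · linarith [pa16 hP h c15 c16]
  rcases le_total r (11 / 40) with c17 | c17
  · linarith [pa17 hP h c16 c17]
  linarith [pa18 hP h c17 h2]

lemma la32 (hP : PhiB) {r p : ℝ} (h : CellP r p) (h1 : (1 / 100) ≤ r) (h2 : r ≤ (3 / 50)) :
    (149 / 5000) + (1421 / 1000) * r ≤ p := by
  rcases le_total r (3 / 200) with c2 | c2
  · linarith [pa2 hP h h1 c2]
  rcases le_total r (1 / 50) with c3 | c3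
  · linarith [pa3 hP h c2 c3]
  rcases le_total r (1 / 40) with c4 | c4
  · linarith [pa4 hP h c3 c4]
  rcases le_total r (3 / 100) with c5 | c5
  · linarith [pa5 hP h c4 c5]
  rcases le_total r (1 / 25) with c6 | c6
  · linarith [pa6 hP h c5 c6]
  rcases le_total r (1 / 20) with c7 | c7
  · linarith [pa7 hP h c6 c7]
  linarith [pa8 hP h c7 h2]

lemma la33 (hP : PhiB) {r p : ℝ} (h : CellP r p) (h1 : 0 ≤ r) (h2 : r ≤ (3 / 50)) :
    0 + (959 / 500) * r ≤ p := by
  rcases le_total r (1 / 200) with c0 | c0
  · linarith [pa0 hP h h1 c0]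
  rcases le_total r (1 / 100) with c1 | c1
  · linarith [pa1 hP h c0 c1]
  rcases le_total r (3 / 200) with c2 | c2
  · linarith [pa2 hP h c1 c2]
  rcases le_total r (1 / 50) with c3 | c3
  · linarith [pa3 hP h c2 c3]
  rcases le_total r (1 / 40) with c4 | c4
  · linarith [pa4 hP h c3 c4]
  rcases le_total r (3 / 100) with c5 | c5
  · linarith [pa5 hP h c4 c5]
  rcases le_total r (1 / 25) with c6 | c6
  · linarith [pa6 hP h c5 c6]
  rcases le_total r (1 / 20) with c7 | c7
  · linarith [pa7 hP h c6 c7]
  linarith [pa8 hP h c7 h2]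

lemma la34 (hP : PhiB) {r p : ℝ} (h : CellP r p) (h1 : (19 / 50) ≤ r) (h2 : r ≤ (4 / 9)) :
    (-661 / 2500) + (793 / 500) * r ≤ p := by
  rcases le_total r (2 / 5) with c23 | c23
  · linarith [pa23 hP h h1 c23]
  rcases le_total r (21 / 50) with c24 | c24
  · linarith [pa24 hP h c23 c24]
  linarith [pa25 hP h c24 h2]

lemma la35 (hP : PhiB) {r p : ℝ} (h : CellP r p) (h1 : (17 / 50) ≤ r) (h2 : r ≤ (4 / 9)) :
    (-289 / 2500) + (607 / 500) * r ≤ p := by
  rcases le_total r (9 / 25) with c21 | c21
  · linarith [pa21 hP h h1 c21]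
  rcases le_total r (19 / 50) with c22 | c22
  · linarith [pa22 hP h c21 c22]
  rcases le_total r (2 / 5) with c23 | c23
  · linarith [pa23 hP h c22 c23]
  rcases le_total r (21 / 50) with c24 | c24
  · linarith [pa24 hP h c23 c24]
  linarith [pa25 hP h c24 h2]

lemma la36 (hP : PhiB) {r p : ℝ} (h : CellP r p) (h1 : (3 / 10) ≤ r) (h2 : r ≤ (19 / 50)) :
    (-1213 / 10000) + (123 / 100) * r ≤ p := by
  rcases le_total r (8 / 25) with c19 | c19
  · linarith [pa19 hP h h1 c19]
  rcases le_total r (17 / 50) with c20 | c20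
  · linarith [pa20 hP h c19 c20]
  rcases le_total r (9 / 25) with c21 | c21
  · linarith [pa21 hP h c20 c21]
  linarith [pa22 hP h c21 h2]

lemma la37 (hP : PhiB) {r p : ℝ} (h : CellP r p) (h1 : (1 / 5) ≤ r) (h2 : r ≤ (1 / 4)) :
    (1069 / 10000) + (571 / 1000) * r ≤ p := by
  rcases le_total r (9 / 40) with c15 | c15
  · linarith [pa15 hP h h1 c15]
  linarith [pa16 hP h c15 h2]

lemma la38 (hP : PhiB) {r p : ℝ} (h : CellP r p) (h1 : (1 / 50) ≤ r) (h2 : r ≤ (1 / 20)) :
    (387 / 10000) + (657 / 500) * r ≤ p := by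
  rcases le_total r (1 / 40) with c4 | c4
  · linarith [pa4 hP h h1 c4]
  rcases le_total r (3 / 100) with c5 | c5
  · linarith [pa5 hP h c4 c5]
  rcases le_total r (1 / 25) with c6 | c6
  · linarith [pa6 hP h c5 c6]
  linarith [pa7 hP h c6 h2]

lemma la39 (hP : PhiB) {r p : ℝ} (h : CellP r p) (h1 : (1 / 100) ≤ r) (h2 : r ≤ (3 / 100)) :
    (261 / 10000) + (1789 / 1000) * r ≤ p := by
  rcases le_total r (3 / 200) with c2 | c2
  · linarith [pa2 hP h h1 c2]
  rcases le_total r (1 / 50) with c3 | c3
  · linarith [pa3 hP h c2 c3]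
  rcases le_total r (1 / 40) with c4 | c4
  · linarith [pa4 hP h c3 c4]
  linarith [pa5 hP h c4 h2]

lemma la40 (hP : PhiB) {r p : ℝ} (h : CellP r p) (h1 : 0 ≤ r) (h2 : r ≤ (3 / 100)) :
    0 + (2661 / 1000) * r ≤ p := by
  rcases le_total r (1 / 200) with c0 | c0
  · linarith [pa0 hP h h1 c0]
  rcases le_total r (1 / 100) with c1 | c1
  · linarith [pa1 hP h c0 c1]
  rcases le_total r (3 / 200) with c2 | c2
  · linarith [pa2 hP h c1 c2]
  rcases le_total r (1 / 50) with c3 | c3
  · linarith [pa3 hP h c2 c3]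
  rcases le_total r (1 / 40) with c4 | c4
  · linarith [pa4 hP h c3 c4]
  linarith [pa5 hP h c4 h2]

lemma la41 (hP : PhiB) {r p : ℝ} (h : CellP r p) (h1 : (3 / 10) ≤ r) (h2 : r ≤ (9 / 25)) :
    (1103 / 10000) + (563 / 1000) * r ≤ p := by
  rcases le_total r (8 / 25) with c19 | c19
  · linarith [pa19 hP h h1 c19]
  rcases le_total r (17 / 50) with c20 | c20
  · linarith [pa20 hP h c19 c20]
  linarith [pa21 hP h c20 h2]

lemma la42 (hP : PhiB) {r p : ℝ} (h : CellP r p) (h1 : (1 / 4) ≤ r) (h2 : r ≤ (8 / 25)) :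
    (1039 / 10000) + (583 / 1000) * r ≤ p := by
  rcases le_total r (11 / 40) with c17 | c17
  · linarith [pa17 hP h h1 c17]
  rcases le_total r (3 / 10) with c18 | c18
  · linarith [pa18 hP h c17 c18]
  linarith [pa19 hP h c18 h2]

lemma la43 (hP : PhiB) {r p : ℝ} (h : CellP r p) (h1 : (3 / 10) ≤ r) (h2 : r ≤ (4 / 9)) :
    (1103 / 10000) + (563 / 1000) * r ≤ p := by
  rcases le_total r (8 / 25) with c19 | c19
  · linarith [pa19 hP h h1 c19]
  rcases le_total r (17 / 50) with c20 | c20
  · linarith [pa20 hP h c19 c20]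
  rcases le_total r (9 / 25) with c21 | c21
  · linarith [pa21 hP h c20 c21]
  rcases le_total r (19 / 50) with c22 | c22
  · linarith [pa22 hP h c21 c22]
  rcases le_total r (2 / 5) with c23 | c23
  · linarith [pa23 hP h c22 c23]
  rcases le_total r (21 / 50) with c24 | c24
  · linarith [pa24 hP h c23 c24]
  linarith [pa25 hP h c24 h2]

lemma la44 (hP : PhiB) {r p : ℝ} (h : CellP r p) (h1 : (3 / 10) ≤ r) (h2 : r ≤ (19 / 50)) :
    (1103 / 10000) + (563 / 1000) * r ≤ p := by
  rcases le_total r (8 / 25) with c19 | c19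
  · linarith [pa19 hP h h1 c19]
  rcases le_total r (17 / 50) with c20 | c20
  · linarith [pa20 hP h c19 c20]
  rcases le_total r (9 / 25) with c21 | c21
  · linarith [pa21 hP h c20 c21]
  linarith [pa22 hP h c21 h2]

lemma la45 (hP : PhiB) {r p : ℝ} (h : CellP r p) (h1 : (1 / 5) ≤ r) (h2 : r ≤ (8 / 25)) :
    (1039 / 10000) + (583 / 1000) * r ≤ p := by
  rcases le_total r (9 / 40) with c15 | c15
  · linarith [pa15 hP h h1 c15]
  rcases le_total r (1 / 4) with c16 | c16
  · linarith [pa16 hP h c15 c16]
  rcases le_total r (11 / 40) with c17 | c17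
  · linarith [pa17 hP h c16 c17]
  rcases le_total r (3 / 10) with c18 | c18
  · linarith [pa18 hP h c17 c18]
  linarith [pa19 hP h c18 h2]

lemma la46 (hP : PhiB) {r p : ℝ} (h : CellP r p) (h1 : (1 / 5) ≤ r) (h2 : r ≤ (19 / 50)) :
    (131 / 1250) + (579 / 1000) * r ≤ p := by
  rcases le_total r (9 / 40) with c15 | c15
  · linarith [pa15 hP h h1 c15]
  rcases le_total r (1 / 4) with c16 | c16
  · linarith [pa16 hP h c15 c16]
  rcases le_total r (11 / 40) with c17 | c17
  · linarith [pa17 hP h c16 c17]
  rcases le_total r (3 / 10) with c18 | c18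
  · linarith [pa18 hP h c17 c18]
  rcases le_total r (8 / 25) with c19 | c19
  · linarith [pa19 hP h c18 c19]
  rcases le_total r (17 / 50) with c20 | c20
  · linarith [pa20 hP h c19 c20]
  rcases le_total r (9 / 25) with c21 | c21
  · linarith [pa21 hP h c20 c21]
  linarith [pa22 hP h c21 h2]

lemma la47 (hP : PhiB) {r p : ℝ} (h : CellP r p) (h1 : (3 / 50) ≤ r) (h2 : r ≤ (1 / 4)) :
    (363 / 5000) + (177 / 250) * r ≤ p := by
  rcases le_total r (2 / 25) with c9 | c9
  · linarith [pa9 hP h h1 c9]
  rcases le_total r (1 / 10) with c10 | c10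
  · linarith [pa10 hP h c9 c10]
  rcases le_total r (3 / 25) with c11 | c11
  · linarith [pa11 hP h c10 c11]
  rcases le_total r (7 / 50) with c12 | c12
  · linarith [pa12 hP h c11 c12]
  rcases le_total r (17 / 100) with c13 | c13
  · linarith [pa13 hP h c12 c13]
  rcases le_total r (1 / 5) with c14 | c14
  · linarith [pa14 hP h c13 c14]
  rcases le_total r (9 / 40) with c15 | c15
  · linarith [pa15 hP h c14 c15]
  linarith [pa16 hP h c15 h2]

set_option maxHeartbeats 4000000 in
theorem fin5 (hP : PhiB) {r1 r2 r3 r4 r5 t p1 p2 p3 p4 p5 q : ℝ} (h1 : CellP r1 p1)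
    (h2 : CellP r2 p2) (h3 : CellP r3 p3) (h4 : CellP r4 p4) (h5 : CellP r5 p5) (o12 : r2 ≤ r1)
    (o23 : r3 ≤ r2) (o34 : r4 ≤ r3) (o45 : r5 ≤ r4) (ht : 0 ≤ t) (hq0 : 0 ≤ q)
    (hs : r1 + r2 + r3 + r4 + r5 + t = 1) (hp : p1 + p2 + p3 + p4 + p5 + q = 1)
    (hq : ∀ c ρ : ℝ, (∀ r p, CellP r p → 0 ≤ r → r ≤ ρ → 0 + c * r ≤ p) → r5 ≤ ρ → c * t ≤ q)
    (hJ3 : TJ 3 r2 r3 r4 (r4 + r5 + t)) (hJ4 : TJ 4 r2 r3 r5 (r5 + t)) : False := by
  have m1 := rmax h1
  have m5 := h5.rpos
  have z1 := h1.ppos
  have z2 := h2.ppos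
  have z3 := h3.ppos
  have z4 := h4.ppos
  have z5 := h5.ppos
  rcases le_total (r4 + r5 + t) (3 / 200) with d1 | d1
  · exact kill hJ3 o23 (1351 / 5000) (961 / 10000) (49 / 400) (49 / 400) (1423 / 10000) (by linarith) (by linarith)
      (by norm_num; linarith) (by norm_num; linarith) (by norm_num) (by norm_num) (by norm_num) (by norm_num)
      (by norm_num) (by norm_num) (by norm_num)
  rcases le_total (r5 + t) (1 / 500) with d2 | d2
  · exact kill hJ4 o23 (369 / 2000) (109 / 2000) (28 / 625) (28 / 625) (237 / 2500) (by linarith) (by linarith)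
      (by norm_num; linarith) (by norm_num; linarith) (by norm_num) (by norm_num) (by norm_num) (by norm_num)
      (by norm_num) (by norm_num) (by norm_num)
  rcases le_total r4 (1 / 200) with d3 | d3
  · rcases le_total (r4 + r5 + t) (31 / 1000) with d4 | d4
    · exact kill hJ3 o23 (1311 / 5000) (801 / 10000) (177 / 2500) (1761 / 10000) (1107 / 10000) (by linarith) (by linarith)
        (by norm_num; linarith) (by norm_num; linarith) (by norm_num) (by norm_num) (by norm_num) (by norm_num)
        (by norm_num) (by norm_num) (by norm_num)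
    have k0 := la0 hP h1 (by linarith) (by linarith)
    have k1 := la1 hP h2 (by linarith) (by linarith)
    have k2 := la2 hP h3 (by linarith) (by linarith)
    have k3 := la3 hP h4 (by linarith) (by linarith)
    have k4 := la3 hP h5 (by linarith) (by linarith)
    have k5 := hq _ _ (fun r p h => la3 hP h) (by linarith)
    linarith
  rcases le_total r3 (7 / 50) with d5 | d5
  · have k0 := la4 hP h1 (by linarith) (by linarith)
    have k1 := la4 hP h2 (by linarith) (by linarith)
    have k2 := la5 hP h3 (by linarith) (by linarith)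
    have k3 := la5 hP h4 (by linarith) (by linarith)
    have k4 := la6 hP h5 (by linarith) (by linarith)
    have k5 := hq _ _ (fun r p h => la6 hP h) (by linarith)
    linarith
  rcases le_total (r4 + r5 + t) (23 / 1000) with d6 | d6
  · exact kill hJ3 o23 (1331 / 5000) (1399 / 10000) (29 / 200) (1517 / 10000) (104 / 625) (by linarith) (by linarith)
      (by norm_num; linarith) (by norm_num; linarith) (by norm_num) (by norm_num) (by norm_num) (by norm_num)
      (by norm_num) (by norm_num) (by norm_num)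
  rcases le_total (r5 + t) (3 / 500) with d7 | d7
  · exact kill hJ4 o23 (1831 / 10000) (1399 / 10000) (31 / 400) (31 / 400) (141 / 1000) (by linarith) (by linarith)
      (by norm_num; linarith) (by norm_num; linarith) (by norm_num) (by norm_num) (by norm_num) (by norm_num)
      (by norm_num) (by norm_num) (by norm_num)
  rcases le_total r4 (3 / 200) with d8 | d8
  · rcases le_total (r4 + r5 + t) (17 / 500) with d9 | d9
    · exact kill hJ3 o23 (2607 / 10000) (1399 / 10000) (49 / 400) (461 / 2500) (787 / 5000) (by linarith) (by linarith)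
        (by norm_num; linarith) (by norm_num; linarith) (by norm_num) (by norm_num) (by norm_num) (by norm_num)
        (by norm_num) (by norm_num) (by norm_num)
    rcases le_total (r5 + t) (19 / 1000) with d10 | d10
    · exact kill hJ3 o23 (2607 / 10000) (1399 / 10000) (49 / 400) (461 / 2500) (787 / 5000) (by linarith) (by linarith)
        (by norm_num; linarith) (by norm_num; linarith) (by norm_num) (by norm_num) (by norm_num) (by norm_num)
        (by norm_num) (by norm_num) (by norm_num)
    rcases le_total r1 (9 / 25) with d11 | d11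
    · rcases le_total (r4 + r5 + t) (73 / 1000) with d12 | d12
      · exact kill hJ3 o23 (1417 / 5000) (2069 / 10000) (49 / 400) (1351 / 5000) (1811 / 10000) (by linarith) (by linarith)
          (by norm_num; linarith) (by norm_num; linarith) (by norm_num) (by norm_num) (by norm_num) (by norm_num)
          (by norm_num) (by norm_num) (by norm_num)
      have k0 := la7 hP h1 (by linarith) (by linarith)
      have k1 := la7 hP h2 (by linarith) (by linarith)
      have k2 := la8 hP h3 (by linarith) (by linarith)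
      have k3 := la9 hP h5 (by linarith) (by linarith)
      have k4 := hq _ _ (fun r p h => la9 hP h) (by linarith)
      linarith
    have k0 := la10 hP h1 (by linarith) (by linarith)
    have k1 := la11 hP h2 (by linarith) (by linarith)
    have k2 := la8 hP h3 (by linarith) (by linarith)
    have k3 := la12 hP h4 (by linarith) (by linarith)
    have k4 := la9 hP h5 (by linarith) (by linarith)
    have k5 := hq _ _ (fun r p h => la9 hP h) (by linarith)
    linarith
  rcases le_total (r4 + r5 + t) (1 / 40) with d13 | d13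
  · exact kill hJ3 o23 (663 / 2500) (1399 / 10000) (1379 / 10000) (791 / 5000) (103 / 625) (by linarith) (by linarith)
      (by norm_num; linarith) (by norm_num; linarith) (by norm_num) (by norm_num) (by norm_num) (by norm_num)
      (by norm_num) (by norm_num) (by norm_num)
  rcases le_total r5 (1 / 200) with d14 | d14
  · rcases le_total (r4 + r5 + t) (43 / 1000) with d15 | d15
    · exact kill hJ4 o23 (1281 / 5000) (1399 / 10000) (177 / 2500) (837 / 5000) (1597 / 10000) (by linarith) (by linarith)
        (by norm_num; linarith) (by norm_num; linarith) (by norm_num) (by norm_num) (by norm_num) (by norm_num)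
        (by norm_num) (by norm_num) (by norm_num)
    rcases le_total (r5 + t) (11 / 1000) with d16 | d16
    · exact kill hJ4 o23 (363 / 2000) (1399 / 10000) (177 / 2500) (1049 / 10000) (86 / 625) (by linarith) (by linarith)
        (by norm_num; linarith) (by norm_num; linarith) (by norm_num) (by norm_num) (by norm_num) (by norm_num)
        (by norm_num) (by norm_num) (by norm_num)
    have k0 := la13 hP h1 (by linarith) (by linarith)
    have k1 := la11 hP h2 (by linarith) (by linarith)
    have k2 := la8 hP h3 (by linarith) (by linarith)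
    have k3 := la14 hP h4 (by linarith) (by linarith)
    have k4 := la3 hP h5 (by linarith) (by linarith)
    have k5 := hq _ _ (fun r p h => la3 hP h) (by linarith)
    linarith
  rcases le_total r3 (1 / 5) with d17 | d17
  · rcases le_total (r4 + r5 + t) (3 / 100) with d18 | d18
    · exact kill hJ3 o23 (651 / 2000) (1399 / 10000) (31 / 200) (1733 / 10000) (1809 / 10000) (by linarith) (by linarith)
        (by norm_num; linarith) (by norm_num; linarith) (by norm_num) (by norm_num) (by norm_num) (by norm_num)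
        (by norm_num) (by norm_num) (by norm_num)
    rcases le_total r2 (3 / 10) with d19 | d19
    · have k0 := la15 hP h1 (by linarith) (by linarith)
      have k1 := la16 hP h2 (by linarith) (by linarith)
      have k2 := la17 hP h3 (by linarith) (by linarith)
      have k3 := la18 hP h4 (by linarith) (by linarith)
      have k4 := la19 hP h5 (by linarith) (by linarith)
      have k5 := hq _ _ (fun r p h => la20 hP h) (by linarith)
      linarith
    rcases le_total (r5 + t) (11 / 1000) with d20 | d20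
    · exact kill hJ4 o23 (2999 / 10000) (1399 / 10000) (1049 / 10000) (1049 / 10000) (1857 / 10000) (by linarith) (by linarith)
        (by norm_num; linarith) (by norm_num; linarith) (by norm_num) (by norm_num) (by norm_num) (by norm_num)
        (by norm_num) (by norm_num) (by norm_num)
    have k0 := la21 hP h1 (by linarith) (by linarith)
    have k1 := la22 hP h2 (by linarith) (by linarith)
    have k2 := la23 hP h2 (by linarith) (by linarith)
    have k3 := la17 hP h3 (by linarith) (by linarith)
    have k4 := la18 hP h4 (by linarith) (by linarith)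
    have k5 := la5 hP h5 (by linarith) (by linarith)
    have k6 := hq _ _ (fun r p h => la6 hP h) (by linarith)
    linarith
  rcases le_total (r4 + r5 + t) (4 / 125) with d21 | d21
  · exact kill hJ3 o23 (2617 / 10000) (1999 / 10000) (1613 / 10000) (1789 / 10000) (379 / 2000) (by linarith) (by linarith)
      (by norm_num; linarith) (by norm_num; linarith) (by norm_num) (by norm_num) (by norm_num) (by norm_num)
      (by norm_num) (by norm_num) (by norm_num)
  rcases le_total (r5 + t) (1 / 125) with d22 | d22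
  · exact kill hJ4 o23 (1999 / 10000) (1999 / 10000) (179 / 2000) (179 / 2000) (421 / 2500) (by linarith) (by linarith)
      (by norm_num; linarith) (by norm_num; linarith) (by norm_num) (by norm_num) (by norm_num) (by norm_num)
      (by norm_num) (by norm_num) (by norm_num)
  rcases le_total r4 (3 / 50) with d23 | d23
  · rcases le_total (r5 + t) (11 / 1000) with d24 | d24
    · exact kill hJ4 o23 (1211 / 5000) (1999 / 10000) (1049 / 10000) (1049 / 10000) (1903 / 10000) (by linarith) (by linarith)
        (by norm_num; linarith) (by norm_num; linarith) (by norm_num) (by norm_num) (by norm_num) (by norm_num)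
        (by norm_num) (by norm_num) (by norm_num)
    rcases le_total r5 (1 / 100) with d25 | d25
    · rcases le_total (r4 + r5 + t) (9 / 250) with d26 | d26
      · exact kill hJ4 o23 (2597 / 10000) (1999 / 10000) (1001 / 10000) (29 / 200) (971 / 5000) (by linarith) (by linarith)
          (by norm_num; linarith) (by norm_num; linarith) (by norm_num) (by norm_num) (by norm_num) (by norm_num)
          (by norm_num) (by norm_num) (by norm_num)
      rcases le_total (r5 + t) (3 / 200) with d27 | d27
      · exact kill hJ4 o23 (1201 / 5000) (1999 / 10000) (1001 / 10000) (49 / 400) (1871 / 10000) (by linarith) (by linarith)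
          (by norm_num; linarith) (by norm_num; linarith) (by norm_num) (by norm_num) (by norm_num) (by norm_num)
          (by norm_num) (by norm_num) (by norm_num)
      have k0 := la24 hP h1 (by linarith) (by linarith)
      have k1 := la25 hP h2 (by linarith) (by linarith)
      have k2 := la26 hP h3 (by linarith) (by linarith)
      have k3 := la27 hP h4 (by linarith) (by linarith)
      have k4 := la28 hP h5 (by linarith) (by linarith)
      have k5 := hq _ _ (fun r p h => la29 hP h) (by linarith)
      linarith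
    rcases le_total (r4 + r5 + t) (7 / 200) with d28 | d28
    · exact kill hJ3 o23 (1301 / 5000) (1999 / 10000) (31 / 200) (1871 / 10000) (1871 / 10000) (by linarith) (by linarith)
        (by norm_num; linarith) (by norm_num; linarith) (by norm_num) (by norm_num) (by norm_num) (by norm_num)
        (by norm_num) (by norm_num) (by norm_num)
    rcases le_total r2 (3 / 10) with d29 | d29
    · rcases le_total r1 (19 / 50) with d30 | d30
      · rcases le_total (r4 + r5 + t) (9 / 200) with d31 | d31
        · exact kill hJ3 o23 (1437 / 5000) (2749 / 10000) (461 / 2500) (1061 / 5000) (273 / 1250) (by linarith) (by linarith)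
            (by norm_num; linarith) (by norm_num; linarith) (by norm_num) (by norm_num) (by norm_num) (by norm_num)
            (by norm_num) (by norm_num) (by norm_num)
        have k0 := la30 hP h1 (by linarith) (by linarith)
        have k1 := la31 hP h2 (by linarith) (by linarith)
        have k2 := la31 hP h3 (by linarith) (by linarith)
        have k3 := la27 hP h4 (by linarith) (by linarith)
        have k4 := la32 hP h5 (by linarith) (by linarith)
        have k5 := hq _ _ (fun r p h => la33 hP h) (by linarith)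
        linarith
      have k0 := la34 hP h1 (by linarith) (by linarith)
      have k1 := la31 hP h2 (by linarith) (by linarith)
      have k2 := la31 hP h3 (by linarith) (by linarith)
      have k3 := la27 hP h4 (by linarith) (by linarith)
      have k4 := la32 hP h5 (by linarith) (by linarith)
      have k5 := hq _ _ (fun r p h => la33 hP h) (by linarith)
      linarith
    rcases le_total (r4 + r5 + t) (1 / 25) with d32 | d32
    · exact kill hJ3 o23 (2999 / 10000) (1999 / 10000) (1703 / 10000) (2001 / 10000) (1019 / 5000) (by linarith) (by linarith)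
        (by norm_num; linarith) (by norm_num; linarith) (by norm_num) (by norm_num) (by norm_num) (by norm_num)
        (by norm_num) (by norm_num) (by norm_num)
    rcases le_total (r5 + t) (7 / 500) with d33 | d33
    · exact kill hJ4 o23 (2999 / 10000) (1999 / 10000) (74 / 625) (74 / 625) (217 / 1000) (by linarith) (by linarith)
        (by norm_num; linarith) (by norm_num; linarith) (by norm_num) (by norm_num) (by norm_num) (by norm_num)
        (by norm_num) (by norm_num) (by norm_num)
    rcases le_total (r4 + r5 + t) (3 / 50) with d34 | d34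
    · rcases le_total (r4 + r5 + t) (21 / 500) with d35 | d35
      · exact kill hJ3 o23 (2999 / 10000) (1999 / 10000) (837 / 5000) (41 / 200) (2027 / 10000) (by linarith) (by linarith)
          (by norm_num; linarith) (by norm_num; linarith) (by norm_num) (by norm_num) (by norm_num) (by norm_num)
          (by norm_num) (by norm_num) (by norm_num)
      rcases le_total r4 (21 / 1000) with d36 | d36
      · exact kill hJ3 o23 (2999 / 10000) (1999 / 10000) (29 / 200) (49 / 200) (77 / 400) (by linarith) (by linarith)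
          (by norm_num; linarith) (by norm_num; linarith) (by norm_num) (by norm_num) (by norm_num) (by norm_num)
          (by norm_num) (by norm_num) (by norm_num)
      rcases le_total r3 (1 / 4) with d37 | d37
      · have k0 := la35 hP h1 (by linarith) (by linarith)
        have k1 := la36 hP h2 (by linarith) (by linarith)
        have k2 := la37 hP h3 (by linarith) (by linarith)
        have k3 := la38 hP h4 (by linarith) (by linarith)
        have k4 := la39 hP h5 (by linarith) (by linarith)
        have k5 := hq _ _ (fun r p h => la40 hP h) (by linarith)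
        linarith
      rcases le_total (r4 + r5 + t) (47 / 1000) with d38 | d38
      · exact kill hJ3 o23 (2999 / 10000) (2499 / 10000) (1817 / 10000) (271 / 1250) (2181 / 10000) (by linarith) (by linarith)
          (by norm_num; linarith) (by norm_num; linarith) (by norm_num) (by norm_num) (by norm_num) (by norm_num)
          (by norm_num) (by norm_num) (by norm_num)
      rcases le_total (r5 + t) (17 / 1000) with d39 | d39
      · exact kill hJ4 o23 (2999 / 10000) (2499 / 10000) (163 / 1250) (163 / 1250) (1173 / 5000) (by linarith) (by linarith)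
          (by norm_num; linarith) (by norm_num; linarith) (by norm_num) (by norm_num) (by norm_num) (by norm_num)
          (by norm_num) (by norm_num) (by norm_num)
      have k0 := la22 hP h1 (by linarith) (by linarith)
      have k1 := la41 hP h2 (by linarith) (by linarith)
      have k2 := la42 hP h3 (by linarith) (by linarith)
      have k3 := la38 hP h4 (by linarith) (by linarith)
      have k4 := la39 hP h5 (by linarith) (by linarith)
      have k5 := hq _ _ (fun r p h => la40 hP h) (by linarith)
      linarith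
    have k0 := la43 hP h1 (by linarith) (by linarith)
    have k1 := la44 hP h2 (by linarith) (by linarith)
    have k2 := la45 hP h3 (by linarith) (by linarith)
    have k3 := la27 hP h4 (by linarith) (by linarith)
    have k4 := la32 hP h5 (by linarith) (by linarith)
    have k5 := hq _ _ (fun r p h => la33 hP h) (by linarith)
    linarith
  have k0 := la24 hP h1 (by linarith) (by linarith)
  have k1 := la46 hP h2 (by linarith) (by linarith)
  have k2 := la45 hP h3 (by linarith) (by linarith)
  have k3 := la47 hP h4 (by linarith) (by linarith)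
  have k4 := la19 hP h5 (by linarith) (by linarith)
  have k5 := hq _ _ (fun r p h => la20 hP h) (by linarith)
  linarith

end Crest.Agent.R215.Num
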