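import Crest.Agent.R215.Fin4
import Crest.Agent.R215.Fin5

/-! Row 215: the final real-arithmetic step. -/

set_option autoImplicit false

namespace Crest.Agent.R215

open Finset _root_.Crest.Agent.R215.Num

section
variable {ι : Type} [DecidableEq ι] {s : Finset ι} {r : ι → ℝ} {c : ι → ι → ℝ}

lemma Num.pair_le {u : Finset ι} {f : ι → ℝ} (hf : ∀ j ∈ u, 0 ≤ f j) {a b : ι} (ha : a ∈ u)
    (hb : b ∈ u) (hab : a ≠ b) : f a + f b ≤ ∑ j ∈ u, f j := by
  rw [← sum_pair hab]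
  exact sum_le_sum_of_subset_of_nonneg (by intro x; simp; rintro (rfl | rfl) <;> assumption)
    fun j hj _ => hf j hj

lemma Num.tj (hs : ∀ i j, c i j = c j i) (hc : ∀ i ∈ s, ∀ j ∈ s, i ≠ j → 0 ≤ c i j)
    (hr : ∀ i ∈ s, r i = ∑ j ∈ s.erase i, c i j) (hJ : JTest s r c) {J : Finset ι} (hJs : J ⊂ s)
    (h3 : 3 ≤ J.card) {i1 i2 i3 : ι} (m1 : i1 ∈ J) (m2 : i2 ∈ J) (m3 : i3 ∈ J) (n12 : i1 ≠ i2)
    (n13 : i1 ≠ i3) (n23 : i2 ≠ i3) (o : r i2 ≤ r i1) {rn : ℝ} (hn : ∀ i ∈ s \ J, r i ≤ rn) :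
    TJ J.card (r i2) (r i3) rn (∑ i ∈ s \ J, r i) := by
  have sub := hJs.subset
  have hsplit : ∀ a ∈ J, r a = ∑ j ∈ J.erase a, c a j + ∑ j ∈ s \ J, c a j := by
    intro a ha
    rw [hr a (sub ha), ← sum_union]
    · congr 1
      ext x
      simp only [mem_erase, mem_union, mem_sdiff]
      constructor
      · rintro ⟨h1, h2⟩
        by_cases h : x ∈ J
        · exact Or.inl ⟨h1, h⟩
        · exact Or.inr ⟨h2, h⟩
      · rintro (⟨h1, h2⟩ | ⟨h1, h2⟩)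
        · exact ⟨h1, sub h2⟩
        · exact ⟨fun e => h2 (e ▸ ha), h1⟩
    · exact disjoint_left.2 fun x h1 h2 => (mem_sdiff.1 h2).2 (mem_erase.1 h1).2
  have hL : ∀ a ∈ J, ∀ j ∈ J.erase a, 0 ≤ c a j := fun a ha j hj =>
    hc a (sub ha) j (sub (mem_erase.1 hj).2) (mem_erase.1 hj).1.symm
  have hb : ∀ a ∈ J, ∀ j ∈ s \ J, 0 ≤ c a j := fun a ha j hj =>
    hc a (sub ha) j (mem_sdiff.1 hj).1 fun e => (mem_sdiff.1 hj).2 (e ▸ ha)
  have key : ∀ a ∈ J, a ≠ i3 → r i2 ≤ r a → c i3 a ≤ (∑ j ∈ J.erase i3, c i3 j) / 2 →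
      TJ J.card (r i2) (r i3) rn (∑ i ∈ s \ J, r i) := by
    intro a ha na oa hca
    have L0 : 0 ≤ ∑ j ∈ J.erase i3, c i3 j := sum_nonneg (hL i3 m3)
    refine ⟨∑ j ∈ s \ J, c i3 j, ∑ j ∈ s \ J, c a j, sum_nonneg (hb i3 m3), sum_nonneg (hb a ha),
      ?_, by linarith [hsplit i3 m3], fun ρ h0 h1 => ?_⟩
    · rw [← sum_add_distrib]
      refine sum_le_sum fun i hi => ?_
      have hi' := mem_sdiff.1 hi
      rw [hr i hi'.1, hs i3 i, hs a i]
      refine pair_le (fun j hj => hc i hi'.1 j (mem_erase.1 hj).2 (mem_erase.1 hj).1.symm) ?_ ?_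
        na.symm
      · exact mem_erase.2 ⟨fun e => hi'.2 (e ▸ m3), sub m3⟩
      · exact mem_erase.2 ⟨fun e => hi'.2 (e ▸ ha), sub ha⟩
    · refine le_trans ?_ (hJ J hJs h3 i3 m3 a ha na.symm ρ h0 fun i hi => (hn i hi).trans h1)
      refine mul_le_mul_of_nonneg_left (Real.sqrt_le_sqrt ?_) (by have := Real.pi_pos; positivity)
      have e3 := hsplit i3 m3
      have ea := hsplit a ha
      have c0 : 0 ≤ c i3 a := hL i3 m3 a (mem_erase.2 ⟨na, ha⟩)
      have e3' : r i3 - ∑ j ∈ s \ J, c i3 j = ∑ j ∈ J.erase i3, c i3 j := by linarith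
      rw [e3']
      nlinarith [mul_le_mul_of_nonneg_left (by linarith :
        r i2 - ∑ j ∈ s \ J, c a j ≤ ∑ j ∈ J.erase a, c a j) L0]
  have := pair_le (hL i3 m3) (mem_erase.2 ⟨n13, m1⟩) (mem_erase.2 ⟨n23, m2⟩) n12
  rcases le_total (c i3 i1) (c i3 i2) with h | h
  · exact key i1 m1 n13 o (by linarith)
  · exact key i2 m2 n23 le_rfl (by linarith)

lemma Num.top (r : ι → ℝ) {u : Finset ι} {k : ℕ} (h : k + 1 ≤ u.card) :
    ∃ i ∈ u, (∀ j ∈ u, r j ≤ r i) ∧ k ≤ (u.erase i).card ∧ (u.erase i).card + 1 = u.card := by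
  obtain ⟨i, hi, hm⟩ := exists_max_image u r (card_pos.1 (by omega))
  exact ⟨i, hi, hm, by rw [card_erase_of_mem hi]; omega, card_erase_add_one hi⟩

end

theorem fin (hP : PhiB) : FinStmt := by
  intro ι _ s r p c hk hr1 hp1 hs hc hr hC hJ h4
  obtain ⟨i1, m1, t1, k1, e1⟩ := Num.top r (k := 3) hk
  obtain ⟨i2, m2, t2, k2, e2⟩ := Num.top r (k := 2) k1
  obtain ⟨i3, m3, t3, k3, e3⟩ := Num.top r (k := 1) k2
  obtain ⟨i4, m4, t4, -, e4⟩ := Num.top r (k := 0) k3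
  set s4 := (((s.erase i1).erase i2).erase i3).erase i4 with hs4
  have sm : ∀ f : ι → ℝ, ∑ i ∈ s, f i = f i1 + f i2 + f i3 + f i4 + ∑ i ∈ s4, f i := by
    intro f
    rw [← add_sum_erase _ _ m1, ← add_sum_erase _ _ m2, ← add_sum_erase _ _ m3,
      ← add_sum_erase _ _ m4]; ring
  have m4' := m4
  have m3' := m3
  have m2' := m2
  simp only [mem_erase] at m2' m3' m4'
  obtain ⟨n21, M2⟩ := m2'
  obtain ⟨n32, n31, M3⟩ := m3'
  obtain ⟨n43, n42, n41, M4⟩ := m4'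
  have o12 := t1 i2 M2
  have o23 := t2 i3 (mem_of_mem_erase m3)
  have o34 := t3 i4 (mem_of_mem_erase m4)
  have d3 : s \ {i1, i2, i3} = ((s.erase i1).erase i2).erase i3 := by
    ext x; simp only [mem_sdiff, mem_insert, mem_singleton, mem_erase]; tauto
  have c3 : ({i1, i2, i3} : Finset ι).card = 3 :=
    card_eq_three.2 ⟨_, _, _, n21.symm, n31.symm, n32.symm, rfl⟩
  have J3 := Num.tj hs hc hr hJ (J := {i1, i2, i3})
    (Finset.ssubset_iff_subset_ne.2 ⟨by intro x; simp; rintro (rfl | rfl | rfl) <;> assumption,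
      fun e => by rw [← e] at hk; omega⟩) c3.ge (i1 := i1) (i2 := i2) (i3 := i3) (by simp) (by simp)
    (by simp) n21.symm n31.symm n32.symm o12 (rn := r i4) (by rw [d3]; exact t4)
  rw [c3, d3, ← add_sum_erase _ _ m4, ← hs4] at J3
  rcases s4.eq_empty_or_nonempty with h0 | h0
  · have hk4 : s.card = 4 := by rw [h0, card_empty] at e4; omega
    rw [sm, h0, sum_empty, add_zero] at hr1 hp1
    rw [h0, sum_empty, add_zero] at J3
    exact fin4 hP (hC _ m1) (hC _ M2) (hC _ M3) (hC _ M4) (h4 hk4 _ m1) (h4 hk4 _ M2)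
      (h4 hk4 _ M3) (h4 hk4 _ M4) o12 o23 o34 hr1 hp1 (by simpa using J3)
  obtain ⟨i5, m5, t5, -, e5⟩ := Num.top r (k := 0) (card_pos.2 h0)
  have sub4 : ∀ x ∈ s4, x ∈ s := fun x hx =>
    mem_of_mem_erase (mem_of_mem_erase (mem_of_mem_erase (mem_of_mem_erase hx)))
  have d4 : s \ {i1, i2, i3, i4} = s4 := by
    ext x; simp only [hs4, mem_sdiff, mem_insert, mem_singleton, mem_erase]; tauto
  have c4 : ({i1, i2, i3, i4} : Finset ι).card = 4 := by
    rw [card_insert_of_notMem (by simp [n21.symm, n31.symm, n41.symm]),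
      card_insert_of_notMem (by simp [n32.symm, n42.symm]), card_pair n43.symm]
  have J4 := Num.tj hs hc hr hJ (J := {i1, i2, i3, i4})
    (Finset.ssubset_iff_subset_ne.2 ⟨by intro x; simp; rintro (rfl | rfl | rfl | rfl) <;> assumption,
      fun e => by have := congrArg card e; omega⟩) (by omega) (i1 := i1) (i2 := i2) (i3 := i3) (by simp)
    (by simp) (by simp) n21.symm n31.symm n32.symm o12 (rn := r i5) (by rw [d4]; exact t5)
  rw [c4, d4, ← add_sum_erase _ _ m5] at J4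
  rw [← add_sum_erase _ _ m5, ← add_assoc] at J3
  rw [sm, ← add_sum_erase _ _ m5, ← add_assoc] at hr1 hp1
  have hC5 : ∀ x ∈ s4.erase i5, CellP (r x) (p x) := fun x hx => hC x (sub4 x (mem_of_mem_erase hx))
  refine fin5 hP (hC _ m1) (hC _ M2) (hC _ M3) (hC _ M4) (hC _ (sub4 _ m5)) o12 o23 o34
    (t4 i5 (mem_of_mem_erase m5)) (sum_nonneg fun x hx => (hC5 x hx).rpos.le)
    (sum_nonneg fun x hx => (hC5 x hx).ppos) hr1 hp1 (fun k ρ h h5 => ?_) (by simpa using J3)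
    (by simpa using J4)
  rw [mul_sum]
  refine sum_le_sum fun x hx => ?_
  have := h _ _ (hC5 x hx) (hC5 x hx).rpos.le ((t5 x (mem_of_mem_erase hx)).trans h5)
  linarith

end Crest.Agent.R215
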