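import Crest.Agent.R215.Nodes

/-! Row 215: four cells (generated case analysis). -/

set_option autoImplicit false
set_option linter.unusedVariables false

namespace Crest.Agent.R215.Num

open Finset

lemma pb3 (hP : PhiB) {r p : ℝ} (h : CellP r p) (h4 : p < 1 / 2 → 3 / 8 * √r < p * (1 - p)) (h1 : (3 / 200) ≤ r) (h2 : r ≤ (1 / 50)) :
    (2811 / 100000) + (461 / 250) * r ≤ p :=
  qline ((n15 hP).q h) h.ppos h1 h2 (by norm_num) (by norm_num [l2]) (by norm_num [l2])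
    (by norm_num [l2, hl]) (by norm_num [l2])

lemma pb4 (hP : PhiB) {r p : ℝ} (h : CellP r p) (h4 : p < 1 / 2 → 3 / 8 * √r < p * (1 - p)) (h1 : (1 / 50) ≤ r) (h2 : r ≤ (1 / 40)) :
    (3351 / 100000) + (787 / 500) * r ≤ p :=
  qline ((n15 hP).q h) h.ppos h1 h2 (by norm_num) (by norm_num [l2]) (by norm_num [l2])
    (by norm_num [l2, hl]) (by norm_num [l2])

lemma pb5 (hP : PhiB) {r p : ℝ} (h : CellP r p) (h4 : p < 1 / 2 → 3 / 8 * √r < p * (1 - p)) (h1 : (1 / 40) ≤ r) (h2 : r ≤ (3 / 100)) :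
    (3791 / 100000) + (699 / 500) * r ≤ p :=
  qline ((n15 hP).q h) h.ppos h1 h2 (by norm_num) (by norm_num [l2]) (by norm_num [l2])
    (by norm_num [l2, hl]) (by norm_num [l2])

lemma pb6 (hP : PhiB) {r p : ℝ} (h : CellP r p) (h4 : p < 1 / 2 → 3 / 8 * √r < p * (1 - p)) (h1 : (3 / 100) ≤ r) (h2 : r ≤ (1 / 25)) :
    (4319 / 100000) + (611 / 500) * r ≤ p :=
  qline ((n15 hP).q h) h.ppos h1 h2 (by norm_num) (by norm_num [l2]) (by norm_num [l2])
    (by norm_num [l2, hl]) (by norm_num [l2])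

lemma pb7 (hP : PhiB) {r p : ℝ} (h : CellP r p) (h4 : p < 1 / 2 → 3 / 8 * √r < p * (1 - p)) (h1 : (1 / 25) ≤ r) (h2 : r ≤ (1 / 20)) :
    (2143 / 50000) + (1231 / 1000) * r ≤ p :=
  qline ((n12 hP).q h) h.ppos h1 h2 (by norm_num) (by norm_num [l2]) (by norm_num [l2])
    (by norm_num [l2, hl]) (by norm_num [l2])

lemma pb8 (hP : PhiB) {r p : ℝ} (h : CellP r p) (h4 : p < 1 / 2 → 3 / 8 * √r < p * (1 - p)) (h1 : (1 / 20) ≤ r) (h2 : r ≤ (3 / 50)) :
    (5081 / 100000) + (134 / 125) * r ≤ p :=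
  qline ((n12 hP).q h) h.ppos h1 h2 (by norm_num) (by norm_num [l2]) (by norm_num [l2])
    (by norm_num [l2, hl]) (by norm_num [l2])

lemma pb9 (hP : PhiB) {r p : ℝ} (h : CellP r p) (h4 : p < 1 / 2 → 3 / 8 * √r < p * (1 - p)) (h1 : (3 / 50) ≤ r) (h2 : r ≤ (2 / 25)) :
    (1493 / 25000) + (1847 / 2000) * r ≤ p :=
  qline ((n12 hP).q h) h.ppos h1 h2 (by norm_num) (by norm_num [l2]) (by norm_num [l2])
    (by norm_num [l2, hl]) (by norm_num [l2])

lemma pb10 (hP : PhiB) {r p : ℝ} (h : CellP r p) (h4 : p < 1 / 2 → 3 / 8 * √r < p * (1 - p)) (h1 : (2 / 25) ≤ r) (h2 : r ≤ (1 / 10)) :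
    (1529 / 25000) + (1797 / 2000) * r ≤ p :=
  qline ((n10 hP).q h) h.ppos h1 h2 (by norm_num) (by norm_num [l2]) (by norm_num [l2])
    (by norm_num [l2, hl]) (by norm_num [l2])

lemma pb11 (hP : PhiB) {r p : ℝ} (h : CellP r p) (h4 : p < 1 / 2 → 3 / 8 * √r < p * (1 - p)) (h1 : (1 / 10) ≤ r) (h2 : r ≤ (3 / 25)) :
    (3641 / 50000) + (391 / 500) * r ≤ p :=
  qline ((n10 hP).q h) h.ppos h1 h2 (by norm_num) (by norm_num [l2]) (by norm_num [l2])
    (by norm_num [l2, hl]) (by norm_num [l2])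

lemma pb12 (hP : PhiB) {r p : ℝ} (h : CellP r p) (h4 : p < 1 / 2 → 3 / 8 * √r < p * (1 - p)) (h1 : (3 / 25) ≤ r) (h2 : r ≤ (7 / 50)) :
    (411 / 5000) + (88 / 125) * r ≤ p :=
  qline ((n10 hP).q h) h.ppos h1 h2 (by norm_num) (by norm_num [l2]) (by norm_num [l2])
    (by norm_num [l2, hl]) (by norm_num [l2])

lemma pb13 (hP : PhiB) {r p : ℝ} (h : CellP r p) (h4 : p < 1 / 2 → 3 / 8 * √r < p * (1 - p)) (h1 : (7 / 50) ≤ r) (h2 : r ≤ (17 / 100)) :
    (777 / 10000) + (73 / 100) * r ≤ p :=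
  qline ((n08 hP).q h) h.ppos h1 h2 (by norm_num) (by norm_num [l2]) (by norm_num [l2])
    (by norm_num [l2, hl]) (by norm_num [l2])

lemma pb14 (hP : PhiB) {r p : ℝ} (h : CellP r p) (h4 : p < 1 / 2 → 3 / 8 * √r < p * (1 - p)) (h1 : (17 / 100) ≤ r) (h2 : r ≤ (1 / 5)) :
    (868 / 9375) + (241 / 375) * r ≤ p :=
  qline ((n08 hP).q h) h.ppos h1 h2 (by norm_num) (by norm_num [l2]) (by norm_num [l2])
    (by norm_num [l2, hl]) (by norm_num [l2])

lemma pb15 (hP : PhiB) {r p : ℝ} (h : CellP r p) (h4 : p < 1 / 2 → 3 / 8 * √r < p * (1 - p)) (h1 : (1 / 5) ≤ r) (h2 : r ≤ (9 / 40)) :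
    (2589 / 25000) + (147 / 250) * r ≤ p :=
  qline ((n08 hP).q h) h.ppos h1 h2 (by norm_num) (by norm_num [l2]) (by norm_num [l2])
    (by norm_num [l2, hl]) (by norm_num [l2])

lemma pb16 (hP : PhiB) {r p : ℝ} (h : CellP r p) (h4 : p < 1 / 2 → 3 / 8 * √r < p * (1 - p)) (h1 : (9 / 40) ≤ r) (h2 : r ≤ (1 / 4)) :
    (2239 / 20000) + (1377 / 2500) * r ≤ p :=
  qline ((n08 hP).q h) h.ppos h1 h2 (by norm_num) (by norm_num [l2]) (by norm_num [l2])
    (by norm_num [l2, hl]) (by norm_num [l2])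

lemma pb17 (hP : PhiB) {r p : ℝ} (h : CellP r p) (h4 : p < 1 / 2 → 3 / 8 * √r < p * (1 - p)) (h1 : (1 / 4) ≤ r) (h2 : r ≤ (11 / 40)) :
    (119 / 2000) + (1903 / 2500) * r ≤ p :=
  mline (q0 := (1297 / 5000)) (su := (49999 / 100000)) (sw := (1311 / 2500)) h4 h1 h2 (by norm_num) (by norm_num)
    (by norm_num) (by norm_num) (by norm_num) (by norm_num) (by norm_num)

lemma pb18 (hP : PhiB) {r p : ℝ} (h : CellP r p) (h4 : p < 1 / 2 → 3 / 8 * √r < p * (1 - p)) (h1 : (11 / 40) ≤ r) (h2 : r ≤ (3 / 10)) :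
    (5133 / 100000) + (1977 / 2500) * r ≤ p :=
  mline (q0 := (697 / 2500)) (su := (1311 / 2500)) (sw := (13693 / 25000)) h4 h1 h2 (by norm_num) (by norm_num)
    (by norm_num) (by norm_num) (by norm_num) (by norm_num) (by norm_num)

lemma pb19 (hP : PhiB) {r p : ℝ} (h : CellP r p) (h4 : p < 1 / 2 → 3 / 8 * √r < p * (1 - p)) (h1 : (3 / 10) ≤ r) (h2 : r ≤ (8 / 25)) :
    (1989 / 50000) + (1659 / 2000) * r ≤ p :=
  mline (q0 := (297 / 1000)) (su := (13693 / 25000)) (sw := (7071 / 12500)) h4 h1 h2 (by norm_num) (by norm_num)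
    (by norm_num) (by norm_num) (by norm_num) (by norm_num) (by norm_num)

lemma pb20 (hP : PhiB) {r p : ℝ} (h : CellP r p) (h4 : p < 1 / 2 → 3 / 8 * √r < p * (1 - p)) (h1 : (8 / 25) ≤ r) (h2 : r ≤ (17 / 50)) :
    (2439 / 100000) + (351 / 400) * r ≤ p :=
  mline (q0 := (157 / 500)) (su := (7071 / 12500)) (sw := (58309 / 100000)) h4 h1 h2 (by norm_num) (by norm_num)
    (by norm_num) (by norm_num) (by norm_num) (by norm_num) (by norm_num)

lemma pb21 (hP : PhiB) {r p : ℝ} (h : CellP r p) (h4 : p < 1 / 2 → 3 / 8 * √r < p * (1 - p)) (h1 : (17 / 50) ≤ r) (h2 : r ≤ (9 / 25)) :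
    (7 / 4000) + (118 / 125) * r ≤ p :=
  mline (q0 := (1661 / 5000)) (su := (58309 / 100000)) (sw := (59999 / 100000)) h4 h1 h2 (by norm_num) (by norm_num)
    (by norm_num) (by norm_num) (by norm_num) (by norm_num) (by norm_num)

lemma pb22 (hP : PhiB) {r p : ℝ} (h : CellP r p) (h4 : p < 1 / 2 → 3 / 8 * √r < p * (1 - p)) (h1 : (9 / 25) ≤ r) (h2 : r ≤ (19 / 50)) :
    (-21 / 625) + (521 / 500) * r ≤ p :=
  mline (q0 := (44 / 125)) (su := (59999 / 100000)) (sw := (15411 / 25000)) h4 h1 h2 (by norm_num) (by norm_num)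
    (by norm_num) (by norm_num) (by norm_num) (by norm_num) (by norm_num)

lemma pb23 (hP : PhiB) {r p : ℝ} (h : CellP r p) (h4 : p < 1 / 2 → 3 / 8 * √r < p * (1 - p)) (h1 : (19 / 50) ≤ r) (h2 : r ≤ (2 / 5)) :
    (-913 / 10000) + (2387 / 2000) * r ≤ p :=
  mline (q0 := (1871 / 5000)) (su := (15411 / 25000)) (sw := (12649 / 20000)) h4 h1 h2 (by norm_num) (by norm_num)
    (by norm_num) (by norm_num) (by norm_num) (by norm_num) (by norm_num)

lemma pb24 (hP : PhiB) {r p : ℝ} (h : CellP r p) (h4 : p < 1 / 2 → 3 / 8 * √r < p * (1 - p)) (h1 : (2 / 5) ≤ r) (h2 : r ≤ (21 / 50)) :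
    (-20283 / 100000) + (2943 / 2000) * r ≤ p :=
  mline (q0 := (801 / 2000)) (su := (12649 / 20000)) (sw := (64807 / 100000)) h4 h1 h2 (by norm_num) (by norm_num)
    (by norm_num) (by norm_num) (by norm_num) (by norm_num) (by norm_num)

lemma pb25 (hP : PhiB) {r p : ℝ} (h : CellP r p) (h4 : p < 1 / 2 → 3 / 8 * √r < p * (1 - p)) (h1 : (21 / 50) ≤ r) (h2 : r ≤ (4 / 9)) :
    (-166457 / 275000) + (53253 / 22000) * r ≤ p :=
  mline (q0 := (4411 / 10000)) (su := (64807 / 100000)) (sw := (33333 / 50000)) h4 h1 h2 (by norm_num) (by norm_num)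
    (by norm_num) (by norm_num) (by norm_num) (by norm_num) (by norm_num)

lemma lb0 (hP : PhiB) {r p : ℝ} (h : CellP r p) (h4 : p < 1 / 2 → 3 / 8 * √r < p * (1 - p)) (h1 : (11 / 40) ≤ r) (h2 : r ≤ (2 / 5)) :
    (31 / 10000) + (47 / 50) * r ≤ p := by
  rcases le_total r (3 / 10) with c18 | c18
  · linarith [pb18 hP h h4 h1 c18]
  rcases le_total r (8 / 25) with c19 | c19
  · linarith [pb19 hP h h4 c18 c19]
  rcases le_total r (17 / 50) with c20 | c20
  · linarith [pb20 hP h h4 c19 c20]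
  rcases le_total r (9 / 25) with c21 | c21
  · linarith [pb21 hP h h4 c20 c21]
  rcases le_total r (19 / 50) with c22 | c22
  · linarith [pb22 hP h h4 c21 c22]
  linarith [pb23 hP h h4 c22 h2]

lemma lb1 (hP : PhiB) {r p : ℝ} (h : CellP r p) (h4 : p < 1 / 2 → 3 / 8 * √r < p * (1 - p)) (h1 : (9 / 40) ≤ r) (h2 : r ≤ (2 / 5)) :
    (31 / 1250) + (219 / 250) * r ≤ p := by
  rcases le_total r (1 / 4) with c16 | c16
  · linarith [pb16 hP h h4 h1 c16]
  rcases le_total r (11 / 40) with c17 | c17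
  · linarith [pb17 hP h h4 c16 c17]
  rcases le_total r (3 / 10) with c18 | c18
  · linarith [pb18 hP h h4 c17 c18]
  rcases le_total r (8 / 25) with c19 | c19
  · linarith [pb19 hP h h4 c18 c19]
  rcases le_total r (17 / 50) with c20 | c20
  · linarith [pb20 hP h h4 c19 c20]
  rcases le_total r (9 / 25) with c21 | c21
  · linarith [pb21 hP h h4 c20 c21]
  rcases le_total r (19 / 50) with c22 | c22
  · linarith [pb22 hP h h4 c21 c22]
  linarith [pb23 hP h h4 c22 h2]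

lemma lb2 (hP : PhiB) {r p : ℝ} (h : CellP r p) (h4 : p < 1 / 2 → 3 / 8 * √r < p * (1 - p)) (h1 : (1 / 10) ≤ r) (h2 : r ≤ (17 / 50)) :
    (31 / 1250) + (219 / 250) * r ≤ p := by
  rcases le_total r (3 / 25) with c11 | c11
  · linarith [pb11 hP h h4 h1 c11]
  rcases le_total r (7 / 50) with c12 | c12
  · linarith [pb12 hP h h4 c11 c12]
  rcases le_total r (17 / 100) with c13 | c13
  · linarith [pb13 hP h h4 c12 c13]
  rcases le_total r (1 / 5) with c14 | c14
  · linarith [pb14 hP h h4 c13 c14]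
  rcases le_total r (9 / 40) with c15 | c15
  · linarith [pb15 hP h h4 c14 c15]
  rcases le_total r (1 / 4) with c16 | c16
  · linarith [pb16 hP h h4 c15 c16]
  rcases le_total r (11 / 40) with c17 | c17
  · linarith [pb17 hP h h4 c16 c17]
  rcases le_total r (3 / 10) with c18 | c18
  · linarith [pb18 hP h h4 c17 c18]
  rcases le_total r (8 / 25) with c19 | c19
  · linarith [pb19 hP h h4 c18 c19]
  linarith [pb20 hP h h4 c19 h2]

lemma lb3 (hP : PhiB) {r p : ℝ} (h : CellP r p) (h4 : p < 1 / 2 → 3 / 8 * √r < p * (1 - p)) (h1 : (1 / 40) ≤ r) (h2 : r ≤ (3 / 25)) :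
    (481 / 10000) + (987 / 1000) * r ≤ p := by
  rcases le_total r (3 / 100) with c5 | c5
  · linarith [pb5 hP h h4 h1 c5]
  rcases le_total r (1 / 25) with c6 | c6
  · linarith [pb6 hP h h4 c5 c6]
  rcases le_total r (1 / 20) with c7 | c7
  · linarith [pb7 hP h h4 c6 c7]
  rcases le_total r (3 / 50) with c8 | c8
  · linarith [pb8 hP h h4 c7 c8]
  rcases le_total r (2 / 25) with c9 | c9
  · linarith [pb9 hP h h4 c8 c9]
  rcases le_total r (1 / 10) with c10 | c10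
  · linarith [pb10 hP h h4 c9 c10]
  linarith [pb11 hP h h4 c10 h2]

lemma lb4 (hP : PhiB) {r p : ℝ} (h : CellP r p) (h4 : p < 1 / 2 → 3 / 8 * √r < p * (1 - p)) (h1 : (2 / 5) ≤ r) (h2 : r ≤ (4 / 9)) :
    (-1259 / 10000) + (1279 / 1000) * r ≤ p := by
  rcases le_total r (21 / 50) with c24 | c24
  · linarith [pb24 hP h h4 h1 c24]
  linarith [pb25 hP h h4 c24 h2]

lemma lb5 (hP : PhiB) {r p : ℝ} (h : CellP r p) (h4 : p < 1 / 2 → 3 / 8 * √r < p * (1 - p)) (h1 : (9 / 40) ≤ r) (h2 : r ≤ (4 / 9)) :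
    (31 / 10000) + (47 / 50) * r ≤ p := by
  rcases le_total r (1 / 4) with c16 | c16
  · linarith [pb16 hP h h4 h1 c16]
  rcases le_total r (11 / 40) with c17 | c17
  · linarith [pb17 hP h h4 c16 c17]
  rcases le_total r (3 / 10) with c18 | c18
  · linarith [pb18 hP h h4 c17 c18]
  rcases le_total r (8 / 25) with c19 | c19
  · linarith [pb19 hP h h4 c18 c19]
  rcases le_total r (17 / 50) with c20 | c20
  · linarith [pb20 hP h h4 c19 c20]
  rcases le_total r (9 / 25) with c21 | c21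
  · linarith [pb21 hP h h4 c20 c21]
  rcases le_total r (19 / 50) with c22 | c22
  · linarith [pb22 hP h h4 c21 c22]
  rcases le_total r (2 / 5) with c23 | c23
  · linarith [pb23 hP h h4 c22 c23]
  rcases le_total r (21 / 50) with c24 | c24
  · linarith [pb24 hP h h4 c23 c24]
  linarith [pb25 hP h h4 c24 h2]

lemma lb6 (hP : PhiB) {r p : ℝ} (h : CellP r p) (h4 : p < 1 / 2 → 3 / 8 * √r < p * (1 - p)) (h1 : (1 / 20) ≤ r) (h2 : r ≤ (3 / 10)) :
    (32 / 625) + (791 / 1000) * r ≤ p := by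
  rcases le_total r (3 / 50) with c8 | c8
  · linarith [pb8 hP h h4 h1 c8]
  rcases le_total r (2 / 25) with c9 | c9
  · linarith [pb9 hP h h4 c8 c9]
  rcases le_total r (1 / 10) with c10 | c10
  · linarith [pb10 hP h h4 c9 c10]
  rcases le_total r (3 / 25) with c11 | c11
  · linarith [pb11 hP h h4 c10 c11]
  rcases le_total r (7 / 50) with c12 | c12
  · linarith [pb12 hP h h4 c11 c12]
  rcases le_total r (17 / 100) with c13 | c13
  · linarith [pb13 hP h h4 c12 c13]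
  rcases le_total r (1 / 5) with c14 | c14
  · linarith [pb14 hP h h4 c13 c14]
  rcases le_total r (9 / 40) with c15 | c15
  · linarith [pb15 hP h h4 c14 c15]
  rcases le_total r (1 / 4) with c16 | c16
  · linarith [pb16 hP h h4 c15 c16]
  rcases le_total r (11 / 40) with c17 | c17
  · linarith [pb17 hP h h4 c16 c17]
  linarith [pb18 hP h h4 c17 h2]

lemma lb7 (hP : PhiB) {r p : ℝ} (h : CellP r p) (h4 : p < 1 / 2 → 3 / 8 * √r < p * (1 - p)) (h1 : (3 / 200) ≤ r) (h2 : r ≤ (3 / 25)) :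
    (399 / 10000) + (132 / 125) * r ≤ p := by
  rcases le_total r (1 / 50) with c3 | c3
  · linarith [pb3 hP h h4 h1 c3]
  rcases le_total r (1 / 40) with c4 | c4
  · linarith [pb4 hP h h4 c3 c4]
  rcases le_total r (3 / 100) with c5 | c5
  · linarith [pb5 hP h h4 c4 c5]
  rcases le_total r (1 / 25) with c6 | c6
  · linarith [pb6 hP h h4 c5 c6]
  rcases le_total r (1 / 20) with c7 | c7
  · linarith [pb7 hP h h4 c6 c7]
  rcases le_total r (3 / 50) with c8 | c8
  · linarith [pb8 hP h h4 c7 c8]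
  rcases le_total r (2 / 25) with c9 | c9
  · linarith [pb9 hP h h4 c8 c9]
  rcases le_total r (1 / 10) with c10 | c10
  · linarith [pb10 hP h h4 c9 c10]
  linarith [pb11 hP h h4 c10 h2]

theorem fin4 (hP : PhiB) {r1 r2 r3 r4 p1 p2 p3 p4 : ℝ} (h1 : CellP r1 p1)
    (h2 : CellP r2 p2) (h3 : CellP r3 p3) (h4 : CellP r4 p4)
    (g1 : p1 < 1 / 2 → 3 / 8 * √r1 < p1 * (1 - p1)) (g2 : p2 < 1 / 2 → 3 / 8 * √r2 < p2 * (1 - p2))
    (g3 : p3 < 1 / 2 → 3 / 8 * √r3 < p3 * (1 - p3)) (g4 : p4 < 1 / 2 → 3 / 8 * √r4 < p4 * (1 - p4))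
    (o12 : r2 ≤ r1) (o23 : r3 ≤ r2) (o34 : r4 ≤ r3)
    (hs : r1 + r2 + r3 + r4 = 1) (hp : p1 + p2 + p3 + p4 = 1)
    (hJ3 : TJ 3 r2 r3 r4 r4) : False := by
  have m1 := rmax h1
  have m4 := h4.rpos
  have z1 := h1.ppos
  have z2 := h2.ppos
  have z3 := h3.ppos
  have z4 := h4.ppos
  rcases le_total 0.1002 r4 with d0 | d0
  · have a1 := tan4 g1 (by linarith) (by linarith)
    have a2 := tan4 g2 (by linarith) (by linarith)
    have a3 := tan4 g3 (by linarith) (by linarith)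
    have a4 := tan4 g4 (by linarith) (by linarith)
    linarith
  rcases le_total r4 (3 / 200) with d1 | d1
  · exact kill hJ3 o23 (1351 / 5000) (961 / 10000) (49 / 400) (49 / 400) (1423 / 10000) (by linarith) (by linarith)
      (by norm_num; linarith) (by norm_num; linarith) (by norm_num) (by norm_num) (by norm_num) (by norm_num)
      (by norm_num) (by norm_num) (by norm_num)
  rcases le_total r1 (2 / 5) with d2 | d2
  · rcases le_total r4 (7 / 250) with d3 | d3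
    · exact kill hJ3 o23 (2859 / 10000) (1719 / 10000) (837 / 5000) (837 / 5000) (237 / 1250) (by linarith) (by linarith)
        (by norm_num; linarith) (by norm_num; linarith) (by norm_num) (by norm_num) (by norm_num) (by norm_num)
        (by norm_num) (by norm_num) (by norm_num)
    have k0 := lb0 hP h1 g1 (by linarith) (by linarith)
    have k1 := lb1 hP h2 g2 (by linarith) (by linarith)
    have k2 := lb2 hP h3 g3 (by linarith) (by linarith)
    have k3 := lb3 hP h4 g4 (by linarith) (by linarith)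
    linarith
  have k0 := lb4 hP h1 g1 (by linarith) (by linarith)
  have k1 := lb5 hP h2 g2 (by linarith) (by linarith)
  have k2 := lb6 hP h3 g3 (by linarith) (by linarith)
  have k3 := lb7 hP h4 g4 (by linarith) (by linarith)
  linarith

end Crest.Agent.R215.Num
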