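import Crest.Agent.R215.Defs

/-! Row 215, task HEAT: the heat semigroup solves the heat equation. -/

set_option autoImplicit false

namespace Crest.Agent.R215

open MeasureTheory ProbabilityTheory Filter Topology Set

noncomputable section

namespace HT

lemma intg (m : ℕ) (A b : ℝ) (hb : 0 < b) :
    Integrable (fun y : ℝ => |y| ^ m * Real.exp (A * |y| - b * y ^ 2)) := by
  have h0 : Integrable (fun y : ℝ => ((m.factorial : ℝ) * Real.exp ((A + 1) ^ 2 / (2 * b))) *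
      Real.exp (-(b / 2) * y ^ 2)) := (integrable_exp_neg_mul_sq (by positivity)).const_mul _
  refine h0.mono' (by fun_prop) (ae_of_all _ fun y => ?_)
  rw [Real.norm_eq_abs, abs_of_nonneg (by positivity)]
  have h1 : |y| ^ m ≤ m.factorial * Real.exp |y| := by
    have := Real.pow_div_factorial_le_exp |y| (abs_nonneg y) m
    rwa [div_le_iff₀ (by positivity), mul_comm] at this
  have h2 : |y| + (A * |y| - b * y ^ 2) ≤ (A + 1) ^ 2 / (2 * b) + -(b / 2) * y ^ 2 := by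
    have h3 : (A + 1) * |y| ≤ (A + 1) ^ 2 / (2 * b) + (b / 2) * y ^ 2 := by
      rw [← sq_abs y, div_add' _ _ _ (by positivity), le_div_iff₀ (by positivity)]
      nlinarith [sq_nonneg (A + 1 - b * |y|)]
    linarith
  calc |y| ^ m * Real.exp (A * |y| - b * y ^ 2)
      ≤ m.factorial * Real.exp |y| * Real.exp (A * |y| - b * y ^ 2) := by gcongr
    _ = m.factorial * Real.exp (|y| + (A * |y| - b * y ^ 2)) := by rw [Real.exp_add]; ring
    _ ≤ m.factorial * Real.exp ((A + 1) ^ 2 / (2 * b) + -(b / 2) * y ^ 2) := by gcongr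
    _ = _ := by rw [Real.exp_add]; ring

def M (f : ℝ → ℝ) (m : ℕ) (p : ℝ × ℝ) : ℝ :=
  ∫ y, y ^ m * f y * Real.exp (p.1 * y - p.2 * y ^ 2)

lemma intM {f : ℝ → ℝ} (hf : Measurable f) (hb : ∀ y, |f y| ≤ 1) (m : ℕ) {p : ℝ × ℝ}
    (hp : 0 < p.2) : Integrable (fun y => y ^ m * f y * Real.exp (p.1 * y - p.2 * y ^ 2)) := by
  refine (intg m |p.1| p.2 hp).mono' (by fun_prop) (ae_of_all _ fun y => ?_)
  rw [Real.norm_eq_abs, abs_mul, abs_mul, abs_pow, abs_of_pos (Real.exp_pos _)]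
  have h1 : p.1 * y ≤ |p.1| * |y| := by rw [← abs_mul]; exact le_abs_self _
  have h2 : |y| ^ m * |f y| ≤ |y| ^ m := mul_le_of_le_one_right (by positivity) (hb y)
  gcongr

lemma hasFDeriv_M {f : ℝ → ℝ} (hf : Measurable f) (hb : ∀ y, |f y| ≤ 1) (m : ℕ) {p : ℝ × ℝ}
    (hp : 0 < p.2) : HasFDerivAt (M f m)
      (M f (m + 1) p • ContinuousLinearMap.fst ℝ ℝ ℝ -
        M f (m + 2) p • ContinuousLinearMap.snd ℝ ℝ ℝ) p := by
  let F' : ℝ × ℝ → ℝ → (ℝ × ℝ →L[ℝ] ℝ) := fun q y =>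
    (y ^ (m + 1) * f y * Real.exp (q.1 * y - q.2 * y ^ 2)) • ContinuousLinearMap.fst ℝ ℝ ℝ -
      (y ^ (m + 2) * f y * Real.exp (q.1 * y - q.2 * y ^ 2)) • ContinuousLinearMap.snd ℝ ℝ ℝ
  have hi1 := (intM hf hb (m + 1) hp).smul_const (ContinuousLinearMap.fst ℝ ℝ ℝ)
  have hi2 := (intM hf hb (m + 2) hp).smul_const (ContinuousLinearMap.snd ℝ ℝ ℝ)
  have key := hasFDerivAt_integral_of_dominated_of_fderiv_le (μ := (volume : Measure ℝ))
    (F := fun (q : ℝ × ℝ) y => y ^ m * f y * Real.exp (q.1 * y - q.2 * y ^ 2)) (F' := F')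
    (x₀ := p) (s := Metric.ball p (p.2 / 2))
    (bound := fun y => |y| ^ (m + 1) * Real.exp ((|p.1| + p.2 / 2) * |y| - p.2 / 2 * y ^ 2) +
      |y| ^ (m + 2) * Real.exp ((|p.1| + p.2 / 2) * |y| - p.2 / 2 * y ^ 2))
    (Metric.ball_mem_nhds _ (by positivity))
    (Eventually.of_forall fun q => Measurable.aestronglyMeasurable (by fun_prop))
    (intM hf hb m hp) (hi1.sub hi2).aestronglyMeasurable
    (ae_of_all _ fun y q hq => ?_)
    ((intg _ _ _ (by positivity)).add (intg _ _ _ (by positivity)))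
    (ae_of_all _ fun y q _ => ?_)
  · rw [integral_sub hi1 hi2, integral_smul_const, integral_smul_const] at key
    exact key
  · rw [Metric.mem_ball, Prod.dist_eq, max_lt_iff, Real.dist_eq, Real.dist_eq] at hq
    have e1 : q.1 * y - q.2 * y ^ 2 ≤ (|p.1| + p.2 / 2) * |y| - p.2 / 2 * y ^ 2 := by
      have h1 : q.1 * y ≤ |q.1| * |y| := by rw [← abs_mul]; exact le_abs_self _
      have h2 : |q.1| ≤ |p.1| + p.2 / 2 := by
        have := abs_sub_abs_le_abs_sub q.1 p.1; linarith [hq.1]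
      have h3 : p.2 / 2 ≤ q.2 := by linarith [(abs_lt.1 hq.2).1]
      nlinarith [abs_nonneg y, sq_nonneg y]
    have e2 : ∀ k : ℕ, |y ^ k * f y * Real.exp (q.1 * y - q.2 * y ^ 2)| ≤
        |y| ^ k * Real.exp ((|p.1| + p.2 / 2) * |y| - p.2 / 2 * y ^ 2) := by
      intro k
      rw [abs_mul, abs_mul, abs_pow, abs_of_pos (Real.exp_pos _)]
      have h2 : |y| ^ k * |f y| ≤ |y| ^ k := mul_le_of_le_one_right (by positivity) (hb y)
      gcongr
    refine (norm_sub_le _ _).trans (add_le_add ?_ ?_)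
    · rw [norm_smul, Real.norm_eq_abs]
      exact (mul_le_of_le_one_right (abs_nonneg _) (ContinuousLinearMap.norm_fst_le ..)).trans
        (e2 _)
    · rw [norm_smul, Real.norm_eq_abs]
      exact (mul_le_of_le_one_right (abs_nonneg _) (ContinuousLinearMap.norm_snd_le ..)).trans
        (e2 _)
  · have h1 : HasFDerivAt (fun q : ℝ × ℝ => q.1 * y - q.2 * y ^ 2)
        (y • ContinuousLinearMap.fst ℝ ℝ ℝ - (y ^ 2) • ContinuousLinearMap.snd ℝ ℝ ℝ) q :=
      (hasFDerivAt_fst.mul_const y).sub (hasFDerivAt_snd.mul_const (y ^ 2))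
    have h2 := h1.exp.const_mul (y ^ m * f y)
    refine h2.congr_fderiv ?_
    ext <;> simp [F'] <;> ring

lemma hasDeriv_M {f : ℝ → ℝ} (hf : Measurable f) (hb : ∀ y, |f y| ≤ 1) (m : ℕ) {a b : ℝ → ℝ}
    {a' b' s : ℝ} (ha : HasDerivAt a a' s) (hb' : HasDerivAt b b' s) (hp : 0 < b s) :
    HasDerivAt (fun s => M f m (a s, b s))
      (a' * M f (m + 1) (a s, b s) - b' * M f (m + 2) (a s, b s)) s := by
  have := (hasFDeriv_M hf hb m (p := (a s, b s)) hp).comp_hasDerivAt s (ha.prodMk hb')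
  refine this.congr_deriv ?_
  simp [mul_comm]

lemma heat_eq (f : ℝ → ℝ) {t : ℝ} (ht : 0 < t) (x : ℝ) : heat f t x =
    (√(2 * Real.pi))⁻¹ * ((√t)⁻¹ * (Real.exp (-x ^ 2 / (2 * t)) * M f 0 (x / t, 1 / (2 * t)))) := by
  have hs : 0 < √t := Real.sqrt_pos.2 ht
  let g : ℝ → ℝ := fun y => phi ((y - x) / √t) * f y
  have h1 : heat f t x = ∫ s, g (x + √t * s) := by
    rw [heat, integral_g1]
    refine integral_congr_ae (ae_of_all _ fun s => ?_)
    simp only [g]
    rw [add_sub_cancel_left, mul_div_cancel_left₀ _ hs.ne']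
  rw [h1, Measure.integral_comp_mul_left (fun z => g (x + z)), integral_add_left_eq_self g x,
    abs_of_pos (inv_pos.2 hs), smul_eq_mul, M, ← integral_const_mul, ← integral_const_mul,
    ← integral_const_mul, ← integral_const_mul]
  refine integral_congr_ae (ae_of_all _ fun y => ?_)
  simp only [g, phi]
  have h2 : -((y - x) / √t) ^ 2 / 2 = -x ^ 2 / (2 * t) + (x / t * y - 1 / (2 * t) * y ^ 2) := by
    rw [div_pow, Real.sq_sqrt ht.le]; field_simp; ring
  rw [h2, Real.exp_add]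
  ring

end HT

open HT in
theorem heatS : HeatStmt := by
  intro f hf hb
  let c : ℝ := (√(2 * Real.pi))⁻¹
  refine ⟨fun t x => c * ((√t)⁻¹ * (Real.exp (-x ^ 2 / (2 * t)) *
      (-x / t * M f 0 (x / t, 1 / (2 * t)) + 1 / t * M f 1 (x / t, 1 / (2 * t))))),
    fun t x => c * ((√t)⁻¹ * (Real.exp (-x ^ 2 / (2 * t)) *
      ((x ^ 2 / t ^ 2 - 1 / t) * M f 0 (x / t, 1 / (2 * t)) -
        2 * x / t ^ 2 * M f 1 (x / t, 1 / (2 * t)) + 1 / t ^ 2 * M f 2 (x / t, 1 / (2 * t))))),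
    fun t x ht => ?_⟩
  have hE : HasDerivAt (fun x : ℝ => Real.exp (-x ^ 2 / (2 * t)))
      (Real.exp (-x ^ 2 / (2 * t)) * (-x / t)) x := by
    have h0 : HasDerivAt (fun x : ℝ => -x ^ 2 / (2 * t)) (-x / t) x := by
      refine (((hasDerivAt_pow 2 x).neg).div_const (2 * t)).congr_deriv ?_
      simp; field_simp
    exact h0.exp
  have hM : ∀ m, HasDerivAt (fun x : ℝ => M f m (x / t, 1 / (2 * t)))
      (1 / t * M f (m + 1) (x / t, 1 / (2 * t))) x := by
    intro m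
    have := hasDeriv_M hf hb m (a := fun x => x / t) (b := fun _ => 1 / (2 * t)) (s := x)
      ((hasDerivAt_id x).div_const t) (hasDerivAt_const _ _) (by positivity)
    simpa using this
  refine ⟨?_, ?_, ?_⟩
  · have h1 : heat f t = fun x => c * ((√t)⁻¹ * (Real.exp (-x ^ 2 / (2 * t)) *
        M f 0 (x / t, 1 / (2 * t)))) := funext fun x => heat_eq f ht x
    rw [h1]
    refine (((hE.mul (hM 0)).const_mul (√t)⁻¹).const_mul c).congr_deriv ?_
    ring
  · have h2 : HasDerivAt (fun x : ℝ => -x / t) (-1 / t) x := (hasDerivAt_id x).neg.div_const t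
    have := ((hE.mul ((h2.mul (hM 0)).add ((hM 1).const_mul (1 / t)))).const_mul (√t)⁻¹).const_mul c
    refine this.congr_deriv ?_
    simp only [Pi.mul_apply, Pi.add_apply]
    field_simp
    ring
  · have h1 : (fun τ => heat f τ x) =ᶠ[𝓝 t] fun τ => c * ((√τ)⁻¹ * (Real.exp (-x ^ 2 / (2 * τ)) *
        M f 0 (x / τ, 1 / (2 * τ)))) := by
      filter_upwards [Ioi_mem_nhds ht] with τ hτ using heat_eq f hτ x
    refine HasDerivAt.congr_of_eventuallyEq ?_ h1
    have hs : 0 < √t := Real.sqrt_pos.2 ht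
    have hi : HasDerivAt (fun τ : ℝ => τ⁻¹) (-(t ^ 2)⁻¹) t := hasDerivAt_inv ht.ne'
    have h2 : HasDerivAt (fun τ : ℝ => (√τ)⁻¹) (-(1 / (2 * t)) * (√t)⁻¹) t := by
      refine ((Real.hasDerivAt_sqrt ht.ne').inv hs.ne').congr_deriv ?_
      rw [Real.sq_sqrt ht.le]; field_simp
    have h3 : HasDerivAt (fun τ : ℝ => Real.exp (-x ^ 2 / (2 * τ)))
        (Real.exp (-x ^ 2 / (2 * t)) * (x ^ 2 / (2 * t ^ 2))) t := by
      have h4 : HasDerivAt (fun τ : ℝ => -x ^ 2 / (2 * τ)) (x ^ 2 / (2 * t ^ 2)) t := by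
        have h8 : (fun τ : ℝ => -x ^ 2 / (2 * τ)) = fun τ => -x ^ 2 / 2 * τ⁻¹ := by
          funext τ; rw [div_mul_eq_div_div, div_eq_mul_inv]
        rw [h8]
        refine (hi.const_mul (-x ^ 2 / 2)).congr_deriv ?_
        field_simp
      exact h4.exp
    have h5 : HasDerivAt (fun τ : ℝ => x / τ) (-x / t ^ 2) t := by
      refine (hi.const_mul x).congr_deriv ?_
      field_simp
    have h6 : HasDerivAt (fun τ : ℝ => 1 / (2 * τ)) (-1 / (2 * t ^ 2)) t := by
      have h8 : (fun τ : ℝ => 1 / (2 * τ)) = fun τ => 1 / 2 * τ⁻¹ := by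
        funext τ; rw [div_mul_eq_div_div, div_eq_mul_inv]
      rw [h8]
      refine (hi.const_mul (1 / 2)).congr_deriv ?_
      field_simp
    have h7 := hasDeriv_M hf hb 0 h5 h6 (by positivity)
    refine ((h2.mul (h3.mul h7)).const_mul c).congr_deriv ?_
    simp only [Pi.mul_apply]
    field_simp
    ring

end

end Crest.Agent.R215
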