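import Crest.Agent.R215.Defs

/-! Row 215, task I3: cone isoperimetry in dimension three. -/

set_option autoImplicit false

namespace Crest.Agent.R215

open MeasureTheory ProbabilityTheory Filter Topology Set
open scoped RealInnerProductSpace ENNReal Pointwise

noncomputable section

namespace I3L

lemma g1_eq : g1 = volume.withDensity (fun x => ENNReal.ofReal (phi x)) := by
  rw [g1, gaussianReal_of_var_ne_zero _ one_ne_zero, gaussianPDF_def]
  simp only [phi_eq]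

lemma meas_phi : Measurable fun x => ENNReal.ofReal (phi x) :=
  continuous_phi.measurable.ennreal_ofReal

lemma g2_eq : g1.prod g1 = (volume : Measure (ℝ × ℝ)).withDensity
    (fun z => ENNReal.ofReal (phi z.1 * phi z.2)) := by
  rw [g1_eq, prod_withDensity meas_phi meas_phi, Measure.volume_eq_prod]
  congr 1
  funext z
  rw [ENNReal.ofReal_mul (phi_pos _).le]

lemma meas_phi2 : Measurable fun z : ℝ × ℝ => ENNReal.ofReal (phi z.1 * phi z.2) := by
  have := continuous_phi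
  exact Measurable.ennreal_ofReal (by fun_prop)

lemma g3_eq : g1.prod (g1.prod g1) = (volume : Measure (ℝ × ℝ × ℝ)).withDensity
    (fun z => ENNReal.ofReal (phi z.1 * (phi z.2.1 * phi z.2.2))) := by
  rw [g2_eq]
  conv_lhs => rw [g1_eq]
  rw [prod_withDensity meas_phi meas_phi2, Measure.volume_eq_prod ℝ (ℝ × ℝ)]
  congr 1
  funext z
  rw [ENNReal.ofReal_mul (phi_pos z.1).le]

lemma int2 (f : ℝ × ℝ → ℝ) : ∫ z, f z ∂(g1.prod g1) = ∫ z : ℝ × ℝ, phi z.1 * phi z.2 * f z := by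
  rw [g2_eq, integral_withDensity_eq_integral_toReal_smul meas_phi2 (ae_of_all _ fun _ => by simp)]
  congr 1
  funext z
  rw [ENNReal.toReal_ofReal (mul_pos (phi_pos _) (phi_pos _)).le, smul_eq_mul]

lemma int3 (f : ℝ × ℝ × ℝ → ℝ) {B : Set (ℝ × ℝ × ℝ)} (hB : MeasurableSet B) :
    ∫ z in B, f z ∂(g1.prod (g1.prod g1)) =
      ∫ z in B, phi z.1 * (phi z.2.1 * phi z.2.2) * f z := by
  have := continuous_phi
  rw [g3_eq, restrict_withDensity hB, integral_withDensity_eq_integral_toReal_smul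
    (Measurable.ennreal_ofReal (by fun_prop)) (ae_of_all _ fun _ => by simp)]
  congr 1
  funext z
  rw [ENNReal.toReal_ofReal (mul_pos (phi_pos _) (mul_pos (phi_pos _) (phi_pos _))).le, smul_eq_mul]

lemma sq2pi : √(2 * Real.pi) * √(2 * Real.pi) = 2 * Real.pi :=
  Real.mul_self_sqrt (by have := Real.pi_pos; positivity)

/-- radial functions in the plane -/
lemma radial2 (f : ℝ → ℝ) : ∫ z : ℝ × ℝ, f (z.1 ^ 2 + z.2 ^ 2) ∂(g1.prod g1) =
    ∫ r in Ioi (0 : ℝ), r * Real.exp (-r ^ 2 / 2) * f (r ^ 2) := by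
  have hpi := Real.pi_pos
  rw [int2, ← integral_comp_polarCoord_symm]
  have h1 : ∀ p : ℝ × ℝ, p.1 • (phi (polarCoord.symm p).1 * phi (polarCoord.symm p).2 *
      f ((polarCoord.symm p).1 ^ 2 + (polarCoord.symm p).2 ^ 2)) =
      (p.1 * Real.exp (-p.1 ^ 2 / 2) * f (p.1 ^ 2)) * (1 / (2 * Real.pi)) := by
    intro p
    have e : (p.1 * Real.cos p.2) ^ 2 + (p.1 * Real.sin p.2) ^ 2 = p.1 ^ 2 := by
      have := Real.cos_sq_add_sin_sq p.2
      linear_combination p.1 ^ 2 * this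
    simp only [polarCoord_symm_apply, smul_eq_mul, e, phi]
    rw [div_mul_div_comm, sq2pi, ← Real.exp_add]
    have : -(p.1 * Real.cos p.2) ^ 2 / 2 + -(p.1 * Real.sin p.2) ^ 2 / 2 = -p.1 ^ 2 / 2 := by
      linarith
    rw [this]; ring
  simp_rw [h1]
  rw [polarCoord_target, Measure.volume_eq_prod, setIntegral_prod_mul
    (f := fun r : ℝ => r * Real.exp (-r ^ 2 / 2) * f (r ^ 2)) (g := fun _ : ℝ => 1 / (2 * Real.pi))]
  rw [setIntegral_const, Real.volume_real_Ioo_of_le (by linarith), smul_eq_mul]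
  have : (Real.pi - -Real.pi) * (1 / (2 * Real.pi)) = 1 := by field_simp; ring
  rw [this, mul_one]

lemma rayleigh (R : ℝ) (hR : 0 ≤ R) :
    (g1.prod g1).real {z : ℝ × ℝ | z.1 ^ 2 + z.2 ^ 2 ≤ R ^ 2} = 1 - Real.exp (-R ^ 2 / 2) := by
  have hm : MeasurableSet {z : ℝ × ℝ | z.1 ^ 2 + z.2 ^ 2 ≤ R ^ 2} :=
    measurableSet_le (by fun_prop) measurable_const
  rw [← integral_indicator_one hm]
  have h1 : ({z : ℝ × ℝ | z.1 ^ 2 + z.2 ^ 2 ≤ R ^ 2}.indicator (1 : ℝ × ℝ → ℝ)) =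
      fun z => (Iic (R ^ 2)).indicator (1 : ℝ → ℝ) (z.1 ^ 2 + z.2 ^ 2) := by
    funext z
    by_cases h : z.1 ^ 2 + z.2 ^ 2 ≤ R ^ 2
    · rw [indicator_of_mem (by exact h), indicator_of_mem (by exact h)]; rfl
    · rw [indicator_of_notMem (by exact h), indicator_of_notMem (by exact h)]
  rw [h1, radial2]
  have h2 : ∫ r in Ioi (0 : ℝ), r * Real.exp (-r ^ 2 / 2) * (Iic (R ^ 2)).indicator (1 : ℝ → ℝ) (r ^ 2)
      = ∫ r in Ioi (0 : ℝ), (Iic R).indicator (fun r => r * Real.exp (-r ^ 2 / 2)) r := by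
    refine setIntegral_congr_fun measurableSet_Ioi fun r hr => ?_
    have hr' : 0 < r := hr
    by_cases h : r ≤ R
    · have : r ^ 2 ≤ R ^ 2 := by nlinarith
      rw [indicator_of_mem (by exact this), indicator_of_mem (by exact h)]; simp
    · have : ¬ r ^ 2 ≤ R ^ 2 := by push Not at h ⊢; nlinarith
      rw [indicator_of_notMem (by exact this), indicator_of_notMem (by exact h)]; simp
  rw [h2, setIntegral_indicator measurableSet_Iic, Ioi_inter_Iic,
    ← intervalIntegral.integral_of_le hR]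
  have h3 : ∀ x ∈ uIcc 0 R, HasDerivAt (fun r : ℝ => -Real.exp (-r ^ 2 / 2))
      (x * Real.exp (-x ^ 2 / 2)) x := by
    intro x _
    have : HasDerivAt (fun r : ℝ => -r ^ 2 / 2) (-x) x := by
      have := ((hasDerivAt_pow 2 x).neg).div_const 2
      refine this.congr_deriv ?_
      norm_num; ring
    refine this.exp.neg.congr_deriv ?_
    ring
  rw [intervalIntegral.integral_eq_sub_of_hasDerivAt h3
    (Continuous.intervalIntegrable (by fun_prop) _ _)]
  simp; ring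

/-- Euclidean norm on `ℝ × ℝ × ℝ` -/
def ρ (z : ℝ × ℝ × ℝ) : ℝ := √(z.1 ^ 2 + (z.2.1 ^ 2 + z.2.2 ^ 2))

lemma ρ_cont : Continuous ρ := by unfold ρ; fun_prop

lemma ρ_nonneg (z : ℝ × ℝ × ℝ) : 0 ≤ ρ z := Real.sqrt_nonneg _

lemma ρ_sq (z : ℝ × ℝ × ℝ) : ρ z ^ 2 = z.1 ^ 2 + (z.2.1 ^ 2 + z.2.2 ^ 2) :=
  Real.sq_sqrt (by positivity)

lemma ρ_smul (c : ℝ) (hc : 0 ≤ c) (z : ℝ × ℝ × ℝ) : ρ (c • z) = c * ρ z := by
  unfold ρ
  have : (c • z).1 ^ 2 + ((c • z).2.1 ^ 2 + (c • z).2.2 ^ 2) =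
      c ^ 2 * (z.1 ^ 2 + (z.2.1 ^ 2 + z.2.2 ^ 2)) := by
    simp only [Prod.smul_fst, Prod.smul_snd, smul_eq_mul]; ring
  rw [this, Real.sqrt_mul (sq_nonneg c), Real.sqrt_sq hc]

lemma norm_le_ρ (z : ℝ × ℝ × ℝ) : ‖z‖ ≤ ρ z := by
  have h := ρ_sq z
  have h0 := ρ_nonneg z
  rw [Prod.norm_def, Prod.norm_def]
  refine max_le ?_ (max_le ?_ ?_) <;>
  · rw [Real.norm_eq_abs]
    apply abs_le_of_sq_le_sq' _ h0 |> abs_le.2
    nlinarith [sq_nonneg z.1, sq_nonneg z.2.1, sq_nonneg z.2.2]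

lemma ρ_le (z : ℝ × ℝ × ℝ) : ρ z ≤ |z.1| + (|z.2.1| + |z.2.2|) := by
  apply Real.sqrt_le_iff.2
  refine ⟨by positivity, ?_⟩
  rw [← sq_abs z.1, ← sq_abs z.2.1, ← sq_abs z.2.2]
  have := abs_nonneg z.1
  have := abs_nonneg z.2.1
  have := abs_nonneg z.2.2
  nlinarith [mul_nonneg (abs_nonneg z.1) (abs_nonneg z.2.1), mul_nonneg (abs_nonneg z.1) (abs_nonneg z.2.2),
    mul_nonneg (abs_nonneg z.2.1) (abs_nonneg z.2.2)]

instance haar3 : (volume : Measure (ℝ × ℝ × ℝ)).IsAddHaarMeasure := by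
  rw [Measure.volume_eq_prod]; infer_instance

/-- radial distribution of Lebesgue measure on a set -/
def lamB (B : Set (ℝ × ℝ × ℝ)) : Measure ℝ := (volume.restrict B).map ρ

def mB (B : Set (ℝ × ℝ × ℝ)) : ℝ≥0∞ := volume (ρ ⁻¹' Iic 1 ∩ B)

lemma mB_lt (B : Set (ℝ × ℝ × ℝ)) : mB B < ⊤ := by
  refine lt_of_le_of_lt (measure_mono (t := Metric.closedBall 0 1) ?_) measure_closedBall_lt_top
  intro z hz
  rw [mem_closedBall_zero_iff]
  exact (norm_le_ρ z).trans hz.1

lemma mB_univ : mB univ ≠ 0 := by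
  have h : IsOpen (ρ ⁻¹' Iio 1) := isOpen_Iio.preimage ρ_cont
  have h2 := h.measure_pos (volume : Measure (ℝ × ℝ × ℝ)) ⟨0, by simp [ρ]⟩
  refine (lt_of_lt_of_le h2 (measure_mono ?_)).ne'
  intro z hz
  exact ⟨le_of_lt (show ρ z < 1 from hz), trivial⟩

lemma lamB_Iic {B : Set (ℝ × ℝ × ℝ)} (hc : ∀ z ∈ B, ∀ c : ℝ, 0 < c → c • z ∈ B) (r : ℝ) :
    lamB B (Iic r) = ENNReal.ofReal (r ^ 3) * mB B := by
  unfold lamB mB
  rw [Measure.map_apply ρ_cont.measurable measurableSet_Iic,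
    Measure.restrict_apply (ρ_cont.measurable measurableSet_Iic)]
  rcases le_or_gt r 0 with hr | hr
  · have : r ^ 3 ≤ 0 := Odd.pow_nonpos (by decide) hr
    rw [ENNReal.ofReal_of_nonpos this, zero_mul]
    refine measure_mono_null (t := {0}) ?_ (measure_singleton _)
    intro z hz
    have h1 : ‖z‖ ≤ 0 := (norm_le_ρ z).trans (le_trans hz.1 hr)
    exact norm_le_zero_iff.1 h1
  · have h1 : ρ ⁻¹' Iic r ∩ B = r • (ρ ⁻¹' Iic 1 ∩ B) := by
      ext z
      rw [mem_smul_set_iff_inv_smul_mem₀ hr.ne']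
      simp only [mem_inter_iff, mem_preimage, mem_Iic]
      rw [ρ_smul _ (inv_pos.2 hr).le, inv_mul_le_iff₀ hr, mul_one]
      refine and_congr_right fun _ => ⟨fun h => hc z h _ (inv_pos.2 hr), fun h => ?_⟩
      have := hc _ h r hr
      rwa [smul_smul, mul_inv_cancel₀ hr.ne', one_smul] at this
    rw [h1, Measure.addHaar_smul_of_nonneg _ hr.le]
    simp

lemma lamB_eq {B : Set (ℝ × ℝ × ℝ)} (hc : ∀ z ∈ B, ∀ c : ℝ, 0 < c → c • z ∈ B) :
    mB univ • lamB B = mB B • lamB univ := by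
  have hU : ∀ z ∈ (univ : Set (ℝ × ℝ × ℝ)), ∀ c : ℝ, 0 < c → c • z ∈ (univ : Set (ℝ × ℝ × ℝ)) :=
    fun _ _ _ _ => trivial
  have k : ∀ (μ : Measure ℝ) (a b : ℝ), a < b → μ (Iic a) ≠ ⊤ →
      μ (Ioc a b) = μ (Iic b) - μ (Iic a) := by
    intro μ a b hab h
    rw [show Ioc a b = Iic b \ Iic a by ext; simp [and_comm], measure_sdiff (Iic_subset_Iic.2 hab.le) measurableSet_Iic.nullMeasurableSet h]
  have e1 : ∀ r, (mB univ • lamB B) (Iic r) = ENNReal.ofReal (r ^ 3) * (mB univ * mB B) := by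
    intro r
    rw [Measure.smul_apply, lamB_Iic hc, smul_eq_mul]; ring
  have e2 : ∀ r, (mB B • lamB univ) (Iic r) = ENNReal.ofReal (r ^ 3) * (mB univ * mB B) := by
    intro r
    rw [Measure.smul_apply, lamB_Iic hU, smul_eq_mul]; ring
  have fin : ∀ r : ℝ, ENNReal.ofReal (r ^ 3) * (mB univ * mB B) ≠ ⊤ := fun r =>
    ENNReal.mul_ne_top ENNReal.ofReal_ne_top (ENNReal.mul_ne_top (mB_lt _).ne (mB_lt _).ne)
  refine Measure.ext_of_Ioc' _ _ (fun a b _ => ?_) (fun a b hab => ?_)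
  · refine ne_top_of_le_ne_top (fin b) ?_
    rw [← e1]
    exact measure_mono Ioc_subset_Iic_self
  · rw [k _ a b hab (by rw [e1]; exact fin a), k _ a b hab (by rw [e2]; exact fin a), e1, e1, e2, e2]

abbrev g3 : Measure (ℝ × ℝ × ℝ) := g1.prod (g1.prod g1)

lemma radial3 {B : Set (ℝ × ℝ × ℝ)} (hB : MeasurableSet B) (f : ℝ → ℝ) (hf : Continuous f) :
    ∫ z in B, f (ρ z) ∂g3 =
      ∫ r, Real.exp (-r ^ 2 / 2) / √(2 * Real.pi) ^ 3 * f r ∂(lamB B) := by
  rw [int3 _ hB, lamB, integral_map ρ_cont.measurable.aemeasurable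
    (Continuous.aestronglyMeasurable (by fun_prop))]
  congr 1
  funext z
  congr 1
  rw [ρ_sq]
  unfold phi
  rw [div_mul_div_comm, div_mul_div_comm, ← Real.exp_add, ← Real.exp_add]
  congr 1
  · congr 1; ring
  · ring

lemma cone {B : Set (ℝ × ℝ × ℝ)} (hB : MeasurableSet B)
    (hc : ∀ z ∈ B, ∀ c : ℝ, 0 < c → c • z ∈ B) :
    ∫ z in B, ρ z ∂g3 = g3.real B * ∫ z, ρ z ∂g3 := by
  have k : ∀ f : ℝ → ℝ, Continuous f →
      (mB univ).toReal * ∫ z in B, f (ρ z) ∂g3 = (mB B).toReal * ∫ z, f (ρ z) ∂g3 := by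
    intro f hf
    rw [← setIntegral_univ (μ := g3), radial3 hB f hf, radial3 MeasurableSet.univ f hf]
    have a1 := integral_smul_measure (μ := lamB B)
      (fun r => Real.exp (-r ^ 2 / 2) / √(2 * Real.pi) ^ 3 * f r) (mB univ)
    have a2 := integral_smul_measure (μ := lamB univ)
      (fun r => Real.exp (-r ^ 2 / 2) / √(2 * Real.pi) ^ 3 * f r) (mB B)
    rw [smul_eq_mul] at a1 a2
    rw [← a1, ← a2, lamB_eq hc]
  have k0 := k (fun _ => 1) continuous_const
  have k1 := k id continuous_id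
  simp only [integral_const, smul_eq_mul, mul_one, probReal_univ, id,
    measureReal_restrict_apply_univ] at k0 k1
  have hm : (mB univ).toReal ≠ 0 := ENNReal.toReal_ne_zero.2 ⟨mB_univ, (mB_lt _).ne⟩
  apply mul_left_cancel₀ hm
  rw [k1, ← k0]; ring

lemma int_id : Integrable (fun x : ℝ => x) g1 := IsGaussian.integrable_id

lemma int_fst : Integrable (fun z : ℝ × ℝ × ℝ => z.1) g3 := int_id.comp_fst _

lemma int_ρ : Integrable ρ g3 := by
  have h2 : Integrable (fun z : ℝ × ℝ × ℝ => z.2.1) g3 :=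
    (int_id.comp_fst g1).comp_snd g1
  have h3 : Integrable (fun z : ℝ × ℝ × ℝ => z.2.2) g3 :=
    (int_id.comp_snd g1).comp_snd g1
  refine (int_fst.abs.add (h2.abs.add h3.abs)).mono' ρ_cont.aestronglyMeasurable
    (ae_of_all _ fun z => ?_)
  rw [Real.norm_eq_abs, abs_of_nonneg (ρ_nonneg z)]
  exact ρ_le z

/-- the circular cone -/
def cap (a : ℝ) : Set (ℝ × ℝ × ℝ) := {z | 0 ≤ z.1 - a * ρ z}

lemma meas_cap (a : ℝ) : MeasurableSet (cap a) := by
  have := ρ_cont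
  exact measurableSet_le measurable_const (by fun_prop)

lemma capInt (a : ℝ) (h0 : 0 < a) (h1 : a < 1) (g : ℝ → ℝ) (hg : Integrable g g1) :
    ∫ z in cap a, g z.1 ∂g3 = ∫ s in Ioi (0 : ℝ),
      g s * (Real.exp (-(1 / 2) * s ^ 2) - Real.exp (-(1 / (2 * a ^ 2)) * s ^ 2)) / √(2 * Real.pi) := by
  set k := √(1 - a ^ 2) / a with hk
  have ha2 : 0 ≤ 1 - a ^ 2 := by nlinarith
  have hk0 : 0 ≤ k := div_nonneg (Real.sqrt_nonneg _) h0.le
  have hk2 : k ^ 2 = (1 - a ^ 2) / a ^ 2 := by rw [hk, div_pow, Real.sq_sqrt ha2]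
  rw [← integral_indicator (meas_cap a), integral_prod _ ((hg.comp_fst _).indicator (meas_cap a))]
  have h2 : ∀ s : ℝ, ∫ y, (cap a).indicator (fun z : ℝ × ℝ × ℝ => g z.1) (s, y) ∂(g1.prod g1) =
      (Ici 0).indicator (fun s => g s * (1 - Real.exp (-(k * s) ^ 2 / 2))) s := by
    intro s
    by_cases hs : 0 ≤ s
    · rw [indicator_of_mem (by exact hs), ← rayleigh _ (mul_nonneg hk0 hs)]
      have hm : MeasurableSet {z : ℝ × ℝ | z.1 ^ 2 + z.2 ^ 2 ≤ (k * s) ^ 2} :=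
        measurableSet_le (by fun_prop) measurable_const
      rw [← integral_indicator_one hm, ← integral_const_mul]
      congr 1
      funext y
      have hiff : (s, y) ∈ cap a ↔ y ∈ {z : ℝ × ℝ | z.1 ^ 2 + z.2 ^ 2 ≤ (k * s) ^ 2} := by
        simp only [cap, mem_ofPred_eq, sub_nonneg]
        rw [← sq_le_sq₀ (mul_nonneg h0.le (ρ_nonneg _)) hs, mul_pow, ρ_sq, mul_pow, hk2,
          div_mul_eq_mul_div, le_div_iff₀ (by positivity)]
        constructor <;> intro h <;> nlinarith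
      by_cases hy : (s, y) ∈ cap a
      · rw [indicator_of_mem hy, indicator_of_mem (hiff.1 hy)]; simp
      · rw [indicator_of_notMem hy, indicator_of_notMem (fun h => hy (hiff.2 h))]; simp
    · rw [indicator_of_notMem (by exact hs)]
      have : ∀ y : ℝ × ℝ, (cap a).indicator (fun z : ℝ × ℝ × ℝ => g z.1) (s, y) = 0 := by
        intro y
        apply indicator_of_notMem
        simp only [cap, mem_ofPred_eq, sub_nonneg, not_le]
        push Not at hs
        exact lt_of_lt_of_le hs (mul_nonneg h0.le (ρ_nonneg _))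
      simp [this]
  simp_rw [h2]
  rw [integral_g1, ← integral_Ici_eq_integral_Ioi, ← integral_indicator measurableSet_Ici]
  congr 1
  funext s
  by_cases hs : s ∈ Ici (0 : ℝ)
  · rw [indicator_of_mem hs, indicator_of_mem hs]
    unfold phi
    have e : Real.exp (-(1 / (2 * a ^ 2)) * s ^ 2) =
        Real.exp (-s ^ 2 / 2) * Real.exp (-(k * s) ^ 2 / 2) := by
      rw [← Real.exp_add, mul_pow, hk2]
      congr 1
      field_simp; ring
    rw [e, show -(1 / 2 : ℝ) * s ^ 2 = -s ^ 2 / 2 by ring]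
    ring
  · rw [indicator_of_notMem hs, indicator_of_notMem hs, mul_zero]

lemma int_mul_exp (b : ℝ) (hb : 0 < b) :
    ∫ s in Ioi (0 : ℝ), s * Real.exp (-b * s ^ 2) = (2 * b)⁻¹ := by
  have := integral_mul_cexp_neg_mul_sq (b := (b : ℂ)) (by simpa using hb)
  have h2 : ∀ r : ℝ, (r : ℂ) * Complex.exp (-(b : ℂ) * (r : ℂ) ^ 2) =
      ((r * Real.exp (-b * r ^ 2) : ℝ) : ℂ) := by
    intro r; push_cast; rfl
  simp_rw [h2] at this
  rw [integral_complex_ofReal] at this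
  exact_mod_cast this

lemma cap_meas (a : ℝ) (h0 : 0 < a) (h1 : a < 1) : g3.real (cap a) = (1 - a) / 2 := by
  have hpi := Real.pi_pos
  have := capInt a h0 h1 (fun _ => 1) (integrable_const _)
  simp only [integral_const, smul_eq_mul, mul_one, measureReal_restrict_apply_univ, one_mul] at this
  rw [this, integral_div, integral_sub (integrable_exp_neg_mul_sq (by norm_num)).integrableOn
    (integrable_exp_neg_mul_sq (by positivity)).integrableOn, integral_gaussian_Ioi,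
    integral_gaussian_Ioi]
  have e1 : Real.pi / (1 / 2) = 2 * Real.pi := by ring
  have e2 : Real.pi / (1 / (2 * a ^ 2)) = a ^ 2 * (2 * Real.pi) := by field_simp
  rw [e1, e2, Real.sqrt_mul (sq_nonneg a), Real.sqrt_sq h0.le]
  have : 0 < √(2 * Real.pi) := by positivity
  field_simp

lemma cap_mom (a : ℝ) (h0 : 0 < a) (h1 : a < 1) :
    ∫ z in cap a, z.1 ∂g3 = (1 - a ^ 2) / √(2 * Real.pi) := by
  have := capInt a h0 h1 (fun x => x) int_id
  rw [this, integral_div]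
  simp_rw [mul_sub]
  rw [integral_sub (integrable_mul_exp_neg_mul_sq (by norm_num)).integrableOn
    (integrable_mul_exp_neg_mul_sq (by positivity)).integrableOn, int_mul_exp _ (by norm_num),
    int_mul_exp _ (by positivity)]
  congr 1
  field_simp

lemma iso3 {B : Set (ℝ × ℝ × ℝ)} (hB : MeasurableSet B)
    (hc : ∀ z ∈ B, ∀ c : ℝ, 0 < c → c • z ∈ B) (h0 : 0 < g3.real B) (h1 : g3.real B < 1 / 2) :
    ∫ z in B, z.1 ∂g3 ≤ 4 * g3.real B * (1 - g3.real B) / √(2 * Real.pi) := by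
  set p := g3.real B with hp
  set a := 1 - 2 * p with ha
  have a0 : 0 < a := by linarith
  have a1 : a < 1 := by linarith
  have hρ := ρ_cont
  have hi : Integrable (fun z : ℝ × ℝ × ℝ => z.1 - a * ρ z) g3 := int_fst.sub (int_ρ.const_mul a)
  have k := setIntegral_le_nonneg (μ := g3) hB
    (Continuous.stronglyMeasurable (f := fun z : ℝ × ℝ × ℝ => z.1 - a * ρ z) (by fun_prop)) hi
  change _ ≤ ∫ z in cap a, (z.1 - a * ρ z) ∂g3 at k
  have hcc : ∀ z ∈ cap a, ∀ c : ℝ, 0 < c → c • z ∈ cap a := by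
    intro z hz c hc'
    simp only [cap, mem_ofPred_eq] at hz ⊢
    rw [ρ_smul c hc'.le, Prod.smul_fst, smul_eq_mul]
    nlinarith
  rw [integral_sub int_fst.integrableOn (int_ρ.const_mul a).integrableOn,
    integral_sub int_fst.integrableOn (int_ρ.const_mul a).integrableOn,
    integral_const_mul, integral_const_mul, cone hB hc, cone (meas_cap a) hcc,
    cap_meas a a0 a1, cap_mom a a0 a1, ← hp] at k
  have e1 : (1 - a) / 2 = p := by rw [ha]; ring
  have e2 : 1 - a ^ 2 = 4 * p * (1 - p) := by rw [ha]; ring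
  rw [e1, e2] at k
  linarith

lemma mp_cons {n : ℕ} {Y : Type} [MeasurableSpace Y] (e : Eu n) (he : ‖e‖ = 1) (T : Eu n → Y)
    (ν : Measure Y) [SFinite ν] (hT : MeasurePreserving T (gam n) ν)
    (hinv : ∀ (s : ℝ) (g : Eu n), T (s • e + (g - ⟪e, g⟫ • e)) = T g) :
    MeasurePreserving (fun g => (⟪e, g⟫, T g)) (gam n) (g1.prod ν) := by
  have hm : Measurable (fun g : Eu n => (⟪e, g⟫, T g)) := Measurable.prodMk (by fun_prop) hT.measurable
  refine ⟨hm, ?_⟩
  conv_lhs => rw [← (split e he).map_eq]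
  rw [Measure.map_map hm (split e he).measurable]
  have : ((fun g : Eu n => (⟪e, g⟫, T g)) ∘ fun p : ℝ × Eu n => p.1 • e + (p.2 - ⟪e, p.2⟫ • e)) =
      Prod.map id T := by
    funext p
    simp only [Function.comp, Prod.map, id, hinv]
    congr 1
    rw [inner_add_right, inner_sub_right, real_inner_smul_right, real_inner_smul_right,
      real_inner_self_eq_norm_sq, he]
    ring
  rw [this]
  exact ((MeasurePreserving.id g1).prod hT).map_eq

end I3L

open I3L in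
theorem i3 (_hP : PhiB) : I3Stmt := by
  intro n e1 e2 e3 A h1 h2 h3 h12 h13 h23 hA hc hcyl hp0 hp1
  have h21 : ⟪e2, e1⟫ = 0 := by rw [real_inner_comm]; exact h12
  have h31 : ⟪e3, e1⟫ = 0 := by rw [real_inner_comm]; exact h13
  have h32 : ⟪e3, e2⟫ = 0 := by rw [real_inner_comm]; exact h23
  have h11 : ⟪e1, e1⟫ = 1 := by rw [real_inner_self_eq_norm_sq, h1]; norm_num
  have h22 : ⟪e2, e2⟫ = 1 := by rw [real_inner_self_eq_norm_sq, h2]; norm_num
  have h33 : ⟪e3, e3⟫ = 1 := by rw [real_inner_self_eq_norm_sq, h3]; norm_num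
  have m3 : MeasurePreserving (fun g : Eu n => ⟪e3, g⟫) (gam n) g1 := by
    refine ⟨by fun_prop, ?_⟩
    rw [map_inner', h3]; simp
  have m2 := mp_cons e2 h2 _ _ m3 (by
    intro s g
    simp only [inner_add_right, inner_sub_right, real_inner_smul_right, h32]; ring)
  have m1 := mp_cons e1 h1 _ _ m2 (by
    intro s g
    simp only [inner_add_right, inner_sub_right, real_inner_smul_right, h21, h31]
    simp)
  set T : Eu n → ℝ × ℝ × ℝ := fun g => (⟪e1, g⟫, ⟪e2, g⟫, ⟪e3, g⟫) with hT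
  let S : ℝ × ℝ × ℝ → Eu n := fun z => z.1 • e1 + z.2.1 • e2 + z.2.2 • e3
  have hS : Measurable S := by fun_prop
  have hB : MeasurableSet (S ⁻¹' A) := hS hA
  have hAB : A = T ⁻¹' (S ⁻¹' A) := by
    ext g
    have k1 : ⟪e1, S (T g)⟫ = ⟪e1, g⟫ := by
      simp only [S, hT, inner_add_right, real_inner_smul_right, h11, h12, h13]; ring
    have k2 : ⟪e2, S (T g)⟫ = ⟪e2, g⟫ := by
      simp only [S, hT, inner_add_right, real_inner_smul_right, h21, h22, h23]; ring
    have k3 : ⟪e3, S (T g)⟫ = ⟪e3, g⟫ := by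
      simp only [S, hT, inner_add_right, real_inner_smul_right, h31, h32, h33]; ring
    exact ⟨fun h => hcyl g h _ k1 k2 k3, fun h => hcyl _ h g k1.symm k2.symm k3.symm⟩
  have hreal : (gam n).real A = g3.real (S ⁻¹' A) := by
    conv_lhs => rw [hAB]
    exact m1.measureReal_preimage hB.nullMeasurableSet
  have hint : ∫ g in A, ⟪e1, g⟫ ∂gam n = ∫ z in S ⁻¹' A, z.1 ∂g3 := by
    rw [g3, ← m1.map_eq, setIntegral_map hB (by fun_prop) m1.measurable.aemeasurable, ← hAB]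
  rw [hreal] at hp0 hp1 ⊢
  rw [hint]
  refine iso3 hB (fun z hz c hc' => ?_) hp0 hp1
  have := hc _ hz c hc'
  simp only [mem_preimage, S, Prod.smul_fst, Prod.smul_snd, smul_eq_mul] at this ⊢
  simpa only [smul_add, smul_smul] using this

end

end Crest.Agent.R215
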