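import Crest.Agent.R215.Defs

/-! Row 215, task JT: the tail test. -/

set_option autoImplicit false

namespace Crest.Agent.R215

open MeasureTheory ProbabilityTheory Filter Topology Finset
open scoped RealInnerProductSpace

noncomputable section

namespace JT

variable {ι : Type} [DecidableEq ι] {n : ℕ} {s : Finset ι} {v : ι → Eu n} {L : ℝ}

omit [DecidableEq ι] in
lemma expand (u : Finset ι) (c : ι → ι → ℝ) (hc : ∀ i j, c i j = c j i) (γ : ι → ℝ) :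
    ∑ i ∈ u, ∑ j ∈ u, c i j * (γ i - γ j) ^ 2 =
      2 * ∑ i ∈ u, γ i ^ 2 * ∑ j ∈ u, c i j - 2 * ∑ i ∈ u, γ i * ∑ j ∈ u, γ j * c i j := by
  have e : ∑ i ∈ u, ∑ j ∈ u, γ j ^ 2 * c i j = ∑ i ∈ u, ∑ j ∈ u, γ i ^ 2 * c i j := by
    rw [sum_comm]; exact sum_congr rfl fun i _ => sum_congr rfl fun j _ => by rw [hc]
  have e2 : ∀ i j, c i j * (γ i - γ j) ^ 2 =
      γ i ^ 2 * c i j + γ j ^ 2 * c i j - 2 * (γ i * (γ j * c i j)) := fun i j => by ring
  simp only [e2, sum_sub_distrib, sum_add_distrib, e, mul_sum]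
  simp only [← mul_sum]; ring

lemma quad (h : Crit s v L) {J : Finset ι} (hJ : J ⊆ s) {a b : ι} (ha : a ∈ J) (hb : b ∈ J)
    (hab : a ≠ b) (x y : ℝ) (γ : ι → ℝ) :
    x ^ 2 * (∑ j ∈ J.erase a, -⟪v a, v j⟫) + y ^ 2 * (∑ j ∈ J.erase b, -⟪v b, v j⟫) -
      2 * x * y * (-⟪v a, v b⟫) ≤ ‖x • v a + y • v b - ∑ i ∈ s \ J, γ i • v i‖ ^ 2 := by
  set δ : ι → ℝ := fun i => if i ∈ J then (if i = a then x else if i = b then y else 0) else -γ i
    with hδ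
  have pr : ∀ f : ι → ℝ, ∀ k : ℕ, k ≠ 0 → ∑ i ∈ J, δ i ^ k * f i = x ^ k * f a + y ^ k * f b := by
    intro f k hk
    rw [← sum_subset (s₁ := {a, b}) (by intro i; simp; rintro (rfl | rfl) <;> assumption),
      sum_pair hab]
    · simp [hδ, ha, hb, hab.symm]
    · intro i hi hi'
      simp only [mem_insert, mem_singleton, not_or] at hi'
      simp [hδ, hi, hi'.1, hi'.2, hk]
  have pr1 : ∀ f : ι → ℝ, ∑ i ∈ J, δ i * f i = x * f a + y * f b := fun f => by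
    simpa using pr f 1 one_ne_zero
  have e1 : x • v a + y • v b - ∑ i ∈ s \ J, γ i • v i = ∑ i ∈ s, δ i • v i := by
    rw [← sum_sdiff hJ, ← sum_subset (s₁ := {a, b}) (s₂ := J)
      (by intro i; simp; rintro (rfl | rfl) <;> assumption), sum_pair hab, sub_eq_neg_add,
      ← sum_neg_distrib]
    · congr 1
      · exact sum_congr rfl fun i hi => by simp [hδ, (mem_sdiff.1 hi).2]
      · simp [hδ, ha, hb, hab.symm]
    · intro i hi hi'
      simp only [mem_insert, mem_singleton, not_or] at hi'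
      simp [hδ, hi, hi'.1, hi'.2]
  have hc : ∀ i j, -⟪v i, v j⟫ = -⟪v j, v i⟫ := fun i j => by rw [real_inner_comm]
  have e2 := expand s (fun i j => -⟪v i, v j⟫) hc δ
  have e3 := expand J (fun i j => -⟪v i, v j⟫) hc δ
  have z : ∀ i, ∑ j ∈ s, -⟪v i, v j⟫ = 0 := fun i => by
    rw [sum_neg_distrib, ← inner_sum, h.zero]; simp
  have e4 : ‖∑ i ∈ s, δ i • v i‖ ^ 2 = -∑ i ∈ s, δ i * ∑ j ∈ s, δ j * -⟪v i, v j⟫ := by
    rw [← real_inner_self_eq_norm_sq, sum_inner, ← sum_neg_distrib]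
    refine sum_congr rfl fun i _ => ?_
    rw [real_inner_smul_left, inner_sum, ← mul_neg, ← sum_neg_distrib]
    congr 1
    exact sum_congr rfl fun j _ => by rw [real_inner_smul_right]; ring
  have nn : ∀ i ∈ s, ∀ j ∈ s, 0 ≤ -⟪v i, v j⟫ * (δ i - δ j) ^ 2 := by
    intro i hi j hj
    by_cases e : i = j
    · simp [e]
    · exact mul_nonneg (neg_nonneg.2 (h.neg i hi j hj e).le) (sq_nonneg _)
  have le : ∑ i ∈ J, ∑ j ∈ J, -⟪v i, v j⟫ * (δ i - δ j) ^ 2 ≤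
      ∑ i ∈ s, ∑ j ∈ s, -⟪v i, v j⟫ * (δ i - δ j) ^ 2 :=
    (sum_le_sum fun i hi => sum_le_sum_of_subset_of_nonneg hJ fun j hj _ => nn i (hJ hi) j hj).trans
      (sum_le_sum_of_subset_of_nonneg hJ fun i hi _ => sum_nonneg (nn i hi))
  simp only [z, mul_zero, sum_const_zero] at e2
  rw [pr _ 2 two_ne_zero, pr1, pr1, pr1, ← add_sum_erase _ (fun j => -⟪v a, v j⟫) ha,
    ← add_sum_erase _ (fun j => -⟪v b, v j⟫) hb, hc b a] at e3
  rw [e1, e4]
  nlinarith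

omit [DecidableEq ι] in
lemma orth (U : Finset ι) (v : ι → Eu n) (x : Eu n) :
    ∃ γ : ι → ℝ, ∀ i ∈ U, ⟪v i, x - ∑ j ∈ U, γ j • v j⟫ = 0 := by
  set K := Submodule.span ℝ (v '' U)
  obtain ⟨γ, hγ⟩ := (Submodule.mem_span_image_finset_iff_exists_fun' ℝ).1
    (K.starProjection_apply_mem x)
  refine ⟨γ, fun i hi => ?_⟩
  rw [hγ]
  exact (K.mem_orthogonal _).1 (K.sub_starProjection_mem_orthogonal x) _
    (Submodule.subset_span ⟨i, hi, rfl⟩)

lemma unit {w : Eu n} (hw : 0 < ‖w‖) : ‖(‖w‖⁻¹ • w : Eu n)‖ = 1 := by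
  rw [norm_smul, norm_inv, norm_norm]; field_simp

/-- the two directions -/
lemma dirs (h : Crit s v L) {J : Finset ι} (hJ : J ⊆ s) {a b : ι} (ha : a ∈ J) (hb : b ∈ J)
    (hab : a ≠ b) {D : ℝ} (hD : D = (∑ j ∈ J.erase a, -⟪v a, v j⟫) *
      (∑ j ∈ J.erase b, -⟪v b, v j⟫) - (-⟪v a, v b⟫) ^ 2) (h0 : 0 < D) :
    ∃ (e1 e2 : Eu n) (α β : ℝ), ‖e1‖ = 1 ∧ ‖e2‖ = 1 ∧ ⟪e1, e2⟫ = 0 ∧ 0 < α ∧ 0 < β ∧
      ⟪v a, e1⟫ = α ∧ ⟪v a, e2⟫ = 0 ∧ ⟪v b, e2⟫ = β ∧ √D ≤ α * β ∧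
      ∀ i ∈ s \ J, ⟪v i, e1⟫ = 0 ∧ ⟪v i, e2⟫ = 0 := by
  have haT : a ∉ s \ J := fun e => (mem_sdiff.1 e).2 ha
  obtain ⟨γ, hγ⟩ := orth (s \ J) v (v a)
  obtain ⟨η, hη⟩ := orth (insert a (s \ J)) v (v b)
  have q1 := quad h hJ ha hb hab 1 0 γ
  have q2 := quad h hJ ha hb hab (-η a) 1 η
  rw [sum_insert haT] at hη
  set w1 := v a - ∑ j ∈ s \ J, γ j • v j with hw1
  set w2 := v b - (η a • v a + ∑ j ∈ s \ J, η j • v j) with hw2
  have f1 : (1 : ℝ) • v a + (0 : ℝ) • v b - ∑ j ∈ s \ J, γ j • v j = w1 := by simp [hw1]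
  have f2 : (-η a) • v a + (1 : ℝ) • v b - ∑ j ∈ s \ J, η j • v j = w2 := by
    rw [hw2, one_smul, neg_smul]; abel
  rw [f1] at q1
  rw [f2] at q2
  set A := ∑ j ∈ J.erase a, -⟪v a, v j⟫
  set B := ∑ j ∈ J.erase b, -⟪v b, v j⟫
  set c := -⟪v a, v b⟫
  have A0 : 0 ≤ A := sum_nonneg fun j hj =>
    neg_nonneg.2 (h.neg a (hJ ha) j (hJ (mem_of_mem_erase hj)) (ne_of_mem_erase hj).symm).le
  have A1 : 0 < A := by
    rcases A0.lt_or_eq with e | e
    · exact e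
    · rw [← e] at hD; nlinarith [sq_nonneg c]
  have k1 : A ≤ ‖w1‖ ^ 2 := by linarith
  have k2 : D ≤ A * ‖w2‖ ^ 2 := by
    nlinarith [mul_le_mul_of_nonneg_left q2 A0, sq_nonneg (A * η a + c)]
  have p1 : 0 < ‖w1‖ := by
    rcases (norm_nonneg w1).lt_or_eq with e | e
    · exact e
    · rw [← e] at k1; linarith
  have p2 : 0 < ‖w2‖ := by
    rcases (norm_nonneg w2).lt_or_eq with e | e
    · exact e
    · rw [← e] at k2; linarith
  have o2a : ⟪v a, w2⟫ = 0 := hη a (mem_insert_self _ _)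
  have o2 : ∀ i ∈ s \ J, ⟪v i, w2⟫ = 0 := fun i hi => hη i (mem_insert_of_mem hi)
  have z : ∀ (w : Eu n) (ζ : ι → ℝ), (∀ i ∈ s \ J, ⟪v i, w⟫ = 0) →
      ⟪∑ j ∈ s \ J, ζ j • v j, w⟫ = 0 := fun w ζ hw => by
    rw [sum_inner]; exact sum_eq_zero fun i hi => by rw [real_inner_smul_left, hw i hi, mul_zero]
  have n1 : ⟪v a, w1⟫ = ‖w1‖ ^ 2 := by
    rw [← real_inner_self_eq_norm_sq]
    conv_rhs => rw [hw1, inner_sub_left, ← hw1, z w1 γ hγ, sub_zero]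
  have n2 : ⟪v b, w2⟫ = ‖w2‖ ^ 2 := by
    rw [← real_inner_self_eq_norm_sq]
    conv_rhs => rw [hw2, inner_sub_left, ← hw2, inner_add_left, z w2 η o2, real_inner_smul_left,
      o2a]
    simp
  have n3 : ⟪w1, w2⟫ = 0 := by rw [hw1, inner_sub_left, z w2 γ o2, o2a, sub_zero]
  refine ⟨‖w1‖⁻¹ • w1, ‖w2‖⁻¹ • w2, ‖w1‖, ‖w2‖, unit p1, unit p2, ?_, p1, p2, ?_, ?_, ?_, ?_,
    fun i hi => ⟨?_, ?_⟩⟩
  · rw [real_inner_smul_left, real_inner_smul_right, n3]; simp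
  · rw [real_inner_smul_right, n1]; field_simp
  · rw [real_inner_smul_right, o2a, mul_zero]
  · rw [real_inner_smul_right, n2]; field_simp
  · refine Real.sqrt_le_iff.2 ⟨by positivity, ?_⟩
    nlinarith [mul_le_mul_of_nonneg_right k1 (sq_nonneg ‖w2‖)]
  · rw [real_inner_smul_right, hγ i hi, mul_zero]
  · rw [real_inner_smul_right, o2 i hi, mul_zero]

lemma int3 (u : Eu n) : Integrable (fun g => (max ⟪u, g⟫ 0) ^ 3) (gam n) := by
  have h : Integrable (fun g : Eu n => ‖g‖ ^ 3) (gam n) :=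
    (IsGaussian.memLp_id (gam n) 3 (by simp)).integrable_norm_pow (p := 3) (by norm_num)
  refine (h.const_mul (‖u‖ ^ 3)).mono' (Continuous.aestronglyMeasurable (by fun_prop))
    (ae_of_all _ fun g => ?_)
  rw [Real.norm_eq_abs, abs_of_nonneg (by positivity), ← mul_pow]
  exact pow_le_pow_left₀ (le_max_right _ _) (max_le (real_inner_le_norm _ _) (by positivity)) 3

lemma val3 (hP : PhiB) (u : Eu n) :
    ∫ g, (max ⟪u, g⟫ 0) ^ 3 ∂gam n = ‖u‖ ^ 3 * (2 / √(2 * Real.pi)) := by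
  rw [integral_inner_comp u (fun s => (max s 0) ^ 3) (by fun_prop), ← hP.pos3,
    ← integral_const_mul]
  refine integral_congr_ae (ae_of_all _ fun s => ?_)
  simp only
  rw [← mul_pow, mul_max_of_nonneg _ _ (norm_nonneg u), mul_zero]

lemma cube {j x y : ℝ} (hj : 0 ≤ j) (hx : 0 ≤ x) (hy : 0 ≤ y) :
    (j * x + y) ^ 3 ≤ (j + 1) ^ 2 * (j * x ^ 3 + y ^ 3) := by
  have : (j + 1) ^ 2 * (j * x ^ 3 + y ^ 3) - (j * x + y) ^ 3 =
      j * (x - y) ^ 2 * ((2 * j + 1) * x + (j + 2) * y) := by ring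
  have h2 : 0 ≤ j * (x - y) ^ 2 * ((2 * j + 1) * x + (j + 2) * y) := by positivity
  linarith

/-- lower bound for the gain -/
lemma lower (h : Crit s v L) {J : Finset ι} (hJ : J ⊂ s) (hne : J.Nonempty) :
    lam * ((J.card * ∑ i ∈ s \ J, ‖v i‖ ^ 2 + ‖∑ i ∈ s \ J, v i‖ ^ 2) / (2 * J.card)) <
      L - F J v := by
  set S := ∑ i ∈ s \ J, v i with hS
  set t := ∑ i ∈ s \ J, ‖v i‖ ^ 2 with ht
  have j0 : (0 : ℝ) < J.card := by exact_mod_cast hne.card_pos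
  have e1 : ∑ i ∈ J, v i = -S := by
    have := h.zero
    rw [← sum_sdiff hJ.subset] at this
    exact eq_neg_of_add_eq_zero_right this
  have e2 : ∑ i ∈ J, ‖v i‖ ^ 2 = 1 - t := by
    have := h.norm1
    rw [← sum_sdiff hJ.subset] at this
    linarith
  have b := h.ind J hJ hne fun i => v i + (J.card : ℝ)⁻¹ • S
  rw [F_add hne] at b
  have e3 : ∑ i ∈ J, ‖v i + (J.card : ℝ)⁻¹ • S‖ ^ 2 = 1 - (J.card * t + ‖S‖ ^ 2) / J.card := by
    simp only [norm_add_sq_real, sum_add_distrib, e2, ← mul_sum, ← sum_inner, e1, sum_const,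
      nsmul_eq_mul, inner_neg_left, real_inner_smul_right, real_inner_self_eq_norm_sq, norm_smul,
      norm_inv, Real.norm_natCast]
    field_simp; ring
  rw [e3] at b
  set y := (J.card * t + ‖S‖ ^ 2) / J.card with hy
  have e4 : (J.card * t + ‖S‖ ^ 2) / (2 * J.card) = y / 2 := by rw [hy]; field_simp
  have hy1 : 0 ≤ 1 - y := by rw [← e3]; positivity
  have e5 : √(1 - y) ≤ 1 - y / 2 := Real.sqrt_le_iff.2 ⟨by linarith, by nlinarith [sq_nonneg y]⟩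
  rw [e4]
  nlinarith [h.hL, mul_le_mul_of_nonneg_left e5 lam_pos.le]

lemma upper (hP : PhiB) (hS : SBStmt) (h : Crit s v L) {J : Finset ι} (hJ : J ⊂ s)
    (h3 : 3 ≤ J.card) {a b : ι} (ha : a ∈ J) (hb : b ∈ J) (hab : a ≠ b) {e1 e2 : Eu n} {α β : ℝ}
    (u1 : ‖e1‖ = 1) (u2 : ‖e2‖ = 1) (u3 : ⟪e1, e2⟫ = 0) (hα : 0 < α) (hβ : 0 < β)
    (a1 : ⟪v a, e1⟫ = α) (a2 : ⟪v a, e2⟫ = 0) (b2 : ⟪v b, e2⟫ = β)
    (o : ∀ i ∈ s \ J, ⟪v i, e1⟫ = 0 ∧ ⟪v i, e2⟫ = 0) :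
    L - F J v ≤ (J.card + 1) ^ 2 * (J.card * ∑ i ∈ s \ J, ‖v i‖ ^ 3 + ‖∑ i ∈ s \ J, v i‖ ^ 3) *
      (2 / √(2 * Real.pi)) / (12 * J.card * Real.pi * α * β) := by
  have pi0 := Real.pi_pos
  set S := ∑ i ∈ s \ J, v i with hSd
  have hne : J.Nonempty := ⟨a, ha⟩
  have hT : (s \ J).Nonempty := by
    obtain ⟨x, h1, h2⟩ := exists_of_ssubset hJ
    exact ⟨x, mem_sdiff.2 ⟨h1, h2⟩⟩
  have j3 : (3 : ℝ) ≤ J.card := by exact_mod_cast h3
  set j : ℝ := (J.card : ℝ) with hj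
  have inv : ∀ (e : Eu n), (∀ i ∈ s \ J, ⟪v i, e⟫ = 0) → ∀ g (r : ℝ),
      mx (s \ J) v (g + r • e) = mx (s \ J) v g ∧ -⟪S, g + r • e⟫ = -⟪S, g⟫ := by
    intro e he g r
    constructor
    · unfold mx; congr 1; funext i
      rw [inner_add_right, real_inner_smul_right, he i i.2]; simp
    · rw [inner_add_right, real_inner_smul_right, hSd, sum_inner (f := v) (x := e),
        sum_eq_zero he]; simp
  have sb := hS n e1 e2 (v a) (v b) α β (j - 2) (mx (s \ J) v) (fun g => -⟪S, g⟫) u1 u2 u3 hα hβ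
    (by linarith) a1 a2 b2 (lip_mx _ v).continuous.measurable (by fun_prop) fun g r =>
      ⟨(inv e1 (fun i hi => (o i hi).1) g r).1, (inv e2 (fun i hi => (o i hi).2) g r).1,
        (inv e1 (fun i hi => (o i hi).1) g r).2, (inv e2 (fun i hi => (o i hi).2) g r).2⟩
  rw [sub_add_cancel] at sb
  set H : Eu n → ℝ := fun g => (j + 1) ^ 2 * (j * ∑ i ∈ s \ J, (max ⟪v i, g⟫ 0) ^ 3 +
    (max ⟪S, g⟫ 0) ^ 3) / (12 * j * Real.pi * α * β) with hH
  have i1 : Integrable (fun g => ∑ i ∈ s \ J, (max ⟪v i, g⟫ 0) ^ 3) (gam n) :=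
    integrable_finsetSum _ fun i _ => int3 _
  have iH : Integrable H (gam n) :=
    ((((i1.const_mul j).add (int3 S)).const_mul _).div_const _)
  have vH : ∫ g, H g ∂gam n = (j + 1) ^ 2 * (j * ∑ i ∈ s \ J, ‖v i‖ ^ 3 + ‖S‖ ^ 3) *
      (2 / √(2 * Real.pi)) / (12 * j * Real.pi * α * β) := by
    rw [hH, integral_div, integral_const_mul, integral_add (i1.const_mul j) (int3 S),
      integral_const_mul, integral_finsetSum _ fun i _ => int3 _]
    simp only [val3 hP, ← sum_mul]; ring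
  have H0 : ∀ g, 0 ≤ H g := fun g => by
    have : 0 ≤ ∑ i ∈ s \ J, (max ⟪v i, g⟫ 0) ^ 3 := sum_nonneg fun i _ => by positivity
    have : 0 < j := by linarith
    simp only [hH]; positivity
  have eL : L - F J v = ∫ g, (mx s v g - mx J v g) ∂gam n := by
    rw [integral_sub (integrable_mx s v) (integrable_mx J v), ← h.hF]; rfl
  rw [← vH, eL, ← ENNReal.ofReal_le_ofReal_iff (integral_nonneg H0),
    ofReal_integral_eq_lintegral_ofReal iH (ae_of_all _ H0),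
    ofReal_integral_eq_lintegral_ofReal (f := fun g => mx s v g - mx J v g)
      ((integrable_mx s v).sub (integrable_mx J v))
      (ae_of_all _ fun g => sub_nonneg.2 (mx_le hne fun i hi => le_mx v g (hJ.subset hi)))]
  refine le_trans (lintegral_mono fun g => ?_) (sb.trans (lintegral_mono fun g => ?_))
  · obtain ⟨i, hi, e⟩ := exists_mx (hne.mono hJ.subset) v g
    by_cases hiJ : i ∈ J
    · rw [ENNReal.ofReal_of_nonpos (by linarith [le_mx v g hiJ])]; exact zero_le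
    refine ENNReal.ofReal_le_ofReal (sub_le_sub (e ▸ le_mx v g (mem_sdiff.2 ⟨hi, hiJ⟩)) ?_)
    refine max_le (le_mx v g ha) (max_le (le_mx v g hb) ?_)
    rw [div_le_iff₀ (by linarith)]
    have hb' : b ∈ J.erase a := mem_erase.2 ⟨hab.symm, hb⟩
    have e1 : ∑ i ∈ J, ⟪v i, g⟫ = -⟪S, g⟫ := by
      have := h.zero
      rw [← sum_sdiff hJ.subset] at this
      rw [← sum_inner, eq_neg_of_add_eq_zero_right this, inner_neg_left]
    rw [← add_sum_erase _ _ ha, ← add_sum_erase _ _ hb'] at e1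
    have e2 := sum_le_card_nsmul ((J.erase a).erase b) (fun i => ⟪v i, g⟫) (mx J v g)
      fun i hi => le_mx v g (mem_of_mem_erase (mem_of_mem_erase hi))
    have e3 : (((J.erase a).erase b).card : ℝ) = j - 2 := by
      have := card_erase_add_one ha
      have := card_erase_add_one hb'
      have : J.card = ((J.erase a).erase b).card + 2 := by omega
      rw [hj, this]; push_cast; ring
    rw [nsmul_eq_mul, e3] at e2
    linarith
  · refine ENNReal.ofReal_le_ofReal (div_le_div_of_nonneg_right ?_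
      (by have : 0 < j := by linarith
          positivity))
    obtain ⟨i, hi, e⟩ := exists_mx hT v g
    have c1 := cube (j := j) (by linarith) (le_max_right ⟪v i, g⟫ 0) (le_max_right ⟪S, g⟫ 0)
    have c2 : (max ⟪v i, g⟫ 0) ^ 3 ≤ ∑ i ∈ s \ J, (max ⟪v i, g⟫ 0) ^ 3 :=
      single_le_sum (f := fun i => (max ⟪v i, g⟫ 0) ^ 3) (fun _ _ => by positivity) hi
    have c3 : max (j * mx (s \ J) v g - -⟪S, g⟫) 0 ≤ j * max ⟪v i, g⟫ 0 + max ⟪S, g⟫ 0 := by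
      have j0 : 0 ≤ j := by linarith
      refine max_le ?_ (by positivity)
      rw [e]
      nlinarith [mul_le_mul_of_nonneg_left (le_max_left ⟪v i, g⟫ 0) j0, le_max_left ⟪S, g⟫ 0]
    refine (pow_le_pow_left₀ (le_max_right _ _) c3 3).trans (c1.trans ?_)
    gcongr

end JT

open JT in
theorem jt (hP : PhiB) (hS : SBStmt) : JtStmt := by
  intro ι _ n s v L h J hJ h3 a ha b hb hab ρ hρ hr
  have pi0 := Real.pi_pos
  simp only at hr ⊢
  set D := (∑ j ∈ J.erase a, -⟪v a, v j⟫) * (∑ j ∈ J.erase b, -⟪v b, v j⟫) - (-⟪v a, v b⟫) ^ 2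
    with hD
  rcases le_or_gt D 0 with h0 | h0
  · rw [Real.sqrt_eq_zero'.2 h0, mul_zero]; positivity
  obtain ⟨e1, e2, α, β, u1, u2, u3, hα, hβ, a1, a2, b2, hs, o⟩ := dirs h hJ.subset ha hb hab hD h0
  have lo := lower h hJ ⟨a, ha⟩
  have up := upper hP hS h hJ h3 ha hb hab u1 u2 u3 hα hβ a1 a2 b2 o
  have j3 : (3 : ℝ) ≤ J.card := by exact_mod_cast h3
  set j : ℝ := (J.card : ℝ)
  have j0 : 0 < j := by linarith
  set t := ∑ i ∈ s \ J, ‖v i‖ ^ 2 with ht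
  set S := ∑ i ∈ s \ J, v i with hSd
  have t0 : 0 ≤ t := sum_nonneg fun _ _ => sq_nonneg _
  have hβ0 : ‖S‖ ^ 2 ≤ t := by
    rw [← real_inner_self_eq_norm_sq, hSd, sum_inner]
    refine sum_le_sum fun i hi => ?_
    rw [inner_sum, ← add_sum_erase _ _ hi, real_inner_self_eq_norm_sq]
    have : ∑ k ∈ (s \ J).erase i, ⟪v i, v k⟫ ≤ 0 := sum_nonpos fun k hk =>
      (h.neg i (mem_sdiff.1 hi).1 k (mem_sdiff.1 (mem_of_mem_erase hk)).1
        (ne_of_mem_erase hk).symm).le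
    linarith
  have hSt : ‖S‖ ≤ √t := Real.le_sqrt_of_sq_le hβ0
  have c3 : ∀ σ : ℝ, (∀ i ∈ s \ J, ‖v i‖ ≤ σ) → ∑ i ∈ s \ J, ‖v i‖ ^ 3 ≤ σ * t := by
    intro σ hσ
    rw [ht, mul_sum]
    exact sum_le_sum fun i hi => by
      nlinarith [mul_le_mul_of_nonneg_right (hσ i hi) (sq_nonneg ‖v i‖)]
  have k1 := c3 ρ fun i hi => abs_le_of_sq_le_sq' (hr i hi) hρ |>.2
  have k2 := c3 √t fun i hi => Real.le_sqrt_of_sq_le
    (single_le_sum (f := fun i => ‖v i‖ ^ 2) (fun _ _ => by positivity) hi)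
  have k3 : ‖S‖ ^ 3 ≤ √t * ‖S‖ ^ 2 := by
    nlinarith [mul_le_mul_of_nonneg_right hSt (sq_nonneg ‖S‖)]
  set C := ∑ i ∈ s \ J, ‖v i‖ ^ 3
  clear_value C t S j D
  clear c3 hr
  have r0 : 0 < √(2 * Real.pi) := by positivity
  have main : 9 * Real.pi / 2 * (α * β) * (j * t + ‖S‖ ^ 2) < (j + 1) ^ 2 * (j * C + ‖S‖ ^ 3) := by
    have := lo.trans_le up
    rw [lt_div_iff₀ (by positivity)] at this
    have e : lam * ((j * t + ‖S‖ ^ 2) / (2 * j)) * (12 * j * Real.pi * α * β) =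
        9 * Real.pi / 2 * (α * β) * (j * t + ‖S‖ ^ 2) * (2 / √(2 * Real.pi)) := by
      unfold lam; field_simp; ring
    rw [e] at this
    exact lt_of_mul_lt_mul_right this (by positivity)
  set θ := 9 * Real.pi / 2 * √D / (j + 1) ^ 2 with hθ
  have eθ : 9 * Real.pi / 2 * √D = (j + 1) ^ 2 * θ := by rw [hθ]; field_simp
  have m2 : θ * (j * t + ‖S‖ ^ 2) < j * C + ‖S‖ ^ 3 := by
    have : 9 * Real.pi / 2 * √D * (j * t + ‖S‖ ^ 2) ≤
        9 * Real.pi / 2 * (α * β) * (j * t + ‖S‖ ^ 2) := by gcongr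
    have := this.trans_lt main
    rw [eθ, mul_assoc] at this
    exact lt_of_mul_lt_mul_left this (by positivity)
  have m3 : (j + 1) * θ ≤ j * ρ + √t := by
    by_contra hn
    push Not at hn
    rcases le_total √t θ with c | c
    · nlinarith [mul_le_mul_of_nonneg_left k2 j0.le,
        mul_le_mul_of_nonneg_right c (by positivity : 0 ≤ j * t + ‖S‖ ^ 2)]
    · nlinarith [mul_le_mul_of_nonneg_left k1 j0.le, mul_le_mul_of_nonneg_right hn.le t0,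
        mul_le_mul_of_nonneg_left hβ0 (sub_nonneg.2 c)]
  rw [eθ]
  nlinarith [mul_le_mul_of_nonneg_left m3 (by linarith : 0 ≤ j + 1)]

end

end Crest.Agent.R215
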