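import Crest.Agent.R215.Defs

/-! Row 215, tasks BASE and MAIN. -/

set_option autoImplicit false

namespace Crest.Agent.R215

open MeasureTheory ProbabilityTheory Filter Topology Set
open scoped RealInnerProductSpace

namespace MainAux

variable {n : ℕ}

lemma abs_inner (hP : PhiB) (u : Eu n) :
    ∫ g, |⟪u, g⟫| ∂gam n = ‖u‖ * (2 / √(2 * Real.pi)) := by
  rw [integral_inner_comp u (fun s => |s|) (by fun_prop)]
  simp_rw [abs_mul, abs_norm]
  rw [integral_const_mul, hP.abs1]

lemma integral_neg' (f : Eu n → ℝ) (hf : Continuous f) :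
    ∫ g, f (-g) ∂gam n = ∫ g, f g ∂gam n := by
  have h := stdGaussian_map (E := Eu n) (LinearIsometryEquiv.neg ℝ (E := Eu n))
  have h2 := integral_map (μ := gam n) (φ := LinearIsometryEquiv.neg ℝ (E := Eu n)) (f := f)
    (LinearIsometryEquiv.neg ℝ (E := Eu n)).continuous.aemeasurable hf.aestronglyMeasurable
  rw [h] at h2
  exact h2.symm

lemma max3 (x y z : ℝ) : max x (max y z) + max (-x) (max (-y) (-z)) =
    (|x - y| + |x - z| + |y - z|) / 2 := by
  have key : ∀ x y z : ℝ, x ≤ y → y ≤ z → ∀ a b c : ℝ, (a = x ∧ b = y ∧ c = z) ∨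
      (a = x ∧ b = z ∧ c = y) ∨ (a = y ∧ b = x ∧ c = z) ∨ (a = y ∧ b = z ∧ c = x) ∨
      (a = z ∧ b = x ∧ c = y) ∨ (a = z ∧ b = y ∧ c = x) →
      max a (max b c) + max (-a) (max (-b) (-c)) = (|a - b| + |a - c| + |b - c|) / 2 := by
    intro x y z h1 h2 a b c h
    have h3 := h1.trans h2
    have e1 : |x - y| = y - x := by rw [abs_sub_comm, abs_of_nonneg (by linarith)]
    have e2 : |y - x| = y - x := abs_of_nonneg (by linarith)
    have e3 : |x - z| = z - x := by rw [abs_sub_comm, abs_of_nonneg (by linarith)]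
    have e4 : |z - x| = z - x := abs_of_nonneg (by linarith)
    have e5 : |y - z| = z - y := by rw [abs_sub_comm, abs_of_nonneg (by linarith)]
    have e6 : |z - y| = z - y := abs_of_nonneg (by linarith)
    have n1 : -y ≤ -x := neg_le_neg h1
    have n2 : -z ≤ -y := neg_le_neg h2
    have n3 : -z ≤ -x := neg_le_neg h3
    rcases h with ⟨rfl, rfl, rfl⟩ | ⟨rfl, rfl, rfl⟩ | ⟨rfl, rfl, rfl⟩ | ⟨rfl, rfl, rfl⟩ |
      ⟨rfl, rfl, rfl⟩ | ⟨rfl, rfl, rfl⟩ <;>
    simp only [e1, e2, e3, e4, e5, e6, max_eq_left, max_eq_right, h1, h2, h3, n1, n2, n3] <;>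
    ring
  rcases le_total x y with h1 | h1 <;> rcases le_total y z with h2 | h2 <;>
    rcases le_total x z with h3 | h3
  · exact key x y z h1 h2 _ _ _ (by simp)
  · exact key x y z h1 h2 _ _ _ (by simp)
  · exact key x z y h3 h2 _ _ _ (by simp)
  · exact key z x y h3 h1 _ _ _ (by simp)
  · exact key y x z h1 h3 _ _ _ (by simp)
  · exact key y z x h2 h3 _ _ _ (by simp)
  · exact key z y x h2 h1 _ _ _ (by simp)
  · exact key z y x h2 h1 _ _ _ (by simp)

lemma int_max3 (hP : PhiB) (a b c : Eu n) :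
    ∫ g, max ⟪a, g⟫ (max ⟪b, g⟫ ⟪c, g⟫) ∂gam n =
      (‖a - b‖ + ‖a - c‖ + ‖b - c‖) / (2 * √(2 * Real.pi)) := by
  have hint : ∀ a b c : Eu n, Integrable (fun g => max ⟪a, g⟫ (max ⟪b, g⟫ ⟪c, g⟫)) (gam n) :=
    fun a b c => (integrable_inner a).sup ((integrable_inner b).sup (integrable_inner c))
  have h1 := integral_neg' (n := n) (fun g => max ⟪a, g⟫ (max ⟪b, g⟫ ⟪c, g⟫)) (by fun_prop)
  simp only [inner_neg_right] at h1
  have h2 : ∫ g, (max ⟪a, g⟫ (max ⟪b, g⟫ ⟪c, g⟫) + max (-⟪a, g⟫) (max (-⟪b, g⟫) (-⟪c, g⟫)))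
      ∂gam n = ∫ g, (|⟪a - b, g⟫| + |⟪a - c, g⟫| + |⟪b - c, g⟫|) / 2 ∂gam n := by
    congr 1
    ext g
    rw [max3, inner_sub_left, inner_sub_left, inner_sub_left]
  have hn := hint (-a) (-b) (-c)
  simp only [inner_neg_left] at hn
  have i1 : Integrable (fun g => |⟪a - b, g⟫|) (gam n) := (integrable_inner _).abs
  have i2 : Integrable (fun g => |⟪a - c, g⟫|) (gam n) := (integrable_inner _).abs
  have i3 : Integrable (fun g => |⟪b - c, g⟫|) (gam n) := (integrable_inner _).abs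
  have i4 : Integrable (fun g => |⟪a - b, g⟫| + |⟪a - c, g⟫|) (gam n) := i1.add i2
  rw [integral_add (hint a b c) hn, h1, integral_div, integral_add i4 i3, integral_add i1 i2,
    abs_inner hP, abs_inner hP, abs_inner hP] at h2
  have hs : 0 < √(2 * Real.pi) := Real.sqrt_pos.2 (by have := Real.pi_pos; positivity)
  field_simp at h2 ⊢
  linarith

lemma F_eq3 {ι : Type} {s : Finset ι} (w : ι → Eu n) (i j k : ι) (hi : i ∈ s) (hj : j ∈ s)
    (hk : k ∈ s) (h : ∀ l ∈ s, l = i ∨ l = j ∨ l = k) (hP : PhiB) :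
    F s w = (‖w i - w j‖ + ‖w i - w k‖ + ‖w j - w k‖) / (2 * √(2 * Real.pi)) := by
  rw [← int_max3 hP]
  unfold F
  congr 1
  ext g
  apply le_antisymm
  · refine mx_le ⟨i, hi⟩ fun l hl => ?_
    rcases h l hl with rfl | rfl | rfl
    · exact le_max_left _ _
    · exact (le_max_left _ _).trans (le_max_right _ _)
    · exact (le_max_right _ _).trans (le_max_right _ _)
  · exact max_le (le_mx w g hi) (max_le (le_mx w g hj) (le_mx w g hk))

lemma fin_le {S T : ℝ} (_hT : 0 ≤ T) (h : T ^ 2 ≤ 9 * S) :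
    T / (2 * √(2 * Real.pi)) ≤ lam * √S := by
  have hs : 0 < √(2 * Real.pi) := Real.sqrt_pos.2 (by have := Real.pi_pos; positivity)
  have h1 : T ≤ 3 * √S := by
    have : T ≤ √(9 * S) := Real.le_sqrt_of_sq_le h
    rwa [Real.sqrt_mul (by norm_num), show √(9 : ℝ) = 3 by
      rw [show (9 : ℝ) = 3 ^ 2 by norm_num, Real.sqrt_sq (by norm_num)]] at this
  unfold lam
  rw [div_mul_eq_mul_div]
  gcongr

end MainAux

theorem base (hP : PhiB) : BaseStmt := by
  intro ι _ n s hs hc w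
  have hpos : 0 < s.card := hs.card_pos
  have h123 : s.card = 1 ∨ s.card = 2 ∨ s.card = 3 := by omega
  rcases h123 with h | h | h
  · obtain ⟨i, rfl⟩ := Finset.card_eq_one.1 h
    rw [MainAux.F_eq3 w i i i (by simp) (by simp) (by simp) (by simp) hP]
    refine MainAux.fin_le (by positivity) ?_
    simp
  · obtain ⟨i, j, hij, rfl⟩ := Finset.card_eq_two.1 h
    rw [MainAux.F_eq3 w i j j (by simp) (by simp) (by simp) (by simp) hP]
    refine MainAux.fin_le (by positivity) ?_
    rw [Finset.sum_pair hij, sub_self, norm_zero, add_zero]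
    have h1 := norm_sub_le (w i) (w j)
    have h2 := norm_nonneg (w i - w j)
    nlinarith [sq_nonneg (‖w i‖ - ‖w j‖), norm_nonneg (w i), norm_nonneg (w j)]
  · obtain ⟨i, j, k, hij, hik, hjk, rfl⟩ := Finset.card_eq_three.1 h
    rw [MainAux.F_eq3 w i j k (by simp) (by simp) (by simp) (by simp) hP]
    refine MainAux.fin_le (by positivity) ?_
    rw [Finset.sum_insert (by simp [hij, hik]), Finset.sum_pair hjk]
    have h1 := norm_sub_sq_real (w i) (w j)
    have h2 := norm_sub_sq_real (w i) (w k)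
    have h3 := norm_sub_sq_real (w j) (w k)
    have h4 : 0 ≤ ‖w i + w j + w k‖ ^ 2 := sq_nonneg _
    rw [norm_add_sq_real, norm_add_sq_real, inner_add_left] at h4
    nlinarith [sq_nonneg (‖w i - w j‖ - ‖w i - w k‖), sq_nonneg (‖w i - w j‖ - ‖w j - w k‖),
      sq_nonneg (‖w i - w k‖ - ‖w j - w k‖)]

theorem allBd (hB : BaseStmt) (hCr : CritStmt) (hCe : CellStmt) (hC4 : Cell4Stmt) (hJ : JtStmt)
    (hF : FinStmt) (ι : Type) [Fintype ι] [DecidableEq ι] (n : ℕ) (s : Finset ι) :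
    s.Nonempty → Bd n s := by
  induction s using Finset.strongInduction with
  | H s ih =>
    intro hs
    by_cases h3 : s.card ≤ 3
    · exact hB ι n s hs h3
    by_contra hnot
    obtain ⟨v, L, hc⟩ := hCr ι n s (by omega) ih hnot
    refine hF ι s (fun i => ‖v i‖ ^ 2) (fun i => (gam n).real (cell s v i))
      (fun i j => -⟪v i, v j⟫) (by omega) hc.norm1 hc.hp (fun i j => by rw [real_inner_comm])
      (fun i hi j hj hij => by linarith [hc.neg i hi j hj hij]) (fun i hi => ?_)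
      (hCe ι n s v L hc (by omega)) (hJ ι n s v L hc) (fun h4 i hi hp => ?_)
    · have h0 : ⟪v i, ∑ j ∈ s, v j⟫ = 0 := by rw [hc.zero, inner_zero_right]
      rw [← Finset.add_sum_erase s v hi, inner_add_right, inner_sum, real_inner_self_eq_norm_sq]
        at h0
      rw [Finset.sum_neg_distrib]
      linarith
    · rw [Real.sqrt_sq (norm_nonneg _)]
      exact hC4 ι n s v L hc h4 i hi hp

theorem main_fin (hB : BaseStmt) (hCr : CritStmt) (hCe : CellStmt) (hC4 : Cell4Stmt) (hJ : JtStmt)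
    (hF : FinStmt) (n k : ℕ) (A : Fin k → Set (Eu n)) (hA : ∀ i, MeasurableSet (A i))
    (hdisj : Pairwise fun i j => Disjoint (A i) (A j)) (hcov : ⋃ i, A i = Set.univ) :
    ∑ i, ‖∫ x in A i, x ∂gam n‖ ^ 2 ≤ 9 / (8 * Real.pi) := by
  rcases Nat.eq_zero_or_pos k with rfl | hk
  · have := Real.pi_pos
    simp only [Finset.univ_eq_empty, Finset.sum_empty]
    positivity
  have hne : (Finset.univ : Finset (Fin k)).Nonempty := ⟨⟨0, hk⟩, Finset.mem_univ _⟩
  set z : Fin k → Eu n := fun i => ∫ x in A i, x ∂gam n with hz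
  have hb := allBd hB hCr hCe hC4 hJ hF (Fin k) n Finset.univ hne z
  have hid : Integrable (fun x : Eu n => x) (gam n) := IsGaussian.integrable_id
  have h1 : ∑ i, ‖z i‖ ^ 2 ≤ F Finset.univ z := by
    have h2 : F Finset.univ z = ∑ i, ∫ x in A i, mx Finset.univ z x ∂gam n := by
      unfold F
      rw [← integral_iUnion_fintype hA hdisj (fun i => (integrable_mx _ _).integrableOn), hcov,
        Measure.restrict_univ]
    rw [h2]
    refine Finset.sum_le_sum fun i _ => ?_
    have h3 : ‖z i‖ ^ 2 = ∫ x in A i, ⟪z i, x⟫ ∂gam n := by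
      rw [integral_inner hid.integrableOn, real_inner_self_eq_norm_sq]
    rw [h3]
    exact integral_mono (integrable_inner _).integrableOn (integrable_mx _ _).integrableOn
      fun x => le_mx z x (Finset.mem_univ i)
  have hS : 0 ≤ ∑ i, ‖z i‖ ^ 2 := Finset.sum_nonneg fun i _ => sq_nonneg _
  rw [← lam_sq]
  have h4 := h1.trans hb
  have h5 := Real.sq_sqrt hS
  have h6 := Real.sqrt_nonneg (∑ i, ‖z i‖ ^ 2)
  nlinarith [sq_nonneg (lam - √(∑ i, ‖z i‖ ^ 2))]

universe u v

theorem main (hB : BaseStmt) (hCr : CritStmt) (hCe : CellStmt) (hC4 : Cell4Stmt) (hJ : JtStmt)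
    (hF : FinStmt)
    (E : Type u) [NormedAddCommGroup E] [InnerProductSpace ℝ E] [FiniteDimensional ℝ E]
    [MeasurableSpace E] [BorelSpace E]
    (ι : Type v) [Fintype ι] (A : ι → Set E)
    (hA : ∀ i, MeasurableSet (A i))
    (hdisj : Pairwise fun i j => Disjoint (A i) (A j))
    (hcov : ⋃ i, A i = Set.univ) :
    ∑ i, ‖∫ x in A i, x ∂stdGaussian E‖ ^ 2 ≤ 9 / (8 * Real.pi) := by
  let f : E ≃ₗᵢ[ℝ] Eu (Module.finrank ℝ E) := (stdOrthonormalBasis ℝ E).repr
  let e := Fintype.equivFin ι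
  have hfm : Measurable f.symm := f.symm.continuous.measurable
  have h := main_fin hB hCr hCe hC4 hJ hF (Module.finrank ℝ E) (Fintype.card ι)
    (fun i => f.symm ⁻¹' A (e.symm i)) (fun i => hfm (hA _))
    (fun i j hij => (hdisj (e.symm.injective.ne hij)).preimage _) (by
      rw [← Set.preimage_iUnion, e.symm.surjective.iUnion_comp A, hcov, Set.preimage_univ])
  have key : ∀ B : Set E, MeasurableSet B →
      ‖∫ x in f.symm ⁻¹' B, x ∂gam (Module.finrank ℝ E)‖ = ‖∫ x in B, x ∂stdGaussian E‖ := by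
    intro B hB'
    have hm := stdGaussian_map (E := E) f
    show ‖∫ x in f.symm ⁻¹' B, x ∂stdGaussian _‖ = _
    rw [← hm, setIntegral_map (hfm hB') (by fun_prop) f.continuous.aemeasurable]
    have : f ⁻¹' (f.symm ⁻¹' B) = B := by ext x; simp
    rw [this]
    have h2 := f.toLinearIsometry.integral_comp_comm (μ := (stdGaussian E).restrict B)
      (fun x => x)
    simp only [LinearIsometryEquiv.coe_toLinearIsometry] at h2
    rw [h2, f.norm_map]
  simp only [key _ (hA _)] at h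
  rw [← e.symm.sum_comp]
  exact h

end Crest.Agent.R215
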