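import Crest.Agent.R215.Defs

/-! Row 215, task MAXP: Borell's maximum principle. -/

set_option autoImplicit false

namespace Crest.Agent.R215

open MeasureTheory ProbabilityTheory Filter Topology Set

noncomputable section

namespace MP

lemma second {g h : ℝ → ℝ} {q : ℝ} (hg : ∀ s, HasDerivAt g (h s) s) (hh : HasDerivAt h q 0)
    (hmin : ∀ s, g 0 ≤ g s) : 0 ≤ q := by
  have h0 : h 0 = 0 := (IsLocalMin.hasDerivAt_eq_zero (Eventually.of_forall hmin) (hg 0))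
  by_contra hq
  push Not at hq
  have h1 := (hasDerivAt_iff_tendsto_slope.1 hh).eventually (Iio_mem_nhds hq)
  have h2 : ∀ᶠ s in 𝓝[>] (0 : ℝ), h s < 0 := by
    filter_upwards [nhdsWithin_mono _ (fun s (hs : s ∈ Ioi (0 : ℝ)) => ne_of_gt hs) h1,
      self_mem_nhdsWithin] with s hs hs0
    have hs' : slope h 0 s < 0 := hs
    rw [slope_def_field, h0, sub_zero, sub_zero] at hs'
    have : (0 : ℝ) < s := hs0
    by_contra hc
    push Not at hc
    exact absurd hs' (not_lt.2 (div_nonneg hc this.le))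
  obtain ⟨δ, hδ, hδ'⟩ := (nhdsGT_basis (0 : ℝ)).eventually_iff.1 h2
  obtain ⟨c, hc, hc'⟩ := exists_hasDerivAt_eq_slope g h (a := 0) (b := δ) hδ
    (fun s _ => (hg s).continuousAt.continuousWithinAt) (fun s _ => hg s)
  have h3 := hδ' hc
  rw [hc', sub_zero] at h3
  exact absurd h3 (not_lt.2 (div_nonneg (by linarith [hmin δ]) hδ.le))

lemma left {g : ℝ → ℝ} {d t : ℝ} (hg : HasDerivAt g d t) (ht : 0 < t)
    (hmin : ∀ s ∈ Ico 0 t, g t ≤ g s) : d ≤ 0 := by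
  have h1 := (hasDerivAt_iff_tendsto_slope.1 hg).mono_left
    (nhdsWithin_mono _ (fun s (hs : s ∈ Iio t) => ne_of_lt hs))
  refine le_of_tendsto h1 ?_
  filter_upwards [Ioo_mem_nhdsLT ht] with s hs
  rw [slope_def_field]
  exact div_nonpos_of_nonneg_of_nonpos (by linarith [hmin s ⟨hs.1.le, hs.2⟩]) (by linarith [hs.2])

lemma dle {L : ℝ} {f : ℝ → ℝ} (h : Lip L f) {d x : ℝ} (hd : HasDerivAt f d x) (hL : 0 ≤ L) :
    |d| ≤ L :=
  hd.le_of_lip' hL (Eventually.of_forall fun y => h y x)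

lemma bd {L : ℝ} {u : ℝ → ℝ → ℝ} (h : Sol L u) :
    ∃ A, 0 ≤ A ∧ ∀ t ∈ Icc (0 : ℝ) 1, ∀ x, |u t x| ≤ A + L * |x| := by
  have hc : Continuous fun t => u t 0 := h.cont.comp (Continuous.prodMk_left 0)
  obtain ⟨A, hA⟩ := isCompact_Icc.exists_bound_of_continuousOn (s := Icc (0 : ℝ) 1)
    hc.continuousOn
  refine ⟨A, (norm_nonneg _).trans (hA 0 ⟨le_rfl, zero_le_one⟩), fun t ht x => ?_⟩
  have h1 := h.lip t x 0
  have h2 := hA t ht
  rw [sub_zero, Real.norm_eq_abs] at h1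
  rw [Real.norm_eq_abs] at h2
  linarith [abs_sub_abs_le_abs_sub (u t x) (u t 0)]

lemma fin {L A ε E x y c a0 a1 P0 P1 P2 Q0 Q1 Q2 : ℝ} (hL : 0 ≤ L) (hA : 0 ≤ A) (hε : 0 < ε)
    (hEpos : 0 < E) (hx : E * (P2 * (1 / 2) - P0 / 2) + ε * (2 * x) = 0)
    (hy : E * (P2 * (1 / 2) - P1 / 2) + ε * (2 * y) = 0)
    (hq : 0 ≤ E * (Q2 - (Q0 + Q1) / 2) + ε * 4)
    (htd : E * (-(3 + 2 * L * A + 2 * L ^ 2)) * c + E * ((Q2 / 2 - (c + (a0 + a1) / 2) * P2 ^ 2 / 2) -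
      ((Q0 / 2 - a0 * P0 ^ 2 / 2) + (Q1 / 2 - a1 * P1 ^ 2 / 2)) / 2) ≤ 0)
    (l0 : |P0| ≤ L) (l1 : |P1| ≤ L) (l2 : |P2| ≤ L) (e0 : |a0| ≤ A + L * |x|)
    (e1 : |a1| ≤ A + L * |y|) (hD' : E * c + ε * (1 + x ^ 2 + y ^ 2) ≤ 0) : False := by
  set K := 3 + 2 * L * A + 2 * L ^ 2 with hKdef
  have hK : 0 < K := by positivity
  have hEc : E * c ≤ 0 := by
    have : 0 < ε * (1 + x ^ 2 + y ^ 2) := by positivity
    linarith
  have k1 : E * (-K) * c + E * ((Q2 / 2 - (c + (a0 + a1) / 2) * P2 ^ 2 / 2) -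
      ((Q0 / 2 - a0 * P0 ^ 2 / 2) + (Q1 / 2 - a1 * P1 ^ 2 / 2)) / 2) =
      -K * (E * c) + E * (Q2 - (Q0 + Q1) / 2) / 2 - (E * c) * P2 ^ 2 / 2 +
        ε * (a0 * x * (P2 + P0)) + ε * (a1 * y * (P2 + P1)) := by
    linear_combination (-(a0 * (P2 + P0)) / 2) * hx + (-(a1 * (P2 + P1)) / 2) * hy
  have k2 : ∀ a z P : ℝ, |a| ≤ A + L * |z| → |P| ≤ L →
      -(L * A * (1 + z ^ 2) + 2 * L ^ 2 * z ^ 2) ≤ a * z * (P2 + P) := by
    intro a z P ha hP
    have m1 : |P2 + P| ≤ 2 * L := by linarith [abs_add_le P2 P]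
    have m2 : |a * z * (P2 + P)| ≤ (A + L * |z|) * |z| * (2 * L) := by
      rw [abs_mul, abs_mul]; gcongr
    have m3 : 2 * |z| ≤ 1 + z ^ 2 := by rw [← sq_abs z]; nlinarith [sq_nonneg (|z| - 1)]
    have m4 : L * A * (2 * |z|) ≤ L * A * (1 + z ^ 2) := by gcongr
    have m5 : (A + L * |z|) * |z| * (2 * L) = L * A * (2 * |z|) + 2 * L ^ 2 * z ^ 2 := by
      rw [← sq_abs z]; ring
    linarith [(abs_le.1 m2).1]
  have k3 := mul_le_mul_of_nonneg_left (k2 a0 x P0 e0 l0) hε.le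
  have k4 := mul_le_mul_of_nonneg_left (k2 a1 y P1 e1 l1) hε.le
  have k5 : K * (ε * (1 + x ^ 2 + y ^ 2)) ≤ -K * (E * c) := by
    have := mul_le_mul_of_nonneg_left hD' hK.le
    linarith
  have k6 : 0 ≤ -((E * c) * P2 ^ 2 / 2) := by
    have := mul_nonneg (neg_nonneg.2 hEc) (sq_nonneg P2)
    linarith
  have k7 : K * (ε * (1 + x ^ 2 + y ^ 2)) = ε * (3 + 2 * L * A + 2 * L ^ 2 +
      (3 + 2 * L * A + 2 * L ^ 2) * (x ^ 2 + y ^ 2)) := by rw [hKdef]; ring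
  have k8 : 0 ≤ ε * (2 * L ^ 2 + (3 + L * A) * (x ^ 2 + y ^ 2)) := by positivity
  rw [k1] at htd
  linarith

end MP

open MP in
theorem maxp : MaxpStmt := by
  intro L u0 u1 u2 h0 h1 h2 hmid x1 y1
  have hL : 0 ≤ L := by
    have := h0.lip 0 1 0
    simp only [sub_zero, norm_one, mul_one] at this
    exact (abs_nonneg _).trans this
  obtain ⟨A0, hA0, b0⟩ := bd h0
  obtain ⟨A1, hA1, b1⟩ := bd h1
  obtain ⟨A2, hA2, b2⟩ := bd h2
  obtain ⟨A, hA, c0, c1, c2⟩ : ∃ A, 0 ≤ A ∧ (∀ t ∈ Icc (0 : ℝ) 1, ∀ x, |u0 t x| ≤ A + L * |x|) ∧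
      (∀ t ∈ Icc (0 : ℝ) 1, ∀ x, |u1 t x| ≤ A + L * |x|) ∧
      (∀ t ∈ Icc (0 : ℝ) 1, ∀ x, |u2 t x| ≤ A + L * |x|) :=
    ⟨A0 + A1 + A2, by positivity, fun t ht x => by linarith [b0 t ht x],
      fun t ht x => by linarith [b1 t ht x], fun t ht x => by linarith [b2 t ht x]⟩
  clear b0 b1 b2
  obtain ⟨p0, q0, d0⟩ := h0.pde
  obtain ⟨p1, q1, d1⟩ := h1.pde
  obtain ⟨p2, q2, d2⟩ := h2.pde
  let K : ℝ := 3 + 2 * L * A + 2 * L ^ 2
  have hK : 0 < K := by positivity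
  let C : ℝ → ℝ → ℝ → ℝ := fun t x y => u2 t ((x + y) / 2) - (u0 t x + u1 t y) / 2
  have hsm : ∀ x y : ℝ, (1 / 2 : ℝ) • (x + y) = (x + y) / 2 := fun x y => by
    rw [smul_eq_mul]; ring
  by_contra hcon
  rw [hsm] at hcon
  have hC1 : C 1 x1 y1 < 0 := by simp only [C]; linarith
  obtain ⟨ε, hε, hε1⟩ : ∃ ε : ℝ, 0 < ε ∧
      Real.exp (-K * 1) * C 1 x1 y1 + ε * (1 + x1 ^ 2 + y1 ^ 2) ≤ 0 := by
    refine ⟨-(Real.exp (-K * 1) * C 1 x1 y1) / (1 + x1 ^ 2 + y1 ^ 2), ?_, ?_⟩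
    · exact div_pos (neg_pos.2 (mul_neg_of_pos_of_neg (Real.exp_pos _) hC1)) (by positivity)
    · rw [div_mul_cancel₀ _ (by positivity)]; linarith
  let D : ℝ × ℝ × ℝ → ℝ := fun p =>
    Real.exp (-K * p.1) * C p.1 p.2.1 p.2.2 + ε * (1 + p.2.1 ^ 2 + p.2.2 ^ 2)
  have hDc : Continuous D := by
    have e0 : Continuous fun p : ℝ × ℝ × ℝ => u0 p.1 p.2.1 :=
      h0.cont.comp (f := fun p : ℝ × ℝ × ℝ => (p.1, p.2.1)) (by fun_prop)
    have e1 : Continuous fun p : ℝ × ℝ × ℝ => u1 p.1 p.2.2 :=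
      h1.cont.comp (f := fun p : ℝ × ℝ × ℝ => (p.1, p.2.2)) (by fun_prop)
    have e2 : Continuous fun p : ℝ × ℝ × ℝ => u2 p.1 ((p.2.1 + p.2.2) / 2) :=
      h2.cont.comp (f := fun p : ℝ × ℝ × ℝ => (p.1, (p.2.1 + p.2.2) / 2)) (by fun_prop)
    exact ((by fun_prop : Continuous fun p : ℝ × ℝ × ℝ => Real.exp (-K * p.1)).mul
      (e2.sub ((e0.add e1).div_const 2))).add (by fun_prop)
  let S : Set (ℝ × ℝ × ℝ) := {p | p.1 ∈ Icc (0 : ℝ) 1 ∧ D p ≤ 0}
  let R : ℝ := 2 * (2 * A + L) / ε + 1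
  have hS : IsCompact S := by
    refine ((isCompact_Icc (a := (0 : ℝ)) (b := 1)).prod
      ((isCompact_Icc (a := -R) (b := R)).prod (isCompact_Icc (a := -R) (b := R)))).of_isClosed_subset
      ((isClosed_Icc.preimage continuous_fst).inter (isClosed_le hDc continuous_const)) ?_
    rintro ⟨t, x, y⟩ ⟨ht, hD⟩
    have e0 := c0 t ht x
    have e1 := c1 t ht y
    have e2 := c2 t ht ((x + y) / 2)
    have e3 : |(x + y) / 2| ≤ (|x| + |y|) / 2 := by
      rw [abs_div, abs_two]; linarith [abs_add_le x y]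
    have e4 : |C t x y| ≤ 2 * A + L * (|x| + |y|) := by
      simp only [C]
      have := mul_le_mul_of_nonneg_left e3 hL
      rw [abs_le] at e0 e1 e2 ⊢
      constructor <;> nlinarith [e0.1, e0.2, e1.1, e1.2, e2.1, e2.2]
    have e5 : Real.exp (-K * t) ≤ 1 := Real.exp_le_one_iff.2 (by nlinarith [ht.1])
    have e6 : |Real.exp (-K * t) * C t x y| ≤ 2 * A + L * (|x| + |y|) := by
      rw [abs_mul, abs_of_pos (Real.exp_pos _)]
      exact (mul_le_of_le_one_left (abs_nonneg _) e5).trans e4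
    have e7 : ε * (1 + x ^ 2 + y ^ 2) ≤ 2 * A + L * (|x| + |y|) := by
      have := (abs_le.1 e6).1
      simp only [D] at hD
      linarith
    have e8 : |x| + |y| ≤ R := by
      by_contra hc
      push Not at hc
      have hR : ε * R = 2 * (2 * A + L) + ε := by simp only [R]; field_simp
      have hR1 : 1 ≤ R := by
        have : 0 ≤ 2 * (2 * A + L) / ε := by positivity
        simp only [R]; linarith
      set s := |x| + |y| with hs
      have e9 : s ^ 2 ≤ 2 * (x ^ 2 + y ^ 2) := by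
        rw [hs, ← sq_abs x, ← sq_abs y]; nlinarith [sq_nonneg (|x| - |y|)]
      have e10 : ε * R * s ≤ ε * s * s := by gcongr
      have e11 : ε * s ^ 2 ≤ ε * (2 * (x ^ 2 + y ^ 2)) := by gcongr
      nlinarith
    exact ⟨ht, abs_le.1 (by linarith [abs_nonneg y]), abs_le.1 (by linarith [abs_nonneg x])⟩
  obtain ⟨⟨t, x, y⟩, ⟨ht, hD⟩, hmin⟩ := hS.exists_isMinOn ⟨(1, x1, y1), ⟨zero_le_one, le_rfl⟩, hε1⟩
    hDc.continuousOn
  have hmin' : ∀ p : ℝ × ℝ × ℝ, p.1 ∈ Icc (0 : ℝ) 1 → D (t, x, y) ≤ D p := by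
    intro p hp
    by_cases h : D p ≤ 0
    · exact hmin ⟨hp, h⟩
    · linarith
  change t ∈ Icc (0 : ℝ) 1 at ht
  have ht0 : 0 < t := by
    rcases ht.1.eq_or_lt with h | h
    · subst h
      have := hmid x y
      rw [hsm] at this
      have h3 : 0 < ε * (1 + x ^ 2 + y ^ 2) := by positivity
      simp only [D, C, mul_zero, Real.exp_zero, one_mul] at hD
      linarith
    · exact h
  set E := Real.exp (-K * t) with hE
  have hEpos : 0 < E := Real.exp_pos _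
  -- first-order conditions
  have hx : E * (p2 t ((x + y) / 2) * (1 / 2) - p0 t x / 2) + ε * (2 * x) = 0 := by
    have e1 : HasDerivAt (fun x' => (x' + y) / 2) (1 / 2) x :=
      ((hasDerivAt_id x).add_const y).div_const 2
    have e2 := (d2 t ((x + y) / 2) ht0).1.comp x e1
    have e3 := (((d0 t x ht0).1.add_const (u1 t y)).div_const 2)
    have e4 : HasDerivAt (fun x' : ℝ => 1 + x' ^ 2 + y ^ 2) (2 * x) x := by
      simpa using ((hasDerivAt_pow 2 x).const_add 1).add_const (y ^ 2)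
    have e5 : HasDerivAt (fun x' => D (t, x', y)) _ x :=
      ((e2.sub e3).const_mul E).add (e4.const_mul ε)
    exact IsLocalMin.hasDerivAt_eq_zero (Eventually.of_forall fun x' => hmin' (t, x', y) ht) e5
  have hy : E * (p2 t ((x + y) / 2) * (1 / 2) - p1 t y / 2) + ε * (2 * y) = 0 := by
    have e1 : HasDerivAt (fun y' => (x + y') / 2) (1 / 2) y :=
      ((hasDerivAt_id y).const_add x).div_const 2
    have e2 := (d2 t ((x + y) / 2) ht0).1.comp y e1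
    have e3 := (((d1 t y ht0).1.const_add (u0 t x)).div_const 2)
    have e4 : HasDerivAt (fun y' : ℝ => 1 + x ^ 2 + y' ^ 2) (2 * y) y := by
      simpa using ((hasDerivAt_pow 2 y).const_add (1 + x ^ 2))
    have e5 : HasDerivAt (fun y' => D (t, x, y')) _ y :=
      ((e2.sub e3).const_mul E).add (e4.const_mul ε)
    exact IsLocalMin.hasDerivAt_eq_zero (Eventually.of_forall fun y' => hmin' (t, x, y') ht) e5
  -- second-order condition along the diagonal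
  have hq : 0 ≤ E * (q2 t ((x + y) / 2) - (q0 t x + q1 t y) / 2) + ε * 4 := by
    have a1 : ∀ s : ℝ, HasDerivAt (fun s : ℝ => x + s) 1 s := fun s => (hasDerivAt_id s).const_add x
    have a2 : ∀ s : ℝ, HasDerivAt (fun s : ℝ => y + s) 1 s := fun s => (hasDerivAt_id s).const_add y
    have a3 : ∀ s : ℝ, HasDerivAt (fun s : ℝ => (x + s + (y + s)) / 2) 1 s := fun s =>
      (((a1 s).add (a2 s)).div_const 2).congr_deriv (by norm_num)
    refine second (g := fun s => D (t, x + s, y + s))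
      (h := fun s => E * (p2 t ((x + s + (y + s)) / 2) - (p0 t (x + s) + p1 t (y + s)) / 2) +
        ε * (2 * (x + s) + 2 * (y + s))) (fun s => ?_) ?_ (fun s => ?_)
    · have e2 := (d2 t ((x + s + (y + s)) / 2) ht0).1.comp s (a3 s)
      have e3 := (((d0 t (x + s) ht0).1.comp s (a1 s)).add
        ((d1 t (y + s) ht0).1.comp s (a2 s))).div_const 2
      have e4 := (((a1 s).pow 2).const_add 1).add ((a2 s).pow 2)
      refine (((e2.sub e3).const_mul E).add (e4.const_mul ε)).congr_deriv ?_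
      simp
    · have e2 := (d2 t ((x + 0 + (y + 0)) / 2) ht0).2.1.comp 0 (a3 0)
      have e3 := (((d0 t (x + 0) ht0).2.1.comp 0 (a1 0)).add
        ((d1 t (y + 0) ht0).2.1.comp 0 (a2 0))).div_const 2
      have e4 := ((a1 0).const_mul 2).add ((a2 0).const_mul 2)
      refine (((e2.sub e3).const_mul E).add (e4.const_mul ε)).congr_deriv ?_
      simp; norm_num
    · simpa using hmin' (t, x + s, y + s) ht
  -- time derivative
  have htd : E * (-K) * C t x y + E * ((q2 t ((x + y) / 2) / 2 -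
      u2 t ((x + y) / 2) * p2 t ((x + y) / 2) ^ 2 / 2) -
      ((q0 t x / 2 - u0 t x * p0 t x ^ 2 / 2) + (q1 t y / 2 - u1 t y * p1 t y ^ 2 / 2)) / 2) ≤ 0 := by
    have e1 : HasDerivAt (fun τ => Real.exp (-K * τ)) (E * (-K)) t := by
      exact (((hasDerivAt_id t).const_mul (-K)).exp).congr_deriv (by rw [mul_one]; rfl)
    have e2 := (d2 t ((x + y) / 2) ht0).2.2.sub
      (((d0 t x ht0).2.2.add (d1 t y ht0).2.2).div_const 2)
    have e5 : HasDerivAt (fun τ => D (τ, x, y)) _ t :=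
      (e1.mul e2).add_const (ε * (1 + x ^ 2 + y ^ 2))
    exact left e5 ht0 (fun s hs => hmin' (s, x, y) ⟨hs.1, hs.2.le.trans ht.2⟩)
  have l0 := dle (h0.lip t) (d0 t x ht0).1 hL
  have l1 := dle (h1.lip t) (d1 t y ht0).1 hL
  have l2 := dle (h2.lip t) (d2 t ((x + y) / 2) ht0).1 hL
  have e0 := c0 t ht x
  have e1 := c1 t ht y
  have hD' : E * C t x y + ε * (1 + x ^ 2 + y ^ 2) ≤ 0 := hD
  have hu2 : u2 t ((x + y) / 2) = C t x y + (u0 t x + u1 t y) / 2 := by simp only [C]; ring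
  rw [hu2] at htd
  exact fin hL hA hε hEpos hx hy hq htd l0 l1 l2 e0 e1 hD'

end

end Crest.Agent.R215
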