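import Crest.Agent.R215.Num

/-! Row 215: numerical nodes (generated). -/

set_option autoImplicit false
set_option linter.unusedVariables false

namespace Crest.Agent.R215.Num

open Finset

lemma n20 (hP : PhiB) : Node 2 (18 / 3125) (17 / 2000) :=
  node hP _ _ _ (6749 / 125000) (22749 / 1000000) (by norm_num) (by norm_num [S, sum_range_succ, Nat.factorial])
    (by norm_num [T, sum_range_succ, Nat.factorial]) (by norm_num [S, sum_range_succ, Nat.factorial])
    (by norm_num) (by norm_num)

lemma n15 (hP : PhiB) : Node (3 / 2) (571 / 25000) (2931 / 100000) :=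
  node hP _ _ _ (64759 / 500000) (66807 / 1000000) (by norm_num) (by norm_num [S, sum_range_succ, Nat.factorial])
    (by norm_num [T, sum_range_succ, Nat.factorial]) (by norm_num [S, sum_range_succ, Nat.factorial])
    (by norm_num) (by norm_num)

lemma n12 (hP : PhiB) : Node (6 / 5) (2387 / 50000) (5611 / 100000) :=
  node hP _ _ _ (194187 / 1000000) (115069 / 1000000) (by norm_num) (by norm_num [S, sum_range_succ, Nat.factorial])
    (by norm_num [T, sum_range_succ, Nat.factorial]) (by norm_num [S, sum_range_succ, Nat.factorial])
    (by norm_num) (by norm_num)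

lemma n10 (hP : PhiB) : Node 1 (7533 / 100000) (2083 / 25000) :=
  node hP _ _ _ (241971 / 1000000) (31731 / 200000) (by norm_num) (by norm_num [S, sum_range_succ, Nat.factorial])
    (by norm_num [T, sum_range_succ, Nat.factorial]) (by norm_num [S, sum_range_succ, Nat.factorial])
    (by norm_num) (by norm_num)

lemma n08 (hP : PhiB) : Node (4 / 5) (723 / 6250) (12021 / 100000) :=
  node hP _ _ _ (72423 / 250000) (42371 / 200000) (by norm_num) (by norm_num [S, sum_range_succ, Nat.factorial])
    (by norm_num [T, sum_range_succ, Nat.factorial]) (by norm_num [S, sum_range_succ, Nat.factorial])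
    (by norm_num) (by norm_num)

lemma n06 (hP : PhiB) : Node (3 / 5) (2163 / 12500) (4217 / 25000) :=
  node hP _ _ _ (13329 / 40000) (274253 / 1000000) (by norm_num) (by norm_num [S, sum_range_succ, Nat.factorial])
    (by norm_num [T, sum_range_succ, Nat.factorial]) (by norm_num [S, sum_range_succ, Nat.factorial])
    (by norm_num) (by norm_num)

lemma n05 (hP : PhiB) : Node (1 / 2) (20963 / 100000) (989 / 5000) :=
  node hP _ _ _ (176033 / 500000) (308537 / 1000000) (by norm_num) (by norm_num [S, sum_range_succ, Nat.factorial])
    (by norm_num [T, sum_range_succ, Nat.factorial]) (by norm_num [S, sum_range_succ, Nat.factorial])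
    (by norm_num) (by norm_num)

lemma n04 (hP : PhiB) : Node (2 / 5) (631 / 2500) (5761 / 25000) :=
  node hP _ _ _ (368271 / 1000000) (172289 / 500000) (by norm_num) (by norm_num [S, sum_range_succ, Nat.factorial])
    (by norm_num [T, sum_range_succ, Nat.factorial]) (by norm_num [S, sum_range_succ, Nat.factorial])
    (by norm_num) (by norm_num)

lemma n03 (hP : PhiB) : Node (3 / 10) (6041 / 20000) (26677 / 100000) :=
  node hP _ _ _ (95347 / 250000) (47761 / 125000) (by norm_num) (by norm_num [S, sum_range_succ, Nat.factorial])
    (by norm_num [T, sum_range_succ, Nat.factorial]) (by norm_num [S, sum_range_succ, Nat.factorial])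
    (by norm_num) (by norm_num)

end Crest.Agent.R215.Num
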