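import Crest.Agent.R215.Defs

/-! Row 215: numerical enclosures of `phi`, `Phi` at rational nodes. -/

set_option autoImplicit false

namespace Crest.Agent.R215.Num

open Finset

noncomputable section

def T (n : ℕ) (y : ℝ) : ℝ := ∑ i ∈ range n, (-y) ^ i / (i.factorial : ℝ)
def S (n : ℕ) (x : ℝ) : ℝ :=
  ∑ i ∈ range n, (-1) ^ i * x ^ (2 * i + 1) / (2 ^ i * (i.factorial : ℝ) * (2 * i + 1))

lemma dT (n : ℕ) (y : ℝ) : HasDerivAt (T (n + 1)) (-T n y) y := by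
  induction n with
  | zero =>
    have : T 1 = fun _ => 1 := by ext; simp [T]
    rw [this]; simpa [T] using hasDerivAt_const y (1 : ℝ)
  | succ n ih =>
    have e : T (n + 1 + 1) = fun y => T (n + 1) y + (-y) ^ (n + 1) / ((n + 1).factorial : ℝ) := by
      ext; simp [T, sum_range_succ]
    rw [e]
    have h := (((hasDerivAt_id' y).fun_neg.fun_pow (n + 1)).div_const ((n + 1).factorial : ℝ))
    refine (ih.fun_add h).congr_deriv ?_
    have : ((n + 1).factorial : ℝ) = (n + 1) * n.factorial := by simp [Nat.factorial_succ]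
    have h0 : (n.factorial : ℝ) ≠ 0 := by positivity
    simp only [T, sum_range_succ, this, Nat.add_sub_cancel]
    push_cast; field_simp; ring

lemma nonneg_of_deriv {f f' : ℝ → ℝ} (hd : ∀ y, HasDerivAt f (f' y) y) (h0 : f 0 = 0)
    (hp : ∀ y, 0 ≤ y → 0 ≤ f' y) {y : ℝ} (hy : 0 ≤ y) : 0 ≤ f y := by
  have hm : MonotoneOn f (Set.Ici 0) := by
    refine monotoneOn_of_deriv_nonneg (convex_Ici 0)
      (fun z _ => (hd z).continuousAt.continuousWithinAt)
      (fun z _ => (hd z).differentiableAt.differentiableWithinAt) fun z hz => ?_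
    rw [(hd z).deriv]; rw [interior_Ici] at hz; exact hp z (le_of_lt hz)
  have := hm (Set.mem_Ici.2 le_rfl) hy hy
  linarith

lemma alt (n : ℕ) : ∀ y, 0 ≤ y → 0 ≤ (-1) ^ n * (Real.exp (-y) - T n y) := by
  induction n with
  | zero => intro y _; simp [T, (Real.exp_pos _).le]
  | succ n ih =>
    intro y hy
    refine nonneg_of_deriv (f := fun y => (-1) ^ (n + 1) * (Real.exp (-y) - T (n + 1) y))
      (f' := fun y => (-1) ^ n * (Real.exp (-y) - T n y)) (fun z => ?_) ?_ ih hy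
    · have h := (((hasDerivAt_id' z).fun_neg.exp).fun_sub (dT n z)).const_mul ((-1 : ℝ) ^ (n + 1))
      refine h.congr_deriv ?_
      ring
    · simp [T, sum_range_succ']

lemma dS (n : ℕ) (x : ℝ) : HasDerivAt (S n) (T n (x ^ 2 / 2)) x := by
  unfold S T
  refine HasDerivAt.fun_sum fun i _ => ?_
  have h := (((hasDerivAt_id' x).fun_pow (2 * i + 1)).const_mul ((-1 : ℝ) ^ i)).div_const
    (2 ^ i * (i.factorial : ℝ) * (2 * i + 1))
  refine h.congr_deriv ?_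
  have h0 : (i.factorial : ℝ) ≠ 0 := by positivity
  simp only [Nat.add_sub_cancel]
  push_cast
  rw [neg_pow (x ^ 2 / 2), div_pow, ← pow_mul]; field_simp

def cc : ℝ := 1 / √(2 * Real.pi)

lemma cc_pos : 0 < cc := by unfold cc; have := Real.pi_pos; positivity

lemma cc_le : cc ≤ 0.3989424 := by
  have h := Real.pi_gt_d6
  unfold cc
  rw [div_le_iff₀ (by positivity)]
  have : (2.506628 : ℝ) ≤ √(2 * Real.pi) := Real.le_sqrt_of_sq_le (by nlinarith)
  nlinarith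

lemma phi_cc (x : ℝ) : phi x = cc * Real.exp (-(x ^ 2 / 2)) := by
  unfold phi cc; rw [neg_div]; ring

lemma exp_le (y : ℝ) (hy : 0 ≤ y) : Real.exp (-y) ≤ T 13 y := by
  have h := alt 13 y hy
  norm_num at h; exact h

lemma phi_le (x : ℝ) : phi x ≤ 0.3989424 * T 13 (x ^ 2 / 2) := by
  rw [phi_cc]
  exact mul_le_mul cc_le (exp_le _ (by positivity)) (Real.exp_pos _).le (by norm_num)

lemma Phi_ge (hP : PhiB) (x : ℝ) (hx : 0 ≤ x) (hS : 0 ≤ S 13 x) :
    1 / 2 - 0.3989424 * S 13 x ≤ Phi (-x) := by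
  have h0 : Phi 0 = 1 / 2 := by have := hP.neg 0; rw [neg_zero] at this; linarith
  have h : 0 ≤ cc * S 13 x - (Phi x - 1 / 2) := by
    refine nonneg_of_deriv (f := fun x => cc * S 13 x - (Phi x - 1 / 2))
      (f' := fun x => cc * T 13 (x ^ 2 / 2) - phi x) (fun z => ?_) ?_ (fun z _ => ?_) hx
    · exact ((dS 13 z).const_mul cc).fun_sub ((hP.deriv z).sub_const _)
    · simp [S, h0]
    · rw [phi_cc, ← mul_sub]
      exact mul_nonneg cc_pos.le (sub_nonneg.2 (exp_le _ (by positivity)))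
  rw [hP.neg]
  nlinarith [mul_le_mul_of_nonneg_right cc_le hS]

def l2 : ℝ := 0.358098

lemma l2_le : l2 ≤ lam ^ 2 := by
  rw [lam_sq, le_div_iff₀ (by have := Real.pi_pos; positivity)]
  have := Real.pi_lt_d6
  unfold l2; nlinarith

lemma l1_le : 0.598412 ≤ lam :=
  le_of_sq_le_sq_of_nonneg' lam_pos.le (by have := l2_le; unfold l2 at this; nlinarith)
where le_of_sq_le_sq_of_nonneg' {a b : ℝ} (hb : 0 ≤ b) (h : a ^ 2 ≤ b ^ 2) : a ≤ b :=
  le_trans (le_abs_self a) (abs_le_of_sq_le_sq h hb |> fun h => h)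

/-- consequences of `CellP` at the node `-x` -/
structure Node (x A J : ℝ) : Prop where
  q : ∀ {r p : ℝ}, CellP r p → l2 * hl r ≤ p ^ 2 - A * p + J ^ 2
  t : ∀ {r p : ℝ}, CellP r p → 0.598412 * √r ≤ J + x * p

lemma hl_nonneg {r : ℝ} (h : 0 < r) : 0 ≤ hl r := by unfold hl; positivity

lemma node (hP : PhiB) (x A J f P : ℝ) (hx : 0 ≤ x) (hS : 0 ≤ S 13 x)
    (hf : 0.3989424 * T 13 (x ^ 2 / 2) ≤ f) (hp : P ≤ 1 / 2 - 0.3989424 * S 13 x)
    (hA : A ≤ (1 + x ^ 2) * P - x * f) (hJ : f - x * P ≤ J) : Node x A J := by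
  have h1 : phi x ≤ f := (phi_le x).trans hf
  have h2 : P ≤ Phi (-x) := hp.trans (Phi_ge hP x hx hS)
  have e : phi (-x) = phi x := by simp [phi]
  have hm := hP.mills (-x)
  rw [e] at hm
  have hJ' : phi x - x * Phi (-x) ≤ J := by nlinarith
  have hA' : A ≤ (1 + x ^ 2) * Phi (-x) - x * phi x := by nlinarith [sq_nonneg x]
  constructor
  · intro r p h
    have := h.q (-x)
    have h3 : l2 * hl r ≤ lam ^ 2 * hl r := mul_le_mul_of_nonneg_right l2_le (hl_nonneg h.rpos)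
    have h4 : (phi x - x * Phi (-x)) ^ 2 ≤ J ^ 2 := pow_le_pow_left₀ (by linarith) hJ' 2
    have h5 := mul_le_mul_of_nonneg_right hA' h.ppos
    unfold Psi psi1 at this
    rw [e] at this
    nlinarith
  · intro r p h
    have := h.t1 x
    have h3 : 0.598412 * √r ≤ lam * √r := mul_le_mul_of_nonneg_right l1_le (Real.sqrt_nonneg _)
    rw [← hP.neg] at this
    linarith

lemma lc0 {r p : ℝ} (h : CellP r p) : l2 * hl r ≤ p ^ 2 - 0 * p + 0 ^ 2 := by
  have := h.lc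
  have h3 : l2 * hl r ≤ lam ^ 2 * hl r := mul_le_mul_of_nonneg_right l2_le (hl_nonneg h.rpos)
  linarith

lemma rmax {r p : ℝ} (h : CellP r p) : r ≤ 4 / 9 := by
  have h1 := h.t1 0
  have h0 : 0 < √(2 * Real.pi) := by have := Real.pi_pos; positivity
  have e : phi 0 = 2 / 3 * lam := by unfold phi lam; simp; field_simp
  have h2 : √r ≤ 2 / 3 := by
    have := lam_pos
    rw [e] at h1; nlinarith
  have := Real.sq_sqrt h.rpos.le
  nlinarith [Real.sqrt_nonneg r]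

/-- a convex quadratic which is negative at both ends is negative in between -/
lemma cvx {a b c u w r : ℝ} (ha : 0 ≤ a) (h1 : u ≤ r) (h2 : r ≤ w) (hu : a * u ^ 2 + b * u + c < 0)
    (hw : a * w ^ 2 + b * w + c < 0) : a * r ^ 2 + b * r + c < 0 := by
  by_contra hn
  push Not at hn
  rcases eq_or_lt_of_le (h1.trans h2) with e | hlt
  · have : r = u := by linarith
    subst this; linarith
  · have k := mul_nonneg ha (mul_nonneg (sub_nonneg.2 h1) (sub_nonneg.2 h2))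
    have k1 := mul_nonneg (sub_nonneg.2 h2) (neg_nonneg.2 hu.le)
    have k2 := mul_nonneg (sub_nonneg.2 h1) (neg_nonneg.2 hw.le)
    have k3 := mul_nonneg (sub_nonneg.2 hlt.le) hn
    have k4 := mul_nonneg (sub_nonneg.2 hlt.le) k
    rcases eq_or_lt_of_le h1 with e | h1'
    · subst e; linarith
    · have := mul_pos (sub_pos.2 h1') (neg_pos.2 hw)
      nlinarith

/-- piece from a `Q`-node -/
lemma qline {A J α β u w r p : ℝ} (h : l2 * hl r ≤ p ^ 2 - A * p + J ^ 2) (hp : 0 ≤ p)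
    (h1 : u ≤ r) (h2 : r ≤ w) (hu : 0 ≤ u) (hβ : l2 / 8 ≤ β ^ 2) (hB : J ^ 2 < l2 * (u / 2))
    (e1 : (α + β * u) ^ 2 - A * (α + β * u) + J ^ 2 < l2 * hl u)
    (e2 : (α + β * w) ^ 2 - A * (α + β * w) + J ^ 2 <
      l2 * (w / 2 + w ^ 2 / 8 + (u ^ 3 + 3 * u ^ 2 * (w - u)) / 16)) : α + β * r ≤ p := by
  have l : 0 < l2 := by unfold l2; norm_num
  have hr : 0 ≤ r := hu.trans h1
  have c3 : u ^ 3 + 3 * u ^ 2 * (r - u) ≤ r ^ 3 := by
    nlinarith [mul_nonneg (sq_nonneg (r - u)) (add_nonneg hr (add_nonneg hu hu))]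
  have k := cvx (a := β ^ 2 - l2 / 8) (b := 2 * α * β - A * β - l2 / 2 - l2 * (3 * u ^ 2 / 16))
    (c := α ^ 2 - A * α + J ^ 2 + l2 * (2 * u ^ 3 / 16)) (by linarith) h1 h2
    (by unfold hl at e1; nlinarith) (by nlinarith)
  have k2 : (α + β * r) ^ 2 - A * (α + β * r) + J ^ 2 < l2 * hl r := by
    unfold hl; nlinarith [mul_le_mul_of_nonneg_left c3 l.le]
  have k3 : J ^ 2 < l2 * hl r := by
    have : u / 2 ≤ hl r := by unfold hl; nlinarith [pow_nonneg hr 3, sq_nonneg r]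
    nlinarith
  by_contra hn
  push Not at hn
  rcases le_total p A with c | c
  · nlinarith
  · nlinarith [mul_nonneg (sub_nonneg.2 hn.le) (by linarith : 0 ≤ α + β * r + p - A)]

lemma sqrt_chord {u w su sw r : ℝ} (h1 : u ≤ r) (h2 : r ≤ w) (huw : u < w) (a : su ^ 2 < u)
    (b : sw ^ 2 < w) : (su * (w - r) + sw * (r - u)) / (w - u) ≤ √r := by
  apply Real.le_sqrt_of_sq_le
  have hd : 0 < w - u := sub_pos.2 huw
  set k := (sw - su) / (w - u) with hk
  have e : ∀ z, (su * (w - z) + sw * (z - u)) / (w - u) = su + k * (z - u) := by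
    intro z; rw [hk]; field_simp; ring
  have ew : su + k * (w - u) = sw := by rw [hk]; field_simp; ring
  have := cvx (a := k ^ 2) (b := 2 * k * (su - k * u) - 1) (c := (su - k * u) ^ 2) (sq_nonneg k)
    h1 h2 (by nlinarith) (by rw [← ew] at b; nlinarith)
  rw [e]; nlinarith

/-- a linear function below `c √r` at both ends -/
lemma sline {c a b u w su sw r : ℝ} (hc : 0 ≤ c) (h1 : u ≤ r) (h2 : r ≤ w) (huw : u < w)
    (ha : su ^ 2 < u) (hb : sw ^ 2 < w) (e1 : a + b * u ≤ c * su) (e2 : a + b * w ≤ c * sw) :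
    a + b * r ≤ c * √r := by
  have h := sqrt_chord h1 h2 huw ha hb
  have hd : 0 < w - u := sub_pos.2 huw
  refine le_trans ?_ (mul_le_mul_of_nonneg_left h hc)
  rw [← mul_div_assoc, le_div_iff₀ hd]
  nlinarith [mul_nonneg (sub_nonneg.2 h2) (sub_nonneg.2 e1),
    mul_nonneg (sub_nonneg.2 h1) (sub_nonneg.2 e2)]

/-- piece from a `T1`-node -/
lemma tline {x J α β u w su sw r p : ℝ} (h : 0.598412 * √r ≤ J + x * p) (hx : 0 < x)
    (h1 : u ≤ r) (h2 : r ≤ w) (huw : u < w) (ha : su ^ 2 < u) (hb : sw ^ 2 < w)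
    (e1 : J + x * α + x * β * u ≤ 0.598412 * su) (e2 : J + x * α + x * β * w ≤ 0.598412 * sw) :
    α + β * r ≤ p := by
  have := sline (by norm_num) h1 h2 huw ha hb e1 e2
  nlinarith

/-- piece from cone isoperimetry -/
lemma mline {α β q0 u w su sw r p : ℝ} (h : p < 1 / 2 → 3 / 8 * √r < p * (1 - p))
    (h1 : u ≤ r) (h2 : r ≤ w) (huw : u < w) (ha : su ^ 2 < u) (hb : sw ^ 2 < w) (hβ : 0 ≤ β)
    (hq : α + β * w ≤ 1 / 2)
    (e1 : (1 - 2 * q0) * α + q0 ^ 2 + (1 - 2 * q0) * β * u ≤ 3 / 8 * su)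
    (e2 : (1 - 2 * q0) * α + q0 ^ 2 + (1 - 2 * q0) * β * w ≤ 3 / 8 * sw) : α + β * r ≤ p := by
  have := sline (by norm_num) h1 h2 huw ha hb e1 e2
  have hq' : α + β * r ≤ 1 / 2 := by nlinarith
  by_contra hn
  push Not at hn
  have h3 := h (by linarith)
  nlinarith [sq_nonneg (α + β * r - q0),
    mul_nonneg (sub_nonneg.2 hn.le) (by linarith : 0 ≤ 1 - (α + β * r) - p)]

/-- the exact tangent line at `r = 1/4` -/
lemma tan4 {r p : ℝ} (h : p < 1 / 2 → 3 / 8 * √r < p * (1 - p)) (h1 : 0.1002 ≤ r)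
    (h2 : r ≤ 4 / 9) : 1 / 16 + 3 / 4 * r < p := by
  by_contra hn
  push Not at hn
  have h3 := h (by linarith)
  have hs : √r ^ 2 = r := Real.sq_sqrt (by linarith)
  have h4 : 0.31654 ≤ √r := Real.le_sqrt_of_sq_le (by nlinarith)
  set s := √r
  have k := mul_nonneg (sq_nonneg (2 * s - 1)) (by nlinarith : 0 ≤ 36 * s ^ 2 + 36 * s - 15)
  have k2 := mul_nonneg (sub_nonneg.2 hn) (by linarith : 0 ≤ 1 - (1 / 16 + 3 / 4 * r) - p)
  rw [← hs] at k2
  nlinarith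

/-- line through the origin -/
lemma oline {c w r p : ℝ} (h : CellP r p) (h2 : r ≤ w) (hc : c ^ 2 * w ≤ l2 / 2) : c * r ≤ p := by
  have h1 := lc0 h
  have l : 0 < l2 := by unfold l2; norm_num
  have hr := h.rpos
  have : r / 2 ≤ hl r := by unfold hl; nlinarith [pow_pos hr 3, sq_nonneg r]
  refine le_trans (le_abs_self _) (abs_le_of_sq_le_sq ?_ h.ppos)
  nlinarith [mul_le_mul_of_nonneg_left h2 (sq_nonneg c), mul_le_mul_of_nonneg_left this l.le,
    mul_le_mul_of_nonneg_left ((mul_le_mul_of_nonneg_left h2 (sq_nonneg c)).trans hc) hr.le]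

/-- The tail test in reduced form. -/
def TJ (j r2 r3 rn t : ℝ) : Prop :=
  ∃ b3 b : ℝ, 0 ≤ b3 ∧ 0 ≤ b ∧ b3 + b ≤ t ∧ b3 ≤ r3 ∧ ∀ ρ, 0 ≤ ρ → rn ≤ ρ ^ 2 →
    9 * Real.pi / 2 * √((r3 - b3) * ((r2 - b) - (r3 - b3) / 4)) ≤ (j + 1) * (j * ρ + √t)

lemma kill {j r2 r3 rn t : ℝ} (h : TJ j r2 r3 rn t) (h23 : r3 ≤ r2) (R2 R3 ρ θ d : ℝ)
    (h2 : R2 ≤ r2) (h3 : R3 ≤ r3) (hn : rn ≤ ρ ^ 2) (ht : t ≤ θ ^ 2) (hj : 0 ≤ j) (hρ : 0 ≤ ρ)
    (hθ : 0 ≤ θ) (hθ2 : θ ^ 2 ≤ R3 / 2)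
    (e1 : d ^ 2 ≤ (R3 - θ ^ 2) * (R2 - (R3 - θ ^ 2) / 4))
    (e2 : d ^ 2 ≤ R3 * (R2 - θ ^ 2 - R3 / 4)) (e3 : (j + 1) * (j * ρ + θ) < 14.137 * d) :
    False := by
  obtain ⟨b3, b, h0, h1, h4, h5, h6⟩ := h
  have h7 := h6 ρ hρ hn
  have h8 : √t ≤ θ := Real.sqrt_le_iff.2 ⟨hθ, ht⟩
  set T := θ ^ 2
  have hT : 0 ≤ T := sq_nonneg θ
  have a1 : (R3 - b3) * ((r2 - b) - (R3 - b3) / 4) ≤ (r3 - b3) * ((r2 - b) - (r3 - b3) / 4) := by
    nlinarith [mul_nonneg (sub_nonneg.2 h3)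
      (by linarith : 0 ≤ (r2 - b) - ((r3 - b3) + (R3 - b3)) / 4)]
  have a2 : (R3 - b3) * ((R2 - T + b3) - (R3 - b3) / 4) ≤
      (R3 - b3) * ((r2 - b) - (R3 - b3) / 4) :=
    mul_le_mul_of_nonneg_left (by linarith) (by linarith)
  have a3 : d ^ 2 ≤ (R3 - b3) * ((R2 - T + b3) - (R3 - b3) / 4) := by
    rcases eq_or_lt_of_le hT with e | hT'
    · have : b3 = 0 := by linarith
      subst this; linarith
    · have k := mul_nonneg hT (mul_nonneg h0 (by linarith : 0 ≤ T - b3))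
      have k1 := mul_nonneg h0 (sub_nonneg.2 e1)
      have k2 := mul_nonneg (by linarith : 0 ≤ T - b3) (sub_nonneg.2 e2)
      by_contra hn
      push Not at hn
      have := mul_pos hT' (sub_pos.2 hn)
      nlinarith
  have a4 : d ≤ √((r3 - b3) * ((r2 - b) - (r3 - b3) / 4)) := Real.le_sqrt_of_sq_le (by linarith)
  have a5 := Real.pi_gt_d6
  have a6 := Real.sqrt_nonneg ((r3 - b3) * ((r2 - b) - (r3 - b3) / 4))
  have a7 : (j + 1) * (j * ρ + √t) ≤ (j + 1) * (j * ρ + θ) :=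
    mul_le_mul_of_nonneg_left (by linarith) (by linarith)
  nlinarith

end
end Crest.Agent.R215.Num
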