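import Crest.Agent.R215.Defs

/-! Row 215, task PHI: one-dimensional Gaussian calculus. -/

set_option autoImplicit false

namespace Crest.Agent.R215

open MeasureTheory ProbabilityTheory Filter Topology Set

noncomputable section

namespace PhiL

lemma int_phi : Integrable phi := by
  have : phi = gaussianPDFReal 0 1 := funext phi_eq
  rw [this]; exact integrable_gaussianPDFReal _ _

lemma integral_phi : ∫ x, phi x = 1 := by
  simp_rw [phi_eq]; exact integral_gaussianPDFReal_eq_one _ one_ne_zero

lemma setint (f : ℝ → ℝ) {s : Set ℝ} (hs : MeasurableSet s) :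
    ∫ x in s, f x ∂g1 = ∫ x in s, phi x * f x := by
  rw [← integral_indicator hs, integral_g1, ← integral_indicator hs]
  congr 1
  funext x
  by_cases h : x ∈ s <;> simp [h]

lemma phi_neg (x : ℝ) : phi (-x) = phi x := by simp [phi]

lemma phi_zero : phi 0 = 1 / √(2 * Real.pi) := by simp [phi]

lemma dPhi (x : ℝ) : HasDerivAt Phi (phi x) x := by
  have h : Phi = fun x => Phi 0 + ∫ t in (0 : ℝ)..x, phi t := by
    funext x
    rw [← intervalIntegral.integral_Iic_sub_Iic int_phi.integrableOn int_phi.integrableOn]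
    simp [Phi]
  rw [h]
  exact (continuous_phi.integral_hasStrictDerivAt 0 x).hasDerivAt.const_add _

lemma dphi (x : ℝ) : HasDerivAt phi (-x * phi x) x := by
  have h : HasDerivAt (fun x : ℝ => -x ^ 2 / 2) (-x) x :=
    ((hasDerivAt_pow 2 x).neg.div_const 2).congr_deriv (by simp; ring)
  exact (h.exp.div_const (√(2 * Real.pi))).congr_deriv (by unfold phi; ring)

lemma iic (x : ℝ) : g1.real (Iic x) = Phi x := by
  have := setint (fun _ => 1) (measurableSet_Iic (a := x))
  simpa [Phi, measureReal_def] using this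

lemma ioi (x : ℝ) : g1.real (Ioi x) = 1 - Phi x := by
  rw [← iic, ← compl_Iic, probReal_compl_eq_one_sub measurableSet_Iic]

lemma bot : Tendsto Phi atBot (𝓝 0) := by
  have : Phi = cdf g1 := funext fun x => by rw [cdf_eq_real, iic]
  rw [this]; exact tendsto_cdf_atBot _

lemma top : Tendsto Phi atTop (𝓝 1) := by
  have : Phi = cdf g1 := funext fun x => by rw [cdf_eq_real, iic]
  rw [this]; exact tendsto_cdf_atTop _

lemma mono : StrictMono Phi := strictMono_of_hasDerivAt_pos dPhi phi_pos

lemma pos (x : ℝ) : 0 < Phi x :=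
  lt_of_le_of_lt (by rw [← iic]; exact measureReal_nonneg) (mono (sub_one_lt x))

lemma neg (x : ℝ) : Phi (-x) = 1 - Phi x := by
  have h1 := intervalIntegral.integral_Iic_add_Ioi (b := x) int_phi.integrableOn
    int_phi.integrableOn
  have h2 := integral_comp_neg_Iic (-x) phi
  simp only [phi_neg, neg_neg] at h2
  rw [integral_phi] at h1
  unfold Phi
  linarith

lemma lt_one (x : ℝ) : Phi x < 1 := by linarith [neg x, pos (-x)]

lemma cont : Continuous Phi := continuous_iff_continuousAt.2 fun x => (dPhi x).continuousAt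

lemma surj (p : ℝ) (h0 : 0 < p) (h1 : p < 1) : ∃ x, Phi x = p :=
  mem_range_of_exists_le_of_exists_ge cont (bot.eventually (ge_mem_nhds h0)).exists
    (top.eventually (le_mem_nhds h1)).exists

lemma pow_phi_top (n : ℕ) : Tendsto (fun x => x ^ n * phi x) atTop (𝓝 0) := by
  have h := (Real.tendsto_pow_mul_exp_neg_atTop_nhds_zero n).mul_const
    (Real.exp (1 / 2) / √(2 * Real.pi))
  rw [zero_mul] at h
  refine squeeze_zero' ?_ ?_ h
  · filter_upwards [eventually_ge_atTop 0] with x hx
    exact mul_nonneg (pow_nonneg hx n) (phi_pos x).le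
  · filter_upwards [eventually_ge_atTop 0] with x hx
    rw [mul_assoc, ← mul_div_assoc, ← Real.exp_add]
    unfold phi
    gcongr
    nlinarith [sq_nonneg (x - 1)]

lemma phi_top : Tendsto phi atTop (𝓝 0) := by simpa using pow_phi_top 0

lemma phi_bot : Tendsto phi atBot (𝓝 0) := by
  have := phi_top.comp tendsto_neg_atBot_atTop
  simpa [Function.comp_def, phi_neg] using this

lemma xphi_bot : Tendsto (fun x => -x * phi x) atBot (𝓝 0) := by
  have := (pow_phi_top 1).comp tendsto_neg_atBot_atTop
  simpa [Function.comp_def, phi_neg] using this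

lemma int_id : Integrable (fun s : ℝ => s) g1 := IsGaussian.integrable_id

lemma mom (a : ℝ) : ∫ s in Ioi a, s ∂g1 = phi a := by
  rw [setint _ measurableSet_Ioi]
  have hi : Integrable fun s => phi s * s := by
    have := (integrable_mul_exp_neg_mul_sq (b := 1 / 2) (by norm_num)).div_const (√(2 * Real.pi))
    refine this.congr (ae_of_all _ fun s => ?_)
    simp only [phi]
    rw [show -(1 / 2 : ℝ) * s ^ 2 = -s ^ 2 / 2 by ring]
    ring
  have := integral_Ioi_of_hasDerivAt_of_tendsto' (a := a) (f := fun s => -phi s)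
    (f' := fun s => phi s * s) (fun s _ => (dphi s).neg.congr_deriv (by ring)) hi.integrableOn
    phi_top.neg
  simpa using this

lemma pos1 (a : ℝ) : ∫ s, max (s - a) 0 ∂g1 = phi a - a * (1 - Phi a) := by
  have h : (fun s => max (s - a) 0) = (Ioi a).indicator fun s => s - a := by
    funext s
    by_cases hs : a < s
    · rw [indicator_of_mem (mem_Ioi.2 hs), max_eq_left (by linarith)]
    · rw [indicator_of_notMem (by simpa using hs), max_eq_right (by linarith)]
  rw [h, integral_indicator measurableSet_Ioi,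
    integral_sub int_id.integrableOn (integrable_const _), mom, setIntegral_const, ioi]
  simp [mul_comm]

lemma abs1 : ∫ s, |s| ∂g1 = 2 / √(2 * Real.pi) := by
  have h : (fun s : ℝ => |s|) = fun s => 2 * max (s - 0) 0 - s := by
    funext s
    rcases le_total 0 s with h | h
    · rw [abs_of_nonneg h, max_eq_left (by linarith)]; ring
    · rw [abs_of_nonpos h, max_eq_right (by linarith)]; ring
  have hi : Integrable (fun s : ℝ => max (s - 0) 0) g1 :=
    (int_id.sub (integrable_const _)).sup (integrable_const _)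
  rw [h, integral_sub (hi.const_mul 2) int_id, integral_const_mul, pos1, integral_id_gaussianReal,
    phi_zero]
  ring

lemma pos3 : ∫ s, (max s 0) ^ 3 ∂g1 = 2 / √(2 * Real.pi) := by
  have h : (fun s : ℝ => (max s 0) ^ 3) = (Ioi 0).indicator fun s => s ^ 3 := by
    funext s
    by_cases hs : 0 < s
    · rw [indicator_of_mem (mem_Ioi.2 hs), max_eq_left hs.le]
    · rw [indicator_of_notMem (by simpa using hs), max_eq_right (by linarith)]; simp
  rw [h, integral_indicator measurableSet_Ioi, setint _ measurableSet_Ioi]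
  have ht : Tendsto (fun s => -(s ^ 2 * phi s + 2 * phi s)) atTop (𝓝 0) := by
    simpa using ((pow_phi_top 2).add (phi_top.const_mul 2)).neg
  have := integral_Ioi_of_hasDerivAt_of_nonneg' (a := 0) (g := fun s => -(s ^ 2 * phi s + 2 * phi s))
    (g' := fun s => phi s * s ^ 3)
    (fun s _ => (((hasDerivAt_pow 2 s).mul (dphi s)).add ((dphi s).const_mul 2)).neg.congr_deriv
      (by simp; ring))
    (fun s hs => mul_nonneg (phi_pos s).le (pow_nonneg (le_of_lt hs) 3)) ht
  rw [this, phi_zero]
  ring

lemma mills (x : ℝ) : 0 ≤ phi x + x * Phi x := by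
  have h := pos1 (-x)
  rw [phi_neg, neg] at h
  have h2 : 0 ≤ ∫ s, max (s - -x) 0 ∂g1 := integral_nonneg fun s => le_max_right _ _
  linarith

lemma dM (x : ℝ) : HasDerivAt (fun x => phi x + x * Phi x) (Phi x) x :=
  ((dphi x).add ((hasDerivAt_id' x).mul (dPhi x))).congr_deriv (by ring)

lemma M_bot : Tendsto (fun x => phi x + x * Phi x) atBot (𝓝 0) := by
  refine squeeze_zero' (Eventually.of_forall mills) ?_ phi_bot
  filter_upwards [eventually_le_atBot 0] with x hx
  nlinarith [pos x]

lemma intPhi (x c : ℝ) (hc : 0 < c) : IntegrableOn (fun t => Phi (x - c * t)) (Ioi 0) ∧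
    ∫ t in Ioi 0, Phi (x - c * t) = (phi x + x * Phi x) / c := by
  have hd : ∀ t ∈ Ici (0 : ℝ), HasDerivAt
      (fun t => -((phi (x - c * t) + (x - c * t) * Phi (x - c * t)) / c)) (Phi (x - c * t)) t := by
    intro t _
    have h1 : HasDerivAt (fun t => x - c * t) (-c) t := by
      simpa using ((hasDerivAt_id' t).const_mul c).const_sub x
    exact (((dM (x - c * t)).comp t h1).div_const c).neg.congr_deriv
      (by rw [mul_neg, neg_div, neg_neg, mul_div_assoc, div_self hc.ne', mul_one])
  have hb : Tendsto (fun t => x - c * t) atTop atBot := by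
    simp_rw [sub_eq_add_neg]
    exact tendsto_atBot_add_const_left _ _
      (tendsto_neg_atTop_atBot.comp (tendsto_id.const_mul_atTop hc))
  have ht : Tendsto (fun t => -((phi (x - c * t) + (x - c * t) * Phi (x - c * t)) / c)) atTop
      (𝓝 0) := by
    simpa using ((M_bot.comp hb).div_const c).neg
  refine ⟨integrableOn_Ioi_deriv_of_nonneg' hd (fun t _ => (pos _).le) ht, ?_⟩
  rw [integral_Ioi_of_hasDerivAt_of_nonneg' hd (fun t _ => (pos _).le) ht]
  simp

lemma min_at {h h' : ℝ → ℝ} (hd : ∀ y, HasDerivAt h (h' y) y) (y0 : ℝ)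
    (h1 : ∀ y, y0 ≤ y → 0 ≤ h' y) (h2 : ∀ y, y ≤ y0 → h' y ≤ 0) (y : ℝ) : h y0 ≤ h y := by
  have hc : Continuous h := continuous_iff_continuousAt.2 fun x => (hd x).continuousAt
  rcases lt_trichotomy y y0 with hy | rfl | hy
  · obtain ⟨c, hc1, hc2⟩ := exists_hasDerivAt_eq_slope h h' hy hc.continuousOn (fun x _ => hd x)
    have := h2 c hc1.2.le
    rw [hc2, div_nonpos_iff] at this
    rcases this with h | h <;> linarith [h.1, h.2]
  · exact le_rfl
  · obtain ⟨c, hc1, hc2⟩ := exists_hasDerivAt_eq_slope h h' hy hc.continuousOn (fun x _ => hd x)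
    have := h1 c hc1.1.le
    rw [hc2, div_nonneg_iff] at this
    rcases this with h | h <;> linarith [h.1, h.2]

lemma shift (y y0 c : ℝ) (hc : 0 ≤ c) :
    Phi (y + c) ≤ Phi (y0 + c) + Real.exp (-c * y0 - c ^ 2 / 2) * (Phi y - Phi y0) := by
  have hp : ∀ y, phi (y + c) = phi y * Real.exp (-c * y - c ^ 2 / 2) := by
    intro y
    unfold phi
    rw [div_mul_eq_mul_div, ← Real.exp_add]
    congr 2
    ring
  have := min_at (h := fun y => Real.exp (-c * y0 - c ^ 2 / 2) * Phi y - Phi (y + c))
    (h' := fun y => phi y * (Real.exp (-c * y0 - c ^ 2 / 2) - Real.exp (-c * y - c ^ 2 / 2)))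
    (fun y => (((dPhi y).const_mul _).sub ((dPhi (y + c)).comp_add_const y c)).congr_deriv
      (by rw [hp]; ring)) y0
    (fun y hy => mul_nonneg (phi_pos y).le
      (sub_nonneg.2 (Real.exp_le_exp.2 (by nlinarith))))
    (fun y hy => mul_nonpos_of_nonneg_of_nonpos (phi_pos y).le
      (sub_nonpos.2 (Real.exp_le_exp.2 (by nlinarith)))) y
  linarith

lemma dPsi (x : ℝ) : HasDerivAt Psi (phi x * psi1 x) x :=
  ((dphi x).mul (dM x)).congr_deriv (by unfold psi1; ring)

lemma mono2 : Monotone fun x => 2 * Phi x - psi1 x := by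
  refine monotone_of_hasDerivAt_nonneg (f' := fun x => 2 * (phi x + x * Phi x)) (fun x => ?_)
    (fun x => mul_nonneg zero_le_two (mills x))
  have h : HasDerivAt psi1 _ x := ((hasDerivAt_id' x).neg.mul (dphi x)).add
    (((hasDerivAt_pow 2 x).const_sub 1).mul (dPhi x))
  exact (((dPhi x).const_mul 2).sub h).congr_deriv (by simp; ring)

lemma q (x x0 : ℝ) : Psi x ≤ Psi x0 + psi1 x0 * (Phi x - Phi x0) + (Phi x - Phi x0) ^ 2 := by
  have := min_at (h := fun x => psi1 x0 * (Phi x - Phi x0) + (Phi x - Phi x0) ^ 2 - Psi x)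
    (h' := fun x => phi x * ((2 * Phi x - psi1 x) - (2 * Phi x0 - psi1 x0)))
    (fun x => (((((dPhi x).sub_const _).const_mul _).add (((dPhi x).sub_const _).pow 2)).sub
      (dPsi x)).congr_deriv (by simp; ring)) x0
    (fun y hy => mul_nonneg (phi_pos y).le (sub_nonneg.2 (mono2 hy)))
    (fun y hy => mul_nonpos_of_nonneg_of_nonpos (phi_pos y).le (sub_nonpos.2 (mono2 hy))) x
  linarith

lemma lc (x : ℝ) : Psi x ≤ Phi x ^ 2 := by
  have h1 : Tendsto Psi atBot (𝓝 0) := by
    have := phi_bot.mul M_bot
    rw [mul_zero] at this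
    exact this
  have h2 : Tendsto (fun x => x ^ 2 * Phi x) atBot (𝓝 0) := by
    refine squeeze_zero' (Eventually.of_forall fun x => mul_nonneg (sq_nonneg x) (pos x).le) ?_
      xphi_bot
    filter_upwards [eventually_le_atBot 0] with x hx
    nlinarith [mills x]
  have h3 : Tendsto psi1 atBot (𝓝 0) := by
    have := (xphi_bot.add bot).sub h2
    rw [add_zero, sub_zero] at this
    exact this.congr fun x => by unfold psi1; ring
  have h4 := (h1.add (h3.mul (bot.const_sub (Phi x)))).add ((bot.const_sub (Phi x)).pow 2)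
  have := ge_of_tendsto' h4 fun x0 => q x x0
  simpa using this

end PhiL

open PhiL in
theorem phiB : PhiB :=
  ⟨dPhi, dphi, pos, lt_one, mono, bot, top, surj, neg, iic, ioi, mom, pos1, abs1, pos3, mills,
    intPhi, shift, q, lc⟩

end

end Crest.Agent.R215
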