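import Crest.Agent.R215.Defs

/-! Row 215, task SB: the small-ball bound. -/

set_option autoImplicit false

namespace Crest.Agent.R215

open MeasureTheory ProbabilityTheory Filter Topology Set
open scoped RealInnerProductSpace ENNReal

namespace SBL

lemma g1_le (f : ℝ → ℝ≥0∞) (hf : Measurable f) {a : ℝ} (ha : 0 < a) (c : ℝ) :
    ∫⁻ s, f (a * s + c) ∂g1 ≤ ENNReal.ofReal (1 / (a * √(2 * Real.pi))) * ∫⁻ t, f t := by
  have hpi := Real.pi_pos
  have h1 : ∫⁻ s, f (a * s + c) = ENNReal.ofReal (1 / a) * ∫⁻ t, f t := by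
    rw [← lintegral_add_right_eq_self f c,
      ← lintegral_map (f := fun t => f (t + c)) (g := fun s => a * s) (by fun_prop) (by fun_prop),
      Real.map_volume_mul_left ha.ne', lintegral_smul_measure, abs_of_pos (inv_pos.2 ha), one_div,
      smul_eq_mul]
  rw [g1, gaussianReal_of_var_ne_zero _ one_ne_zero,
    lintegral_withDensity_eq_lintegral_mul _ (measurable_gaussianPDF _ _) (by fun_prop)]
  calc _ ≤ ∫⁻ s, ENNReal.ofReal (1 / √(2 * Real.pi)) * f (a * s + c) := by
        refine lintegral_mono fun s => ?_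
        simp only [Pi.mul_apply]
        gcongr
        rw [gaussianPDF, ← phi_eq]
        refine ENNReal.ofReal_le_ofReal ?_
        unfold phi
        gcongr
        rw [Real.exp_le_one_iff]
        nlinarith [sq_nonneg s]
    _ = _ := by
        rw [lintegral_const_mul _ (by fun_prop), h1, ← mul_assoc, ← ENNReal.ofReal_mul (by positivity)]
        congr 2
        field_simp

lemma step {n : ℕ} (e z : Eu n) (he : ‖e‖ = 1) {a : ℝ} (ha : 0 < a) (hz : ⟪z, e⟫ = a)
    (Φ : Eu n → ℝ → ℝ≥0∞) (hΦ : Measurable (Function.uncurry Φ))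
    (hinv : ∀ g (s : ℝ), Φ (g + s • e) = Φ g) :
    ∫⁻ g, Φ g ⟪z, g⟫ ∂gam n ≤
      ∫⁻ g, ENNReal.ofReal (1 / (a * √(2 * Real.pi))) * (∫⁻ t, Φ g t) ∂gam n := by
  have hm : Measurable fun g : Eu n => Φ g ⟪z, g⟫ :=
    hΦ.comp (f := fun g : Eu n => (g, ⟪z, g⟫)) (by fun_prop)
  rw [← (split e he).lintegral_comp hm]
  refine (lintegral_prod_symm _ ((hm.comp (split e he).measurable).aemeasurable)).le.trans ?_
  refine lintegral_mono fun g => ?_
  refine le_trans (le_of_eq ?_) (g1_le (Φ g) hΦ.of_uncurry_left ha (⟪z, g⟫ - ⟪e, g⟫ * a))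
  refine lintegral_congr fun s => ?_
  have h1 : s • e + (g - ⟪e, g⟫ • e) = g + (s - ⟪e, g⟫) • e := by module
  simp only [Function.comp, h1, hinv, inner_add_right, real_inner_smul_right, hz]
  congr 1
  ring

lemma pow_int (k : ℕ) {a : ℝ} (ha : 0 < a) (c : ℝ) :
    ∫⁻ t in Ioi 0, ENNReal.ofReal (max (c - a * t) 0 ^ (k + 1)) =
      ENNReal.ofReal (max c 0 ^ (k + 2) / (a * (k + 2))) := by
  rcases le_total c 0 with hc | hc
  · rw [setLIntegral_congr_fun measurableSet_Ioi (g := fun _ => 0), max_eq_right hc]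
    · simp
    · intro t ht
      have : 0 < a * t := mul_pos ha ht
      simp only
      rw [max_eq_right (by linarith)]
      simp
  have h0 : 0 ≤ c / a := by positivity
  rw [← Ioc_union_Ioi_eq_Ioi h0, lintegral_union measurableSet_Ioi Ioc_disjoint_Ioi_same,
    setLIntegral_congr_fun measurableSet_Ioi (g := fun _ => 0), lintegral_zero, add_zero,
    setLIntegral_congr_fun measurableSet_Ioc (g := fun t => ENNReal.ofReal ((c - a * t) ^ (k + 1))),
    ← ofReal_integral_eq_lintegral_ofReal, ← intervalIntegral.integral_of_le h0, max_eq_left hc]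
  · congr 1
    rw [intervalIntegral.integral_comp_sub_mul (fun x => x ^ (k + 1)) ha.ne', integral_pow]
    have : c - a * (c / a) = 0 := by field_simp; ring
    rw [this]
    simp only [mul_zero, sub_zero, smul_eq_mul, ne_eq, Nat.add_eq_zero_iff, one_ne_zero, and_false,
      not_false_eq_true, zero_pow]
    push_cast
    field_simp
    ring
  · exact (Continuous.integrableOn_Icc (by fun_prop)).mono_set Ioc_subset_Icc_self
  · refine (ae_restrict_iff' measurableSet_Ioc).2 (ae_of_all _ fun t ht => pow_nonneg ?_ _)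
    have := ht.2
    rw [le_div_iff₀ ha] at this
    linarith
  · intro t ht
    have := ht.2
    rw [le_div_iff₀ ha] at this
    simp only
    rw [max_eq_left (by linarith)]
  · intro t ht
    have : c / a < t := ht
    rw [div_lt_iff₀ ha] at this
    simp only
    rw [max_eq_right (by linarith)]
    simp

lemma layer (c : ℝ) : ENNReal.ofReal c = ∫⁻ τ in Ioi (0 : ℝ), if τ < c then 1 else 0 := by
  have : (fun τ : ℝ => if τ < c then (1 : ℝ≥0∞) else 0) = (Iio c).indicator 1 := by
    funext τ; simp [indicator]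
  rw [this, lintegral_indicator_one measurableSet_Iio, Measure.restrict_apply measurableSet_Iio,
    inter_comm, Ioi_inter_Iio, Real.volume_Ioo, sub_zero]

lemma inner1 {m : ℝ} (hm : 0 < m) (μ ν X : ℝ) :
    ∫⁻ Y, ENNReal.ofReal (μ - max X (max Y ((ν - X - Y) / m))) = ∫⁻ τ in Ioi (0 : ℝ),
      if X < μ - τ then ENNReal.ofReal ((m + 2) * (μ - τ) - ν - (μ - τ - X)) else 0 := by
  simp_rw [layer (μ - _)]
  rw [lintegral_lintegral_swap]
  · refine lintegral_congr fun τ => ?_
    split_ifs with h
    · have : (fun Y : ℝ => if τ < μ - max X (max Y ((ν - X - Y) / m)) then (1 : ℝ≥0∞) else 0) =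
          (Ioo (ν - X - m * (μ - τ)) (μ - τ)).indicator 1 := by
        funext Y
        have : τ < μ - max X (max Y ((ν - X - Y) / m)) ↔ Y ∈ Ioo (ν - X - m * (μ - τ)) (μ - τ) := by
          rw [lt_sub_comm, max_lt_iff, max_lt_iff, div_lt_iff₀ hm, mem_Ioo]
          constructor
          · rintro ⟨-, h1, h2⟩
            exact ⟨by linarith, h1⟩
          · rintro ⟨h1, h2⟩
            exact ⟨h, h2, by linarith⟩
        simp only [this, indicator, Pi.one_apply]
      rw [this, lintegral_indicator_one measurableSet_Ioo, Real.volume_Ioo]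
      congr 1
      ring
    · refine (lintegral_congr fun Y => if_neg fun h' => h ?_).trans lintegral_zero
      rw [lt_sub_comm, max_lt_iff] at h'
      exact h'.1
  · exact (Measurable.ite (measurableSet_lt (by fun_prop) (by fun_prop)) measurable_const
      measurable_const).aemeasurable

lemma planar {m : ℝ} (hm : 0 < m) (μ ν : ℝ) :
    ∫⁻ X, ∫⁻ Y, ENNReal.ofReal (μ - max X (max Y ((ν - X - Y) / m))) =
      ENNReal.ofReal (max ((m + 2) * μ - ν) 0 ^ 3 / (6 * (m + 2))) := by
  simp_rw [inner1 hm]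
  rw [lintegral_lintegral_swap]
  · have h1 : ∀ r l : ℝ, ∫⁻ X, (if X < r then ENNReal.ofReal (l - (r - X)) else 0) =
        ENNReal.ofReal (1 / 2) * ENNReal.ofReal (max l 0 ^ (1 + 1)) := by
      intro r l
      rw [← lintegral_sub_left_eq_self _ r, ← ENNReal.ofReal_mul (by norm_num)]
      have h2 := pow_int 0 one_pos l
      rw [← lintegral_indicator measurableSet_Ioi] at h2
      refine Eq.trans (lintegral_congr fun t => ?_) (h2.trans ?_)
      · simp [indicator, ENNReal.ofReal_max]
      · congr 1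
        norm_num
        ring
    simp_rw [h1]
    rw [lintegral_const_mul _ (by fun_prop)]
    have h2 := pow_int 1 (a := m + 2) (by linarith) ((m + 2) * μ - ν)
    simp_rw [show ∀ τ, (m + 2) * (μ - τ) - ν = (m + 2) * μ - ν - (m + 2) * τ from fun τ => by ring]
    rw [h2, ← ENNReal.ofReal_mul (by norm_num)]
    congr 1
    push_cast
    field_simp
    ring
  · exact (Measurable.ite (measurableSet_lt (by fun_prop) (by fun_prop)) (by fun_prop)
      measurable_const).aemeasurable

end SBL

theorem sb : SBStmt := by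
  intro n e1 e2 x y α β m μ ν he1 he2 _ hα hβ hm hx1 hx2 hy2 hμ hν hinv
  have hpi := Real.pi_pos
  have h1 := SBL.step e2 y he2 hβ hy2
    (fun g Y => ENNReal.ofReal (μ g - max ⟪x, g⟫ (max Y ((ν g - ⟪x, g⟫ - Y) / m))))
    (by unfold Function.uncurry; fun_prop) (fun g s => by
      simp only [(hinv g s).2.1, (hinv g s).2.2.2, inner_add_right, real_inner_smul_right, hx2,
        mul_zero, add_zero])
  have hm2 : Measurable (Function.uncurry fun (g : Eu n) (X : ℝ) =>
      ∫⁻ Y, ENNReal.ofReal (μ g - max X (max Y ((ν g - X - Y) / m)))) :=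
    Measurable.lintegral_prod_right' (f := fun p : (Eu n × ℝ) × ℝ =>
      ENNReal.ofReal (μ p.1.1 - max p.1.2 (max p.2 ((ν p.1.1 - p.1.2 - p.2) / m)))) (by fun_prop)
  have h2 := SBL.step e1 x he1 hα hx1 _ hm2 (fun g s => by
      simp only [(hinv g s).1, (hinv g s).2.2.1])
  refine h1.trans ?_
  rw [lintegral_const_mul' _ _ ENNReal.ofReal_ne_top]
  refine (mul_le_mul_right h2 _).trans (le_of_eq ?_)
  rw [← lintegral_const_mul' _ _ ENNReal.ofReal_ne_top]
  refine lintegral_congr fun g => ?_
  rw [SBL.planar hm, ← ENNReal.ofReal_mul (by positivity), ← ENNReal.ofReal_mul (by positivity)]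
  congr 1
  have h3 : √(2 * Real.pi) ^ 2 = 2 * Real.pi := Real.sq_sqrt (by positivity)
  have h4 : 0 < √(2 * Real.pi) := by positivity
  field_simp
  rw [h3]
  ring

end Crest.Agent.R215
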